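import Mathlib
import Vale.Agent.P150.Bdl.B39

/-! Product measures on the cube: entropy is at most the sum of the one-site Bregman divergences from
arbitrary one-site invariant functions, and controls the displacement of the mean. -/

open Finset Real

namespace Vale.Agent.P150.H185

open Vale.Agent.P150.Prod Vale.Agent.P150.F

/-- Bregman divergence of `x log x` -/
noncomputable def Dv (a t : ℝ) : ℝ := a * log a - a * log t - a + t

lemma Dv_nonneg {a t : ℝ} (ha : 0 < a) (ht : 0 < t) : 0 ≤ Dv a t := by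
  unfold Dv
  have h1 := one_sub_inv_le_log_of_pos (div_pos ha ht)
  rw [log_div ha.ne' ht.ne', inv_div] at h1
  have h2 := mul_le_mul_of_nonneg_left h1 ha.le
  have h3 : a * (1 - t / a) = a - t := by field_simp
  rw [h3] at h2
  linarith

lemma Dv_ge_sqrt {a t : ℝ} (ha : 0 < a) (ht : 0 < t) : (√a - √t) ^ 2 ≤ Dv a t := by
  have ea := Real.sq_sqrt ha.le
  have et := Real.sq_sqrt ht.le
  set u := √a with hu
  set v := √t with hv
  have hu0 : 0 < u := Real.sqrt_pos.2 ha
  have hv0 : 0 < v := Real.sqrt_pos.2 ht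
  unfold Dv
  rw [← ea, ← et, log_pow, log_pow]
  have h1 := one_sub_inv_le_log_of_pos (div_pos hu0 hv0)
  rw [log_div hu0.ne' hv0.ne', inv_div] at h1
  have h2 := mul_le_mul_of_nonneg_left h1 (sq_nonneg u)
  have h3 : u ^ 2 * (1 - v / u) = u ^ 2 - u * v := by field_simp
  rw [h3] at h2
  push_cast
  linarith

lemma Dv_smul {a t m : ℝ} (ha : 0 < a) (ht : 0 < t) (hm : 0 < m) :
    Dv (a / m) (t / m) = Dv a t / m := by
  unfold Dv
  rw [log_div ha.ne' hm.ne', log_div ht.ne' hm.ne']
  field_simp
  ring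

/-- truncation decreases the divergence -/
lemma Dv_min {a t c : ℝ} (ha : 0 < a) (ht : 0 < t) (hc : 0 < c) :
    Dv (min a c) (min t c) ≤ Dv a t := by
  rcases le_total a c with h1 | h1 <;> rcases le_total t c with h2 | h2
  · rw [min_eq_left h1, min_eq_left h2]
  · -- a ≤ c ≤ t
    rw [min_eq_left h1, min_eq_right h2]
    have h3 := log_le_sub_one_of_pos (div_pos ht hc)
    rw [log_div ht.ne' hc.ne'] at h3
    have h4 : 0 ≤ t / c - 1 := by rw [sub_nonneg, one_le_div hc]; exact h2
    have h5 : a * (log t - log c) ≤ c * (t / c - 1) :=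
      mul_le_mul h1 h3 (sub_nonneg.2 (log_le_log hc h2)) hc.le
    have h6 : c * (t / c - 1) = t - c := by field_simp
    unfold Dv
    linarith
  · -- t ≤ c ≤ a
    rw [min_eq_right h1, min_eq_left h2]
    have h3 := one_sub_inv_le_log_of_pos (div_pos ha hc)
    rw [log_div ha.ne' hc.ne', inv_div] at h3
    have h4 := mul_le_mul_of_nonneg_left h3 ha.le
    have h5 : a * (1 - c / a) = a - c := by field_simp
    have h6 : 0 ≤ (a - c) * (log c - log t) :=
      mul_nonneg (by linarith) (sub_nonneg.2 (log_le_log ht h2))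
    unfold Dv
    linarith
  · rw [min_eq_right h1, min_eq_right h2]
    have h3 := Dv_nonneg ha ht
    have h4 : Dv c c = 0 := by unfold Dv; ring
    rw [h4]; exact h3

/-- joint convexity -/
lemma Dv_convex {ι : Type*} [Fintype ι] [Nonempty ι] (P u v : ι → ℝ) (hP : ∀ x, 0 < P x)
    (hu : ∀ x, 0 < u x) (hv : ∀ x, 0 < v x) :
    Dv (∑ x, P x * u x) (∑ x, P x * v x) ≤ ∑ x, P x * Dv (u x) (v x) := by
  have h := log_sum P u v hP hu hv
  have e : ∑ x, P x * Dv (u x) (v x)
      = ∑ x, P x * (u x * (log (u x) - log (v x))) - ∑ x, P x * u x + ∑ x, P x * v x := by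
    rw [← sum_sub_distrib, ← sum_add_distrib]
    exact sum_congr rfl fun x _ => by unfold Dv; ring
  rw [e]
  unfold Dv
  linarith

/-- two-point entropy against an arbitrary reference value -/
lemma two_point_le {p q u v t : ℝ} (hp : 0 < p) (hq : 0 < q) (hpq : p + q = 1) (hu : 0 < u)
    (hv : 0 < v) (ht : 0 < t) :
    p * (u * log u) + q * (v * log v) - (p * u + q * v) * log (p * u + q * v)
      ≤ p * Dv u t + q * Dv v t := by
  have hm : 0 < p * u + q * v := by positivity
  have h := Dv_nonneg hm ht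
  unfold Dv at *
  have e : p * (u * log u - u * log t - u + t) + q * (v * log v - v * log t - v + t)
      = p * (u * log u) + q * (v * log v) - (p * u + q * v) * log t - (p * u + q * v)
        + (p + q) * t := by ring
  rw [e, hpq]
  linarith

/-- **Tensorization.** -/
theorem prod_ent_gen (n : ℕ) : ∀ (p : Fin n → Bool → ℝ) (_ : ∀ i s, 0 < p i s)
    (_ : ∀ i, p i true + p i false = 1) (f : Cfg n → ℝ) (_ : ∀ x, 0 < f x)
    (t : Fin n → Cfg n → ℝ) (_ : ∀ i x, 0 < t i x) (_ : ∀ i x, t i (flip x i) = t i x),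
    ∑ x, PW p x * (f x * log (f x)) - (∑ x, PW p x * f x) * log (∑ x, PW p x * f x)
      ≤ ∑ i, ∑ x, PW p x * Dv (f x) (t i x) := by
  induction n with
  | zero =>
    intro p hp hs f hf t ht hi
    unfold PW
    simp
  | succ n ih =>
    intro p hp hs f hf t ht hi
    set p' : Fin n → Bool → ℝ := fun i => p i.succ with hp'
    let Fs : Bool → Cfg n → ℝ := fun s x => f (Fin.cons s x : Cfg (n + 1))
    have hFs : ∀ s x, 0 < Fs s x := fun s x => hf _
    have hP' : ∀ x, 0 < PW p' x := PW_pos p' (fun i s => hp _ _)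
    let a : Bool → ℝ := fun s => ∑ x, PW p' x * Fs s x
    have ha : ∀ s, 0 < a s := fun s =>
      Finset.sum_pos (fun x _ => mul_pos (hP' x) (hFs s x)) Finset.univ_nonempty
    let ts : Bool → Fin n → Cfg n → ℝ := fun s i x => t i.succ (Fin.cons s x : Cfg (n + 1))
    have hts : ∀ s i x, 0 < ts s i x := fun s i x => ht _ _
    have htsi : ∀ s i x, ts s i (flip x i) = ts s i x := by
      intro s i x
      show t i.succ (Fin.cons s (flip x i) : Cfg (n + 1)) = t i.succ (Fin.cons s x : Cfg (n + 1))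
      rw [← flip_cons_succ, hi]
    have hih : ∀ s, ∑ x, PW p' x * (Fs s x * log (Fs s x)) - a s * log (a s)
        ≤ ∑ i, ∑ x, PW p' x * Dv (Fs s x) (ts s i x) := fun s =>
      ih p' (fun i s => hp _ _) (fun i => hs _) (Fs s) (hFs s) (ts s) (hts s) (htsi s)
    let τ : Cfg n → ℝ := fun x => t 0 (Fin.cons true x : Cfg (n + 1))
    have hτ : ∀ x, 0 < τ x := fun x => ht _ _
    have hτf : ∀ x, t 0 (Fin.cons false x : Cfg (n + 1)) = τ x := by
      intro x
      have h := hi 0 (Fin.cons true x : Cfg (n + 1))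
      rw [flip_cons_zero] at h
      exact h
    set T := ∑ x, PW p' x * τ x with hT
    have hT0 : 0 < T := Finset.sum_pos (fun x _ => mul_pos (hP' x) (hτ x)) Finset.univ_nonempty
    have e1 : ∑ x, PW p x * (f x * log (f x))
        = p 0 true * ∑ x, PW p' x * (Fs true x * log (Fs true x))
          + p 0 false * ∑ x, PW p' x * (Fs false x * log (Fs false x)) := by
      rw [sum_cons, Fintype.sum_bool, Finset.mul_sum, Finset.mul_sum]
      congr 1 <;>
      · apply Finset.sum_congr rfl; intro x _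
        rw [PW_cons]; ring
    have e2 : ∑ x, PW p x * f x = p 0 true * a true + p 0 false * a false := by
      rw [sum_cons, Fintype.sum_bool, Finset.mul_sum, Finset.mul_sum]
      congr 1 <;>
      · apply Finset.sum_congr rfl; intro x _
        rw [PW_cons]; ring
    have h2p := two_point_le (hp 0 true) (hp 0 false) (hs 0) (ha true) (ha false) hT0
    have hc1 := Dv_convex (PW p') (Fs true) τ hP' (hFs true) hτ
    have hc2 := Dv_convex (PW p') (Fs false) τ hP' (hFs false) hτ
    have e3 : ∑ i, ∑ x, PW p x * Dv (f x) (t i x)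
        = (p 0 true * ∑ x, PW p' x * Dv (Fs true x) (τ x)
            + p 0 false * ∑ x, PW p' x * Dv (Fs false x) (τ x))
        + (p 0 true * ∑ i, ∑ x, PW p' x * Dv (Fs true x) (ts true i x)
            + p 0 false * ∑ i, ∑ x, PW p' x * Dv (Fs false x) (ts false i x)) := by
      rw [Fin.sum_univ_succ]
      congr 1
      · rw [sum_cons, Fintype.sum_bool, Finset.mul_sum, Finset.mul_sum]
        congr 1
        · apply Finset.sum_congr rfl; intro x _
          rw [PW_cons]
          show p 0 true * PW p' x * Dv (Fs true x) (τ x) = _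
          ring
        · apply Finset.sum_congr rfl; intro x _
          rw [PW_cons, hτf]
          show p 0 false * PW p' x * Dv (Fs false x) (τ x) = _
          ring
      · rw [Finset.mul_sum, Finset.mul_sum, ← Finset.sum_add_distrib]
        apply Finset.sum_congr rfl; intro i _
        rw [sum_cons, Fintype.sum_bool, Finset.mul_sum, Finset.mul_sum]
        congr 1
        · apply Finset.sum_congr rfl; intro x _
          rw [PW_cons]
          show p 0 true * PW p' x * Dv (Fs true x) (ts true i x) = _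
          ring
        · apply Finset.sum_congr rfl; intro x _
          rw [PW_cons]
          show p 0 false * PW p' x * Dv (Fs false x) (ts false i x) = _
          ring
    rw [e1, e2, e3]
    have hpt := hp 0 true
    have hpf := hp 0 false
    have h3 := mul_le_mul_of_nonneg_left (hih true) hpt.le
    have h4 := mul_le_mul_of_nonneg_left (hih false) hpf.le
    have h5 := mul_le_mul_of_nonneg_left hc1 hpt.le
    have h6 := mul_le_mul_of_nonneg_left hc2 hpf.le
    have h7 : Dv (a true) T ≤ Dv (a true) T := le_rfl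
    change p 0 true * Dv (a true) T ≤ _ at h5
    change p 0 false * Dv (a false) T ≤ _ at h6
    linarith only [h6, h5, h4, h3, h2p]

/-- the one-site weights of `gM 0 y` -/
noncomputable def pw1 {n : ℕ} (y : Vec n) (i : Fin n) (s : Bool) : ℝ :=
  exp (y i * sp s) / (exp (y i) + exp (-y i))

lemma pw1_pos {n : ℕ} (y : Vec n) (i : Fin n) (s : Bool) : 0 < pw1 y i s := by
  unfold pw1; positivity

lemma pw1_sum {n : ℕ} (y : Vec n) (i : Fin n) : pw1 y i true + pw1 y i false = 1 := by
  have : 0 < exp (y i) + exp (-y i) := by positivity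
  unfold pw1 sp
  simp only [if_true, Bool.false_eq_true, if_false]
  rw [← add_div, mul_one, mul_neg_one]
  exact div_self this.ne'

lemma gM_zero {n : ℕ} (y : Vec n) (x : Cfg n) : gM (0 : Mat n) y x = PW (pw1 y) x := by
  have hg : gM (0 : Mat n) y = gibbs (fun _ _ => 0) y := by
    funext x
    unfold gM gibbs energy
    simp only [D8E.qf_zero, zero_div, zero_add]
    simp [ip, sv]
  rw [hg, gibbs_zero]
  rfl

/-- entropy of a product measure -/
theorem entX_le {n : ℕ} (y : Vec n) (f : Cfg n → ℝ) (hf : ∀ x, 0 < f x)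
    (t : Fin n → Cfg n → ℝ) (ht : ∀ i x, 0 < t i x) (hi : ∀ i x, t i (flip x i) = t i x) :
    EntX (gM 0 y) f ≤ Ex (gM 0 y) (fun x => ∑ i, Dv (f x) (t i x)) := by
  have h := prod_ent_gen n (pw1 y) (pw1_pos y) (pw1_sum y) f hf t ht hi
  unfold EntX Ex
  simp only [gM_zero]
  refine h.trans (le_of_eq ?_)
  rw [Finset.sum_comm]
  exact Finset.sum_congr rfl fun x _ => by rw [Finset.mul_sum]

/-- Donsker-Varadhan inequality -/
lemma dv_ineq {n : ℕ} {μ : Cfg n → ℝ} (hμ : ∀ x, 0 < μ x) (f h : Cfg n → ℝ) (hf : ∀ x, 0 < f x) :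
    Ex μ (fun x => f x * h x) ≤ EntX μ f + Ex μ f * log (Ex μ fun x => exp (h x)) := by
  have hA : 0 < Ex μ f := Finset.sum_pos (fun x _ => mul_pos (hμ x) (hf x)) Finset.univ_nonempty
  have hZ : 0 < Ex μ fun x => exp (h x) :=
    Finset.sum_pos (fun x _ => mul_pos (hμ x) (exp_pos _)) Finset.univ_nonempty
  set A := Ex μ f with hAdef
  set Z := Ex μ fun x => exp (h x) with hZdef
  have key : ∀ x, f x * h x - f x * log (f x) + f x * log A - f x * log Z
      ≤ A / Z * exp (h x) - f x := by
    intro x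
    have h1 := log_le_sub_one_of_pos (div_pos (mul_pos hA (exp_pos (h x))) (mul_pos (hf x) hZ))
    rw [log_div (mul_pos hA (exp_pos (h x))).ne' (mul_pos (hf x) hZ).ne',
      log_mul hA.ne' (exp_pos _).ne', log_exp, log_mul (hf x).ne' hZ.ne'] at h1
    have h2 := mul_le_mul_of_nonneg_left h1 (hf x).le
    have h3 : f x * (A * exp (h x) / (f x * Z) - 1) = A / Z * exp (h x) - f x := by
      have := (hf x).ne'
      field_simp
    rw [h3] at h2
    linarith
  have hs := Finset.sum_le_sum fun x (_ : x ∈ Finset.univ) =>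
    mul_le_mul_of_nonneg_left (key x) (hμ x).le
  have e1 : ∑ x, μ x * (A / Z * exp (h x) - f x) = 0 := by
    have : ∀ x, μ x * (A / Z * exp (h x) - f x) = A / Z * (μ x * exp (h x)) - μ x * f x := by
      intro x; ring
    simp only [this, sum_sub_distrib, ← mul_sum]
    have e2 : ∑ x, μ x * exp (h x) = Z := rfl
    have e3 : ∑ x, μ x * f x = A := rfl
    rw [e2, e3]
    field_simp
    ring
  have e4 : ∑ x, μ x * (f x * h x - f x * log (f x) + f x * log A - f x * log Z)
      = Ex μ (fun x => f x * h x) - Ex μ (fun x => f x * log (f x)) + A * log A - A * log Z := by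
    have : ∀ x, μ x * (f x * h x - f x * log (f x) + f x * log A - f x * log Z)
        = μ x * (f x * h x) - μ x * (f x * log (f x)) + μ x * f x * log A
          - μ x * f x * log Z := by
      intro x; ring
    simp only [this, sum_sub_distrib, sum_add_distrib, ← sum_mul]
    rfl
  rw [e1, e4] at hs
  unfold EntX
  linarith

/-- exponential moment of a centred one-site function -/
lemma site_exp {p q m a : ℝ} (hp : 0 < p) (hq : 0 < q) (hpq : p + q = 1) (hm : m = p - q)
    (ha : |a| ≤ 1 / 2) : p * exp (a * (1 - m)) + q * exp (a * (-1 - m)) ≤ exp (a ^ 2) := by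
  have hq' : q = 1 - p := by linarith
  subst hq'
  subst hm
  have hz1 : |a * (1 - (p - (1 - p)))| ≤ 1 := by
    rw [abs_mul]
    have : |1 - (p - (1 - p))| ≤ 2 := by rw [abs_le]; constructor <;> linarith
    calc |a| * |1 - (p - (1 - p))| ≤ 1 / 2 * 2 := mul_le_mul ha this (abs_nonneg _) (by norm_num)
      _ = 1 := by norm_num
  have hz2 : |a * (-1 - (p - (1 - p)))| ≤ 1 := by
    rw [abs_mul]
    have : |-1 - (p - (1 - p))| ≤ 2 := by rw [abs_le]; constructor <;> linarith
    calc |a| * |-1 - (p - (1 - p))| ≤ 1 / 2 * 2 := mul_le_mul ha this (abs_nonneg _) (by norm_num)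
      _ = 1 := by norm_num
  have h1 := (abs_le.1 (Real.abs_exp_sub_one_sub_id_le hz1)).2
  have h2 := (abs_le.1 (Real.abs_exp_sub_one_sub_id_le hz2)).2
  have h3 := mul_le_mul_of_nonneg_left h1 hp.le
  have h4 := mul_le_mul_of_nonneg_left h2 hq.le
  have h5 := Real.add_one_le_exp (a ^ 2)
  have h6 : p * (a * (1 - (p - (1 - p)))) ^ 2 + (1 - p) * (a * (-1 - (p - (1 - p)))) ^ 2
      = a ^ 2 * (4 * (p * (1 - p))) := by ring
  have h7 : 4 * (p * (1 - p)) ≤ 1 := by nlinarith [sq_nonneg (2 * p - 1)]
  have h8 : a ^ 2 * (4 * (p * (1 - p))) ≤ a ^ 2 * 1 := mul_le_mul_of_nonneg_left h7 (sq_nonneg a)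
  nlinarith

/-- the displacement of the mean is controlled by the entropy -/
theorem mean_le {n : ℕ} (y : Vec n) (f : Cfg n → ℝ) (hf : ∀ x, 0 < f x) :
    Ex (gM 0 y) f * F.sq (fun i => mean (fun x => gM 0 y x * f x / Ex (gM 0 y) f) i
      - mean (gM 0 y) i) ≤ 6 * EntX (gM 0 y) f := by
  set μ : Cfg n → ℝ := gM 0 y with hμ
  have hpos : ∀ x, 0 < μ x := fun x => by rw [hμ]; exact gM_pos _ _ x
  have hsum : ∑ x, μ x = 1 := by rw [hμ]; exact gM_sum _ _
  set A := Ex μ f with hA
  have hApos : 0 < A := Finset.sum_pos (fun x _ => mul_pos (hpos x) (hf x)) Finset.univ_nonempty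
  set ν : Cfg n → ℝ := fun x => μ x * f x / A with hν
  have hνP : IsProb ν := by
    refine ⟨fun x => div_nonneg (mul_pos (hpos x) (hf x)).le hApos.le, ?_⟩
    simp only [hν, ← Finset.sum_div]
    exact div_self hApos.ne'
  have hμP : IsProb μ := ⟨fun x => (hpos x).le, hsum⟩
  set Δ : Fin n → ℝ := fun i => mean ν i - mean μ i with hΔ
  have hΔ2 : ∀ i, |Δ i| ≤ 2 := by
    intro i
    have h1 := abs_le.1 (Proc.abs_mean_le ν hνP i)
    have h2 := abs_le.1 (Proc.abs_mean_le μ hμP i)
    rw [abs_le]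
    constructor <;> simp only [hΔ] <;> linarith
  have hm : ∀ i, mean μ i = pw1 y i true - pw1 y i false := by
    intro i
    rw [hμ, (d8end0 n 0 y (fun _ _ _ => rfl)).2 i, Real.tanh_eq_sinh_div_cosh, Real.sinh_eq,
      Real.cosh_eq]
    unfold pw1 sp
    simp only [if_true, Bool.false_eq_true, if_false, mul_one, mul_neg_one]
    have : 0 < exp (y i) + exp (-y i) := by positivity
    field_simp
  have hdv := dv_ineq hpos f (fun x => ∑ i, Δ i / 4 * (sv x i - mean μ i)) hf
  -- the exponential moment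
  have hZ : (Ex μ fun x => exp (∑ i, Δ i / 4 * (sv x i - mean μ i)))
      ≤ exp (∑ i, (Δ i / 4) ^ 2) := by
    have e1 : (Ex μ fun x => exp (∑ i, Δ i / 4 * (sv x i - mean μ i)))
        = ∏ i, ∑ s : Bool, pw1 y i s * exp (Δ i / 4 * (sp s - mean μ i)) := by
      rw [Finset.prod_univ_sum, Fintype.piFinset_univ]
      unfold Ex
      refine Finset.sum_congr rfl fun x _ => ?_
      rw [Finset.prod_mul_distrib, hμ, gM_zero]
      simp only
      rw [Real.exp_sum]
      rfl
    rw [e1, Real.exp_sum]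
    refine Finset.prod_le_prod (fun i _ => Finset.sum_nonneg fun s _ =>
      mul_nonneg (pw1_pos y i s).le (exp_pos _).le) fun i _ => ?_
    rw [Fintype.sum_bool]
    have h1 := site_exp (a := Δ i / 4) (pw1_pos y i true) (pw1_pos y i false) (pw1_sum y i) (hm i)
      (by
        rw [abs_div, abs_of_pos (show (0:ℝ) < 4 by norm_num)]
        linarith [hΔ2 i])
    unfold sp
    simp only [if_true, Bool.false_eq_true, if_false]
    exact h1
  have hZ0 : 0 < Ex μ fun x => exp (∑ i, Δ i / 4 * (sv x i - mean μ i)) :=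
    Finset.sum_pos (fun x _ => mul_pos (hpos x) (exp_pos _)) Finset.univ_nonempty
  have hlogZ : log (Ex μ fun x => exp (∑ i, Δ i / 4 * (sv x i - mean μ i)))
      ≤ ∑ i, (Δ i / 4) ^ 2 := by
    rw [Real.log_le_iff_le_exp hZ0]
    exact hZ
  have e2 : Ex μ (fun x => f x * ∑ i, Δ i / 4 * (sv x i - mean μ i))
      = A * ∑ i, Δ i / 4 * Δ i := by
    have h1 : ∀ x, μ x * (f x * ∑ i, Δ i / 4 * (sv x i - mean μ i))
        = A * ∑ i, (Δ i / 4 * (ν x * sv x i) - Δ i / 4 * mean μ i * ν x) := by
      intro x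
      rw [Finset.mul_sum, Finset.mul_sum, Finset.mul_sum]
      refine Finset.sum_congr rfl fun i _ => ?_
      simp only [hν]
      field_simp
    unfold Ex
    rw [Finset.sum_congr rfl fun x _ => h1 x, ← Finset.mul_sum, Finset.sum_comm]
    congr 1
    refine Finset.sum_congr rfl fun i _ => ?_
    rw [Finset.sum_sub_distrib, ← Finset.mul_sum, ← Finset.mul_sum, hνP.2]
    simp only [hΔ]
    unfold mean
    ring
  rw [e2] at hdv
  have h5 := mul_le_mul_of_nonneg_left hlogZ hApos.le
  have e3 : ∑ i, Δ i / 4 * Δ i = F.sq Δ / 4 := by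
    unfold F.sq
    rw [Finset.sum_div]
    exact Finset.sum_congr rfl fun i _ => by ring
  have e4 : ∑ i, (Δ i / 4) ^ 2 = F.sq Δ / 16 := by
    unfold F.sq
    rw [Finset.sum_div]
    exact Finset.sum_congr rfl fun i _ => by ring
  rw [e3] at hdv
  rw [e4] at h5
  have h6 : 0 ≤ A * F.sq Δ := mul_nonneg hApos.le (Finset.sum_nonneg fun i _ => sq_nonneg _)
  show A * F.sq Δ ≤ _
  linarith

end Vale.Agent.P150.H185
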