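import Mathlib
import Vale.Agent.P150.Bdl.B39
import Vale.Agent.P150.H185.Prod

/-! The entropy recursion along the localization process for a general nonnegative edge function
in place of the entropy production. -/

open MeasureTheory ProbabilityTheory Filter Topology Real
open scoped Matrix

namespace Vale.Agent.P150.F

namespace D6Out

variable {β C T c δ₀ : ℝ} {n : ℕ} {J : Mat n} (D : D6Out β C T c J δ₀)

variable {f G : Cfg n → ℝ}

lemma wtG_nonneg (hG0 : ∀ x, 0 ≤ G x) (s : D.S) : 0 ≤ D.P.wt G s := by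
  unfold Proc.wt Ex
  exact Finset.sum_nonneg fun x _ => mul_nonneg (D.P.law_pos s x).le (hG0 x)

/-- the right-hand side of the recursions -/
noncomputable def PsiG (G f : Cfg n → ℝ) (B : ℕ → Set D.S) (k : ℕ) (s : D.S) : ℝ :=
  2 * D.P.wt G s + 2 * D.P.wt f s + 4 * n * D.P.wh f B k s

lemma PsiG_nonneg (hG0 : ∀ x, 0 ≤ G x) (hf : ∀ x, 0 < f x) (B : ℕ → Set D.S) (k : ℕ) (s : D.S) : 0 ≤ D.PsiG G f B k s := by
  unfold PsiG
  have h1 := D.wtG_nonneg hG0 s
  have h2 := (D.P.wt_pos hf s).le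
  have h3 := D.P.wh_nonneg hf B k s
  positivity

lemma wt_le_PsiG (hG0 : ∀ x, 0 ≤ G x) (hf : ∀ x, 0 < f x) (B : ℕ → Set D.S) (k : ℕ) (s : D.S) :
    D.P.wt f s ≤ D.PsiG G f B k s := by
  unfold PsiG
  have h1 := D.wtG_nonneg hG0 s
  have h2 := (D.P.wt_pos hf s).le
  have h3 := mul_nonneg (by (clear * -; positivity) : (0 : ℝ) ≤ 4 * n) (D.P.wh_nonneg hf B k s)
  linarith

lemma bm_PsiG {B : ℕ → Set D.S} (hB : ∀ k, MeasurableSet (B k)) (k : ℕ) : BM (D.PsiG G f B k) := by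
  unfold PsiG
  exact ((BM.const_mul _ (D.P.bm_wt G)).add (BM.const_mul _ (D.P.bm_wt f))).add
    (BM.const_mul _ (D.P.bm_wh hB k))

lemma U_PsiG_le (h1 : CH1) (hG : CHG) (hf : ∀ x, 0 < f x) {B : ℕ → Set D.S}
    (hB : ∀ k, MeasurableSet (B k)) {k : ℕ} {s : D.S} (h : s ∉ B (k + 1)) :
    D.P.U (D.PsiG G f B k) s ≤ D.PsiG G f B (k + 1) s := by
  unfold PsiG
  rw [D.P.U_add ((BM.const_mul _ (D.P.bm_wt G)).add (BM.const_mul _ (D.P.bm_wt f)))
    (BM.const_mul _ (D.P.bm_wh hB k)), D.P.U_add (BM.const_mul _ (D.P.bm_wt G))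
    (BM.const_mul _ (D.P.bm_wt f)), D.P.U_const_mul, D.P.U_const_mul, D.P.U_const_mul,
    D.P.U_wh h1 hG hB h]
  have e : D.P.U (fun s => D.P.wt f s) s = D.P.wt f s := D.P.U_wt h1 hG f s
  have e2 : D.P.U (fun s => D.P.wt G s) s ≤ D.P.wt G s := (D.P.U_wt h1 hG G s).le
  have e3 : D.P.U (fun s => D.P.wh f B k s) s = D.P.wh f B (k + 1) s := D.P.U_wh h1 hG hB h
  rw [e]
  linarith only [e2]

/-- **L2 recursion** -/
theorem err_recG (h1 : CH1) (hG : CHG) (h6 : CH6a) (he0 : D8End0) (hG0 : ∀ x, 0 ≤ G x)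
    (hc2 : ∀ y : Vec n, Ex (gM 0 y) f * sq (fun i => mean (fun x => gM 0 y x * f x / Ex (gM 0 y) f) i
      - mean (gM 0 y) i) ≤ Ex (gM 0 y) G)
    (hC : 0 ≤ C) (hCδ : C * δ₀ ≤ 1 / 4) (hf : ∀ x, 0 < f x) {B : ℕ → Set D.S}
    (hB : ∀ k, MeasurableSet (B k)) (hE : ∀ k, D.Exit ⊆ B k) :
    ∀ k s, D.Inv k s → D.P.err f D.mh s ≤ Real.exp (9 * C * D.clk k) * D.PsiG G f B k s := by
  have hbad : ∀ k s, s ∈ B k → D.P.err f D.mh s ≤ Real.exp (9 * C * D.clk k) * D.PsiG G f B k s := by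
    intro k s hs
    have h2 := D.P.err_le hf D.mh_le s
    have h3 : 4 * n * D.P.wt f s ≤ D.PsiG G f B k s := by
      unfold PsiG
      rw [D.P.wh_of_mem f B hs]
      have h1 := D.wtG_nonneg hG0 s
      have h2 := (D.P.wt_pos hf s).le
      linarith only [h1, h2]
    have h4 : 1 ≤ Real.exp (9 * C * D.clk k) :=
      Real.one_le_exp (mul_nonneg (by (clear * - hC; positivity)) (D.clk_nonneg k))
    have h5 := mul_le_mul_of_nonneg_right h4 (D.PsiG_nonneg hG0 hf B k s)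
    linarith only [h2, h3, h5]
  intro k
  induction k with
  | zero =>
    intro s hs
    by_cases hsB : s ∈ B 0
    · exact hbad 0 s hsB
    have hsE : s ∉ D.Exit := fun h => hsB (hE 0 h)
    have hfin := D.fin_mh s hs hsE
    obtain ⟨hd1, hd2⟩ := he0 n (D.P.M s) (D.P.y s) (D.fin_M s hs)
    have hlaw : D.P.law s = gM 0 (D.P.y s) := hd1
    have hA := D.P.wt_pos hf s
    have h2 := hc2 (D.P.y s)
    rw [← hlaw] at h2
    have h3 : D.P.wt f s * sq (fun i => mean (D.P.nuf f s) i - mean (D.P.law s) i)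
        ≤ D.P.wt G s := h2
    have h4 : sq (fun i => mean (D.P.law s) i - D.mh s i) ≤ 1 := by
      rw [← nv_sq]
      have e : (fun i => mean (D.P.law s) i - D.mh s i)
          = (fun i => Real.tanh (D.P.y s i)) - D.mh s := by
        funext i
        rw [hlaw, hd2 i]
        rfl
      rw [e, nv_sub_comm]
      have h0 := nv_nonneg (D.mh s - fun i => Real.tanh (D.P.y s i))
      linarith only [mul_nonneg (sub_nonneg.2 hfin) (sub_nonneg.2 hfin), mul_nonneg (sub_nonneg.2 hfin) (sub_nonneg.2 h0)]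
    have h5' := sq_add_le' (mean (D.P.nuf f s)) (mean (D.P.law s)) (D.mh s)
    have h6' := mul_le_mul_of_nonneg_left h5' hA.le
    have h7 := mul_le_mul_of_nonneg_left h4 hA.le
    have h8 : D.P.err f D.mh s ≤ D.PsiG G f B 0 s := by
      unfold Proc.err PsiG
      have h9 := mul_nonneg (by (clear * -; positivity) : (0 : ℝ) ≤ 4 * n) (D.P.wh_nonneg hf B 0 s)
      linarith only [h3, h6', h7, h9]
    have h4 : 1 ≤ Real.exp (9 * C * D.clk 0) :=
      Real.one_le_exp (mul_nonneg (by (clear * - hC; positivity)) (D.clk_nonneg 0))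
    have h5 := mul_le_mul_of_nonneg_right h4 (D.PsiG_nonneg hG0 hf B 0 s)
    linarith only [h5, h8]
  | succ k ih =>
    intro s hs
    by_cases hsB : s ∈ B (k + 1)
    · exact hbad _ s hsB
    have hsE : s ∉ D.Exit := fun h => hsB (hE _ h)
    have hδ := D.δ_eq k s hs
    have hδ0 : 0 < D.P.δ s := D.P.hδ s
    have hδ1 : D.P.δ s ≤ δ₀ := hδ ▸ D.dur_le k
    set t := C * D.P.δ s with ht
    have ht0 : 0 ≤ t := mul_nonneg hC hδ0.le
    have ht1 : t ≤ 1 / 4 := (mul_le_mul_of_nonneg_left hδ1 hC).trans hCδ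
    have hstep := D.P.err_step h1 hG h6 hf D.measmh D.mh_le ht0 ht1
      (D.drift k s hs hsE (D.P.nuf f s) (D.P.nuf_isProb hf s))
    have hU : D.P.U (D.P.err f D.mh) s
        ≤ Real.exp (9 * C * D.clk k) * D.PsiG G f B (k + 1) s := by
      have h2 : D.P.U (D.P.err f D.mh) s
          ≤ D.P.U (fun s' => Real.exp (9 * C * D.clk k) * D.PsiG G f B k s') s :=
        D.P.U_mono (D.P.bm_err hf D.measmh D.mh_le) (BM.const_mul _ (D.bm_PsiG (G := G) (f := f) hB k))
          fun z => ih _ (D.invS k s z hs)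
      rw [D.P.U_const_mul] at h2
      exact h2.trans (mul_le_mul_of_nonneg_left (D.U_PsiG_le (G := G) h1 hG hf hB hsB)
        (Real.exp_pos _).le)
    have hPsi := D.PsiG_nonneg hG0 hf B (k + 1) s
    have hwt := D.wt_le_PsiG hG0 hf B (k + 1) s
    have hexp1 : 1 ≤ Real.exp (9 * C * D.clk k) :=
      Real.one_le_exp (mul_nonneg (by (clear * - hC; positivity)) (D.clk_nonneg k))
    have hexp : Real.exp (9 * C * D.clk (k + 1)) = Real.exp (9 * t) * Real.exp (9 * C * D.clk k) := by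
      rw [← Real.exp_add, D.clk_succ, ← hδ]
      congr 1
      rw [ht]
      ring
    have h9 : 1 + 9 * t ≤ Real.exp (9 * t) := by linarith only [Real.add_one_le_exp (9 * t)]
    set X := Real.exp (9 * C * D.clk k) * D.PsiG G f B (k + 1) s with hX
    have hX0 : 0 ≤ X := mul_nonneg (Real.exp_pos _).le hPsi
    have hwX : D.P.wt f s ≤ X := by
      have := mul_le_mul_of_nonneg_right hexp1 hPsi
      linarith only [this, hwt]
    have h10 : D.P.err f D.mh s ≤ (1 + 9 * t) * X := by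
      have h11 := mul_le_mul_of_nonneg_left hU (by linarith only [ht0] : 0 ≤ 1 + 6 * t)
      have h12 := mul_le_mul_of_nonneg_left hwX (by linarith only [ht0] : 0 ≤ 3 * t)
      linarith only [h12, h11, hstep]
    rw [hexp]
    have h13 := mul_le_mul_of_nonneg_right h9 hX0
    calc _ ≤ (1 + 9 * t) * X := h10
      _ ≤ Real.exp (9 * t) * X := h13
      _ = _ := by rw [hX]; ring

/-- **entropy recursion** -/
theorem ent_recG (hG0 : ∀ x, 0 ≤ G x)
    (hc1 : ∀ y : Vec n, EntX (gM 0 y) f ≤ Ex (gM 0 y) G)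
    (hc2 : ∀ y : Vec n, Ex (gM 0 y) f * sq (fun i => mean (fun x => gM 0 y x * f x / Ex (gM 0 y) f) i
      - mean (gM 0 y) i) ≤ Ex (gM 0 y) G) (h1 : CH1) (hG : CHG) (h4 : CH4') (h5 : CH5) (h6 : CH6a) (he0 : D8End0)
    (he2 : D8End2) (hC : 0 ≤ C) (hCδ : C * δ₀ ≤ 1 / 4) {K : ℝ} (hK0 : 0 ≤ K)
    (hKδ : K * √δ₀ ≤ 1)
    (hK : ∀ (R : Matrix (Fin n) (Fin n) ℝ), (∀ i j, |R i j| ≤ C) →
      ∀ δ, 0 ≤ δ → δ ≤ 1 → ∀ ν μ : Cfg n → ℝ, IsProb ν → IsProb μ →
      EC ν R δ (fun _ z => Real.log (evd ν (R * Rᵀ) δ z) - Real.log (evd μ (R * Rᵀ) δ z))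
        ≤ δ / 2 * qf (R * Rᵀ) (fun i => mean ν i - mean μ i) + K * (δ * √δ))
    {θ : ℝ} (hθ : 4 * n * θ ≤ 1) (hf : ∀ x, 0 < f x) {Lf : ℝ} (hL0 : 0 ≤ Lf)
    (hL : ∀ x, Real.log (f x) ≤ Lf) :
    ∀ k s, k ≤ D.N → D.Inv k s → D.P.ent f s ≤ D.P.wt G s
      + (C * Real.exp (9 * C * T) + C * (3 * Real.exp (9 * C * T)) + 1) * D.clk k *
        D.PsiG G f (D.P.badSet (fun _ => D.Exit) θ) k s
      + Lf * D.P.wh f (D.P.badSet (fun _ => D.Exit) θ) k s
      + D.P.hitE (D.P.badSet (fun _ => D.Exit) θ) k s := by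
  set B := D.P.badSet (fun _ => D.Exit) θ with hBdef
  have hB : ∀ k, MeasurableSet (B k) := D.P.meas_badSet _ (fun _ => D.measExit) θ
  have hE : ∀ k, D.Exit ⊆ B k := fun k s hs => Or.inl hs
  set A := C * Real.exp (9 * C * T) + C * (3 * Real.exp (9 * C * T)) + 1 with hA
  have hA0 : 0 ≤ A := by (clear * - hC; positivity)
  have hpos : ∀ k s, 0 ≤ D.P.wt G s + A * D.clk k * D.PsiG G f B k s := by
    intro k s
    have h2 := D.wtG_nonneg hG0 s
    have h3 := mul_nonneg (mul_nonneg hA0 (D.clk_nonneg k)) (D.PsiG_nonneg hG0 hf B k s)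
    linarith only [h3, h2]
  have hbad : ∀ k s, s ∈ B k → D.P.ent f s ≤ D.P.wt G s + A * D.clk k * D.PsiG G f B k s
      + Lf * D.P.wh f B k s + D.P.hitE B k s := by
    intro k s hs
    rw [D.P.wh_of_mem f B hs, D.P.hitE_of_mem B hs]
    have h2 := D.P.ent_le hf hL s
    have h3 := hpos k s
    linarith only [h3, h2]
  intro k
  induction k with
  | zero =>
    intro s _ hs
    by_cases hsB : s ∈ B 0
    · exact hbad 0 s hsB
    obtain ⟨hd1, hd2⟩ := he0 n (D.P.M s) (D.P.y s) (D.fin_M s hs)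
    have hlaw : D.P.law s = gM 0 (D.P.y s) := hd1
    have h2 := hc1 (D.P.y s)
    rw [← hlaw] at h2
    have h3 : D.P.ent f s ≤ D.P.wt G s := h2
    have h4 := mul_nonneg (mul_nonneg hA0 (D.clk_nonneg 0)) (D.PsiG_nonneg hG0 hf B 0 s)
    have h5 := mul_nonneg hL0 (D.P.wh_nonneg hf B 0 s)
    have h6 := D.P.hitE_nonneg B 0 s
    linarith only [h3, h4, h5, h6]
  | succ k ih =>
    intro s hkN hs
    by_cases hsB : s ∈ B (k + 1)
    · exact hbad _ s hsB
    have hδ := D.δ_eq k s hs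
    have hδ0 : 0 < D.P.δ s := D.P.hδ s
    have hδ1 : D.P.δ s ≤ δ₀ := hδ ▸ D.dur_le k
    have hwt := D.P.wt_pos hf s
    set E := D.P.δ s / 2 * qf (D.P.R s * (D.P.R s)ᵀ)
      (fun i => mean (D.P.nuf f s) i - mean (D.P.law s) i) + K * (D.P.δ s * √(D.P.δ s)) with hEdef
    have hstep := D.P.ent_step h1 hG h4 hf
      (hK (D.P.R s) (D.R_le k s hs) (D.P.δ s) hδ0.le (D.P.hδ1 s) (D.P.nuf f s) (D.P.law s)
        (D.P.nuf_isProb hf s) (D.P.law_isProb s))
    rw [← hEdef] at hstep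
    have hgood := D.good_mean h1 hG h5 h6 he0 he2 hC hCδ hθ hkN hs hsB
    have herr := D.err_recG (G := G) h1 hG h6 he0 hG0 hc2 hC hCδ hf hB hE (k + 1) s hs
    have hexp : Real.exp (9 * C * D.clk (k + 1)) ≤ Real.exp (9 * C * T) := by
      apply Real.exp_le_exp.2
      exact mul_le_mul_of_nonneg_left (D.clk_le hkN) (by (clear * - hC; positivity))
    have hPsi := D.PsiG_nonneg hG0 hf B (k + 1) s
    have herr2 : D.P.err f D.mh s ≤ Real.exp (9 * C * T) * D.PsiG G f B (k + 1) s :=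
      herr.trans (mul_le_mul_of_nonneg_right hexp hPsi)
    have hE1 : D.P.wt f s * E ≤ D.P.δ s * A * D.PsiG G f B (k + 1) s := by
      have h2 := qf_le_of_opLe hC (D.Q_le k s hs)
        (fun i => mean (D.P.nuf f s) i - mean (D.P.law s) i)
      have h3 := sq_add_le' (mean (D.P.nuf f s)) (D.mh s) (mean (D.P.law s))
      have h4 : sq (fun i => D.mh s i - mean (D.P.law s) i) ≤ 3 * Real.exp (9 * C * T) := by
        refine le_trans (le_of_eq ?_) hgood
        unfold sq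
        exact Finset.sum_congr rfl fun i _ => by ring
      have h5 : √(D.P.δ s) ≤ √δ₀ := Real.sqrt_le_sqrt hδ1
      have h6 : K * (D.P.δ s * √(D.P.δ s)) ≤ D.P.δ s := by
        have h7 : K * √(D.P.δ s) ≤ 1 := (mul_le_mul_of_nonneg_left h5 hK0).trans hKδ
        have h8 := mul_le_mul_of_nonneg_left h7 hδ0.le
        linarith only [h8]
      have h7 : E ≤ D.P.δ s * (C * sq (fun i => mean (D.P.nuf f s) i - D.mh s i)
          + C * (3 * Real.exp (9 * C * T)) + 1) := by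
        have h8 : qf (D.P.R s * (D.P.R s)ᵀ) (fun i => mean (D.P.nuf f s) i - mean (D.P.law s) i)
            ≤ C * (2 * sq (fun i => mean (D.P.nuf f s) i - D.mh s i)
              + 2 * (3 * Real.exp (9 * C * T))) := by
          refine le_trans h2 (mul_le_mul_of_nonneg_left ?_ hC)
          linarith only [h4, h3]
        have h9 := mul_le_mul_of_nonneg_left h8 (by linarith only [hδ0] : 0 ≤ D.P.δ s / 2)
        rw [hEdef]
        linarith only [h9, h6]
      have h8 := mul_le_mul_of_nonneg_left h7 hwt.le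
      have h9 : D.P.wt f s * (D.P.δ s * (C * sq (fun i => mean (D.P.nuf f s) i - D.mh s i)
          + C * (3 * Real.exp (9 * C * T)) + 1)) = D.P.δ s * (C * D.P.err f D.mh s
          + (C * (3 * Real.exp (9 * C * T)) + 1) * D.P.wt f s) := by
        unfold Proc.err
        ring
      rw [h9] at h8
      refine h8.trans ?_
      rw [mul_assoc (D.P.δ s) A]
      refine mul_le_mul_of_nonneg_left ?_ hδ0.le
      have h10 := mul_le_mul_of_nonneg_left herr2 hC
      have h11 := mul_le_mul_of_nonneg_left (D.wt_le_PsiG hG0 hf B (k + 1) s)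
        (by (clear * - hC; positivity) : 0 ≤ C * (3 * Real.exp (9 * C * T)) + 1)
      rw [hA]
      linarith only [h10, h11]
    have hU : D.P.U (D.P.ent f) s ≤ D.P.wt G s + A * D.clk k * D.PsiG G f B (k + 1) s
        + Lf * D.P.wh f B (k + 1) s + D.P.hitE B (k + 1) s := by
      have b1 : BM (D.P.wt G) := D.P.bm_wt G
      have b2 : BM (fun s' => A * D.clk k * D.PsiG G f B k s') := BM.const_mul _ (D.bm_PsiG (G := G) (f := f) hB k)
      have b3 : BM (fun s' => Lf * D.P.wh f B k s') := BM.const_mul _ (D.P.bm_wh hB k)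
      have b4 : BM (D.P.hitE B k) := D.P.bm_hitE hB k
      have h2 : D.P.U (D.P.ent f) s ≤ D.P.U (fun s' => D.P.wt G s' + A * D.clk k * D.PsiG G f B k s'
          + Lf * D.P.wh f B k s' + D.P.hitE B k s') s :=
        D.P.U_mono (D.P.bm_ent hf) (((b1.add b2).add b3).add b4)
          fun z => ih _ (by omega) (D.invS k s z hs)
      rw [D.P.U_add ((b1.add b2).add b3) b4, D.P.U_add (b1.add b2) b3, D.P.U_add b1 b2,
        D.P.U_const_mul, D.P.U_const_mul] at h2
      have e1 : D.P.U (fun s' => D.P.wt G s') s ≤ D.P.wt G s := (D.P.U_wt h1 hG G s).le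
      have e2 := mul_le_mul_of_nonneg_left (D.U_PsiG_le (G := G) h1 hG hf hB hsB)
        (mul_nonneg hA0 (D.clk_nonneg k))
      have e3 : D.P.U (fun s' => D.P.wh f B k s') s = D.P.wh f B (k + 1) s :=
        D.P.U_wh h1 hG hB hsB
      have e4 : D.P.U (fun s' => D.P.hitE B k s') s = D.P.hitE B (k + 1) s :=
        D.P.U_hitE h1 hG hB hsB
      have e5 : D.P.U (fun s' => D.PsiG G f B k s') s = D.P.U (D.PsiG G f B k) s := rfl
      rw [e3, e4, e5] at h2
      linarith only [e2, e1, h2]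
    have hclk : A * D.clk (k + 1) * D.PsiG G f B (k + 1) s = A * D.clk k * D.PsiG G f B (k + 1) s
        + D.P.δ s * A * D.PsiG G f B (k + 1) s := by
      rw [D.clk_succ, ← hδ]
      ring
    rw [hclk]
    linarith only [hU, hE1, hstep]

end D6Out

end Vale.Agent.P150.F

namespace Vale.Agent.P150.F

/-- D8Rec for a general nonnegative function in place of the entropy production. -/
def D8RecG : Prop := ∀ (β : ℝ), 0 ≤ β → β < 1 →
  ∀ {I : Type} (F : Filter I) (n : I → ℕ) (J : ∀ i, Mat (n i)), Good β F n J →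
    ∃ a > 0, ∃ C₁ : ℝ, 0 ≤ C₁ ∧ ∀ᶠ i in F, ∀ ν : Cfg (n i) → ℝ, IsProb ν → (∀ x, 0 < ν x) →
      (∀ x, ν x ≤ 8 * Real.exp (a * n i) * gM (β • J i) 0 x) →
      ∀ G : Cfg (n i) → ℝ, (∀ x, 0 ≤ G x) →
      (∀ y : Vec (n i), EntX (gM 0 y) (fun x => ν x / gM (β • J i) 0 x) ≤ Ex (gM 0 y) G) →
      (∀ y : Vec (n i), Ex (gM 0 y) (fun x => ν x / gM (β • J i) 0 x) *
        sq (fun k => mean (fun x => gM 0 y x * (ν x / gM (β • J i) 0 x) /
          Ex (gM 0 y) (fun x => ν x / gM (β • J i) 0 x)) k - mean (gM 0 y) k) ≤ Ex (gM 0 y) G) →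
        KL ν (gM (β • J i) 0) ≤ C₁ * (Ex (gM (β • J i) 0) G + 1)

theorem d8recG_of (hD6 : D6Statement) (h1 : CH1) (hG : CHG) (h4 : CH4') (h4' : CH4'') (h5 : CH5)
    (h6 : CH6a) (he0 : D8End0) (he2 : D8End2) : D8RecG := by
  intro β hβ0 hβ1 I F n J hgood
  obtain ⟨C, T, c, hC, hT, hc, hD⟩ := hD6 β hβ0 hβ1 F n J hgood
  set A := C * Real.exp (9 * C * T) + C * (3 * Real.exp (9 * C * T)) + 1 with hA
  have hA0 : 0 ≤ A := by (clear * - hC; positivity)
  refine ⟨c / 4, by positivity, 2 * (A * T) + 2, by (clear * - hC hT; positivity), ?_⟩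
  filter_upwards [hD, hgood.hn.eventually (d8rec_large A T c hc)] with i hDi hn ν hν hνp hνle G hG0
    hc1 hc2
  obtain ⟨hn1, hn2⟩ := hn
  obtain ⟨K, hK0, hK⟩ := h4' (n i) (n i) C
  -- the micro step
  set δ₀ := min (1 / (4 * C)) (1 / (K + 1) ^ 2) with hδ₀
  have hδ₀pos : 0 < δ₀ := lt_min (by positivity) (by positivity)
  have hCδ : C * δ₀ ≤ 1 / 4 := by
    calc C * δ₀ ≤ C * (1 / (4 * C)) := mul_le_mul_of_nonneg_left (min_le_left _ _) hC.le
      _ = 1 / 4 := by field_simp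
  have hKδ : K * √δ₀ ≤ 1 := by
    have h7 : √δ₀ ≤ 1 / (K + 1) := by
      calc √δ₀ ≤ √(1 / (K + 1) ^ 2) := Real.sqrt_le_sqrt (min_le_right _ _)
        _ = 1 / (K + 1) := by
            rw [Real.sqrt_div zero_le_one, Real.sqrt_one, Real.sqrt_sq (by (clear * - hK0; positivity))]
    calc K * √δ₀ ≤ K * (1 / (K + 1)) := mul_le_mul_of_nonneg_left h7 hK0
      _ ≤ 1 := by
          rw [mul_one_div, div_le_one (by positivity)]
          linarith only []
  obtain ⟨D⟩ := hDi δ₀ hδ₀pos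
  have hlaw : D.P.law D.s0 = gM (β • J i) 0 := by
    unfold Proc.law
    rw [D.M0, D.y0]
  set μ := gM (β • J i) 0 with hμ
  have hμp : ∀ x, 0 < μ x := fun x => gM_pos _ _ x
  set f : Cfg (n i) → ℝ := fun x => ν x / μ x with hfdef
  have hf : ∀ x, 0 < f x := fun x => div_pos (hνp x) (hμp x)
  have hwt : D.P.wt f D.s0 = 1 := by
    unfold Proc.wt Ex
    rw [hlaw, ← hν.2]
    refine Finset.sum_congr rfl fun x _ => ?_
    rw [hfdef]
    have := (hμp x).ne'
    field_simp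
  have hnuf : D.P.nuf f D.s0 = ν := by
    funext x
    unfold Proc.nuf
    rw [hwt, hlaw, hfdef]
    have := (hμp x).ne'
    field_simp
  have hent : D.P.ent f D.s0 = KL ν μ := by
    rw [D.P.ent_eq hf, hwt, hnuf, hlaw, one_mul]
  have hep : D.P.wt G D.s0 = Ex μ G := by
    unfold Proc.wt
    rw [hlaw]
  have hfle : ∀ x, f x ≤ 8 * Real.exp (c / 4 * n i) := fun x => by
    rw [hfdef]
    exact (div_le_iff₀ (hμp x)).2 (hνle x)
  have hL : ∀ x, Real.log (f x) ≤ Real.log 8 + c / 4 * n i := fun x => by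
    refine (Real.log_le_log (hf x) (hfle x)).trans (le_of_eq ?_)
    rw [Real.log_mul (by norm_num) (Real.exp_pos _).ne', Real.log_exp]
  have hL0 : 0 ≤ Real.log 8 + c / 4 * n i := by
    have : 0 ≤ Real.log 8 := Real.log_nonneg (by norm_num)
    (clear * - hc; positivity)
  set θ := Real.exp (-(c / 4 * n i)) with hθdef
  have hθ0 : 0 < θ := Real.exp_pos _
  have hθ1 : θ ≤ 1 := by
    rw [hθdef]
    apply Real.exp_le_one_iff.2
    have : 0 ≤ c / 4 * n i := by (clear * - hc; positivity)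
    linarith only [this]
  have hrec := D.ent_recG (G := G) hG0 hc1 hc2 h1 hG h4 h5 h6 he0 he2 hC.le hCδ hK0 hKδ hK hn1 hf
    hL0 hL D.N D.s0 le_rfl D.inv0
  rw [← hA, hent, hep] at hrec
  unfold D6Out.PsiG at hrec
  rw [hwt, hep] at hrec
  set B := D.P.badSet (fun _ => D.Exit) θ with hB
  have hhit : D.P.hitE B D.N D.s0 ≤ Real.exp (-(3 * c / 4 * n i)) := by
    have h7 := D.P.hitE_badSet_le h1 hG (fun _ => D.Exit) (fun _ => D.measExit) hθ0 hθ1 D.N D.s0
    refine h7.trans ?_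
    rw [div_le_iff₀ hθ0]
    refine D.exit_le.trans (le_of_eq ?_)
    rw [hθdef, ← Real.exp_add]
    congr 1
    ring
  have hhit0 := D.P.hitE_nonneg B D.N D.s0
  have hwh : D.P.wh f B D.N D.s0 ≤ 8 * Real.exp (-(c / 2 * n i)) := by
    have h7 : D.P.wh f B D.N D.s0 ≤ 8 * Real.exp (c / 4 * n i) * D.P.hitE B D.N D.s0 := by
      unfold Proc.wh Proc.hitE Proc.avg
      rw [Finset.mul_sum]
      refine Finset.sum_le_sum fun x _ => ?_
      have h8 := mul_le_mul_of_nonneg_right (hfle x) (D.P.hit_nonneg B D.N D.s0 x)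
      have h9 := mul_le_mul_of_nonneg_left h8 (D.P.law_pos D.s0 x).le
      linarith only [h9]
    have h8 := mul_le_mul_of_nonneg_left hhit
      (by positivity : 0 ≤ 8 * Real.exp (c / 4 * n i))
    refine h7.trans (h8.trans (le_of_eq ?_))
    rw [mul_assoc, ← Real.exp_add]
    congr 2
    ring
  have hwh0 := D.P.wh_nonneg hf B D.N D.s0
  have hhit1 : D.P.hitE B D.N D.s0 ≤ 1 := D.P.hitE_le_one B D.N D.s0
  have hclk := D.clk_le (le_refl D.N)
  have hclk0 := D.clk_nonneg D.N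
  have hEP : 0 ≤ Ex μ G := Finset.sum_nonneg fun x _ => mul_nonneg (hμp x).le (hG0 x)
  have h10 : A * D.clk D.N * (2 * Ex μ G + 2 * 1 + 4 * (n i) * D.P.wh f B D.N D.s0)
      ≤ A * T * (2 * Ex μ G + 2 * 1 + 4 * (n i) * D.P.wh f B D.N D.s0) := by
    refine mul_le_mul_of_nonneg_right (mul_le_mul_of_nonneg_left hclk hA0) ?_
    (clear * - hEP hwh0; positivity)
  have h11 : (4 * (n i) * (A * T) + (Real.log 8 + c / 4 * n i)) * D.P.wh f B D.N D.s0 ≤ 1 := by
    refine le_trans (mul_le_mul_of_nonneg_left hwh ?_) hn2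
    (clear * - hC hT hc; positivity)
  linarith only [h11, h10, hEP, hhit1, hrec]

end Vale.Agent.P150.F
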