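import Mathlib
import Vale.Agent.P150.Bdl.B39
import Vale.Agent.P150.H185.Prod

/-! Truncation of densities for the approximate tensorization of entropy. -/

open Finset

namespace Vale.Agent.P150.H185

open Vale.Agent.P150.F Vale.Agent.P150.F.D8T

variable {n : ℕ}

lemma par_le {p q a b c : ℝ} (hp : 0 < p) (hq : 0 < q) :
    p * q / (p + q) * ((a - b) * (a - b)) ≤ p * (b - c) ^ 2 + q * (a - c) ^ 2 := by
  rw [div_mul_eq_mul_div, div_le_iff₀ (by positivity)]
  nlinarith [sq_nonneg (p * (b - c) + q * (a - c))]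

/-- the Dirichlet form of the root density is at most the one-site divergences -/
lemma IP_le_AD {μ : Cfg n → ℝ} (hμ : ∀ x, 0 < μ x) (ν : Cfg n → ℝ) (hν : ∀ x, 0 < ν x)
    (t : Fin n → Cfg n → ℝ) (ht : ∀ i x, 0 < t i x) (hti : ∀ i x, t i (flip x i) = t i x) :
    IP' ν μ ≤ Ex μ (fun x => ∑ i, Dv (ν x / μ x) (t i x)) := by
  set f : Cfg n → ℝ := fun x => ν x / μ x with hf
  have hf0 : ∀ x, 0 < f x := fun x => div_pos (hν x) (hμ x)
  unfold IP' DirW
  have h1 : ∀ i, ∑ x, μ x * μ (flip x i) / (μ x + μ (flip x i)) *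
      ((√(f (flip x i)) - √(f x)) * (√(f (flip x i)) - √(f x)))
      ≤ 2 * ∑ x, μ x * Dv (f x) (t i x) := by
    intro i
    have h2 : ∑ x, μ (flip x i) * Dv (f (flip x i)) (t i (flip x i))
        = ∑ x, μ x * Dv (f x) (t i x) := sum_flip i (fun x => μ x * Dv (f x) (t i x))
    have h3 : 2 * ∑ x, μ x * Dv (f x) (t i x)
        = ∑ x, (μ x * Dv (f x) (t i x) + μ (flip x i) * Dv (f (flip x i)) (t i (flip x i))) := by
      rw [Finset.sum_add_distrib, h2]; ring
    rw [h3]
    apply Finset.sum_le_sum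
    intro x _
    rw [hti i x]
    have h4 := par_le (a := √(f (flip x i))) (b := √(f x)) (c := √(t i x)) (hμ x)
      (hμ (flip x i))
    have h5 := mul_le_mul_of_nonneg_left (Dv_ge_sqrt (hf0 x) (ht i x)) (hμ x).le
    have h6 := mul_le_mul_of_nonneg_left (Dv_ge_sqrt (hf0 (flip x i)) (ht i x))
      (hμ (flip x i)).le
    linarith
  have h2 := Finset.sum_le_sum fun i (_ : i ∈ univ) => h1 i
  rw [← Finset.mul_sum] at h2
  have h3 : Ex μ (fun x => ∑ i, Dv (f x) (t i x)) = ∑ i, ∑ x, μ x * Dv (f x) (t i x) := by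
    unfold Ex
    rw [Finset.sum_comm]
    exact Finset.sum_congr rfl fun x _ => by rw [Finset.mul_sum]
  have h4 : (Ex μ fun x => ∑ i, Dv (ν x / μ x) (t i x)) = Ex μ (fun x => ∑ i, Dv (f x) (t i x)) :=
    rfl
  rw [h3]
  show 1 / 2 * ∑ i, ∑ x, μ x * μ (flip x i) / (μ x + μ (flip x i)) *
      ((√(f (flip x i)) - √(f x)) * (√(f (flip x i)) - √(f x))) ≤ _
  linarith

/-- **Truncation**, for the approximate tensorization. -/
theorem truncAT (hn : 0 < n) {μ : Cfg n → ℝ} (hμ : ∀ x, 0 < μ x) (hμ1 : ∑ x, μ x = 1)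
    {a η B C₁ : ℝ} (ha : 0 < a) (hη : 0 < η) (hB0 : 0 ≤ B) (hC₁ : 0 ≤ C₁)
    (hB : ∀ x, - Real.log (μ x) ≤ B * n)
    (hD : ∀ ν, IsProb ν → IP' ν μ ≤ η * n → KL ν μ ≤ a / 2 * n)
    (hM : ∀ ν, IsProb ν → (∀ x, 0 < ν x) → (∀ x, ν x ≤ 8 * Real.exp (a * n) * μ x) →
      ∀ t : Fin n → Cfg n → ℝ, (∀ i x, 0 < t i x) → (∀ i x, t i (flip x i) = t i x) →
      KL ν μ ≤ C₁ * (Ex μ (fun x => ∑ i, Dv (ν x / μ x) (t i x)) + 1))
    (ν : Cfg n → ℝ) (hν : IsProb ν) (hν0 : ∀ x, 0 < ν x)
    (t : Fin n → Cfg n → ℝ) (ht : ∀ i x, 0 < t i x) (hti : ∀ i x, t i (flip x i) = t i x) :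
    KL ν μ ≤ (2 * C₁ + 2 * (1 + B) / η + 4 * B / η)
      * (2 * Ex μ (fun x => ∑ i, Dv (ν x / μ x) (t i x)) + 1) := by
  have hn' : (0 : ℝ) < n := by exact_mod_cast hn
  have hn1 : (1 : ℝ) ≤ n := by exact_mod_cast hn
  set Q := Ex μ (fun x => ∑ i, Dv (ν x / μ x) (t i x)) with hQ
  have hIP' := IP_le_AD hμ ν hν0 t ht hti
  rw [← hQ] at hIP'
  set P := 2 * Q with hP
  have hIP : IP' ν μ ≤ 1 / 2 * P := by rw [hP]; linarith only [hIP']
  have hIP0 : 0 ≤ IP' ν μ := DirW_sq_nonneg hμ _
  have hP0 : 0 ≤ P := by linarith only [hIP, hIP0]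
  have hc1 : 0 ≤ 2 * (1 + B) / η := by positivity
  have hc2 : 0 ≤ 4 * B / η := by (clear * - hB0 hη; positivity)
  rcases le_total (η * n / 8) (IP' ν μ) with hbig | hsmall
  · -- large I'
    have h1 := KL_le_log hμ hν hB
    have h2 : B * n ≤ 4 * B / η * P := by
      have h3 : n ≤ 8 / η * IP' ν μ := by
        rw [div_mul_eq_mul_div, le_div_iff₀ hη]
        linarith only [hbig]
      have h4 : B * n ≤ B * (8 / η * IP' ν μ) := mul_le_mul_of_nonneg_left h3 hB0
      have h5 : B * (8 / η * IP' ν μ) ≤ B * (8 / η * (1 / 2 * P)) := by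
        apply mul_le_mul_of_nonneg_left _ hB0
        apply mul_le_mul_of_nonneg_left hIP
        positivity
      have e : B * (8 / η * (1 / 2 * P)) = 4 * B / η * P := by ring
      linarith only [e, h5, h4]
    have h6 : 4 * B / η * P ≤ (2 * C₁ + 2 * (1 + B) / η + 4 * B / η) * (P + 1) := by
      have : 4 * B / η * P ≤ 4 * B / η * (P + 1) := mul_le_mul_of_nonneg_left (by linarith only []) hc2
      have h7 : 0 ≤ (2 * C₁ + 2 * (1 + B) / η) * (P + 1) := by (clear * - hC₁ hB0 hη hP0; positivity)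
      linarith only [h7, this]
    linarith only [h6, h2, h1]
  · -- small I'
    set A := 4 * Real.exp (a * n) with hA
    have hA1 : 4 ≤ A := by
      have : 1 ≤ Real.exp (a * n) := Real.one_le_exp (by (clear * - ha hn; positivity))
      linarith only [this]
    have hA0 : 0 < A := by linarith only [hA1]
    have hL := large_mass hμ hν hn ha hD
    rw [← Finset.sum_mul] at hL
    set f : Cfg n → ℝ := fun x => ν x / μ x with hf
    have hf0 : ∀ x, 0 < f x := fun x => div_pos (hν0 x) (hμ x)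
    have hνf : ∀ x, ν x = μ x * f x := by
      intro x
      simp only [hf]
      have := (hμ x).ne'
      field_simp
    have hBf : ∀ x, Real.log (f x) ≤ B * n := by
      intro x
      simp only [hf]
      rw [Real.log_div (hν0 x).ne' (hμ x).ne']
      have hle : ν x ≤ 1 := by
        rw [← hν.2]; exact Finset.single_le_sum (fun y _ => hν.1 y) (Finset.mem_univ x)
      have := Real.log_nonpos (hν0 x).le hle
      linarith only [this, hB x]
    set T := univ.filter (fun x => 4 * Real.exp (a * n) * μ x ≤ ν x) with hT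
    set L := ∑ x ∈ T, ν x with hLdef
    have hL0 : 0 ≤ L := Finset.sum_nonneg fun x _ => hν.1 x
    have hLle : L ≤ 4 * IP' ν μ / (η * n) := by
      rw [le_div_iff₀ (mul_pos hη hn')]
      exact hL
    have hLhalf : L ≤ 1 / 2 := by
      refine hLle.trans ?_
      rw [div_le_div_iff₀ (mul_pos hη hn') (by norm_num)]
      linarith only [hsmall]
    -- truncated density
    set f₁ : Cfg n → ℝ := fun x => min (f x) A with hf₁
    have hf₁0 : ∀ x, 0 < f₁ x := fun x => lt_min (hf0 x) hA0
    have hnotT : ∀ x, x ∉ T → f₁ x = f x := by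
      intro x hx
      have : ν x < A * μ x := by
        by_contra hc
        exact hx (Finset.mem_filter.2 ⟨Finset.mem_univ _, not_lt.1 hc⟩)
      have h1 : f x ≤ A := by
        simp only [hf]
        rw [div_le_iff₀ (hμ x)]
        exact this.le
      exact min_eq_left h1
    have hTA : ∀ x ∈ T, A ≤ f x := by
      intro x hx
      have h1 : A * μ x ≤ ν x := (Finset.mem_filter.1 hx).2
      simp only [hf]
      rw [le_div_iff₀ (hμ x)]
      exact h1
    set m₁ := ∑ x, μ x * f₁ x with hm₁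
    have hm_le : m₁ ≤ 1 := by
      rw [hm₁, ← hν.2]
      apply Finset.sum_le_sum
      intro x _
      rw [hνf x]
      exact mul_le_mul_of_nonneg_left (min_le_left _ _) (hμ x).le
    have hm_ge : 1 / 2 ≤ m₁ := by
      have h1 : 1 - m₁ ≤ L := by
        rw [hm₁, ← hν.2, ← Finset.sum_sub_distrib, hLdef]
        have h2 : ∑ x, (ν x - μ x * f₁ x) = ∑ x ∈ T, (ν x - μ x * f₁ x) := by
          symm
          apply Finset.sum_subset (Finset.subset_univ _)
          intro x _ hx
          rw [hnotT x hx, hνf x, sub_self]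
        rw [h2]
        apply Finset.sum_le_sum
        intro x _
        have := mul_pos (hμ x) (hf₁0 x)
        linarith only [this]
      linarith only [h1, hLhalf]
    have hm0 : 0 < m₁ := by linarith only [hm_ge]
    set ν₁ : Cfg n → ℝ := fun x => μ x * f₁ x / m₁ with hν₁
    have hν₁P : IsProb ν₁ := by
      refine ⟨fun x => div_nonneg (mul_nonneg (hμ x).le (hf₁0 x).le) hm0.le, ?_⟩
      simp only [hν₁, ← Finset.sum_div]
      rw [← hm₁, div_self hm0.ne']
    have hν₁0 : ∀ x, 0 < ν₁ x := fun x => div_pos (mul_pos (hμ x) (hf₁0 x)) hm0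
    have hν₁d : ∀ x, ν₁ x / μ x = f₁ x / m₁ := by
      intro x
      simp only [hν₁]
      have := (hμ x).ne'
      field_simp
    have hν₁b : ∀ x, ν₁ x ≤ 8 * Real.exp (a * n) * μ x := by
      intro x
      simp only [hν₁]
      rw [div_le_iff₀ hm0]
      have h1 : f₁ x ≤ A := min_le_right _ _
      have h2 : μ x * f₁ x ≤ μ x * A := mul_le_mul_of_nonneg_left h1 (hμ x).le
      have h3 : μ x * A ≤ 8 * Real.exp (a * n) * μ x * m₁ := by
        have h4 : 8 * Real.exp (a * n) * μ x * (1 / 2) ≤ 8 * Real.exp (a * n) * μ x * m₁ :=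
          mul_le_mul_of_nonneg_left hm_ge (mul_nonneg (by positivity) (hμ x).le)
        have h5 : μ x * A = 8 * Real.exp (a * n) * μ x * (1 / 2) := by rw [hA]; ring
        linarith only [h4]
      linarith only [h3, h2]
    have hmain := hM ν₁ hν₁P hν₁0 hν₁b (fun i x => min (t i x) A / m₁)
      (fun i x => div_pos (lt_min (ht i x) hA0) hm0) (fun i x => by simp only [hti i x])
    -- the functional of ν₁
    have hprod : Ex μ (fun x => ∑ i, Dv (ν₁ x / μ x) (min (t i x) A / m₁)) ≤ 2 * P := by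
      have h1 : Ex μ (fun x => ∑ i, Dv (ν₁ x / μ x) (min (t i x) A / m₁)) ≤ (1 / m₁) * Q := by
        rw [hQ]
        unfold Ex
        rw [Finset.mul_sum]
        apply Finset.sum_le_sum
        intro x _
        rw [← mul_assoc, mul_comm (1 / m₁), mul_assoc]
        apply mul_le_mul_of_nonneg_left _ (hμ x).le
        rw [Finset.mul_sum]
        apply Finset.sum_le_sum
        intro i _
        rw [hν₁d, Dv_smul (hf₁0 x) (lt_min (ht i x) hA0) hm0, div_eq_mul_one_div, mul_comm]
        exact mul_le_mul_of_nonneg_left (Dv_min (hf0 x) (ht i x) hA0)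
          (by (clear * - hm_ge; positivity))
      have h4 : 1 / m₁ ≤ 2 := by
        rw [div_le_iff₀ hm0]; linarith only [hm_ge]
      have hQ0 : 0 ≤ Q := by linarith only [hP0, hP]
      have := mul_le_mul_of_nonneg_right h4 hQ0
      linarith only [this, h1, hQ0, hP]
    -- entropy comparison
    have hKL0 : 0 ≤ KL ν₁ μ := by
      have := KL_ge_supp hμ hν₁P univ (fun x hx => absurd (Finset.mem_univ x) hx)
        (by rw [hμ1]; norm_num)
      rw [hμ1, Real.log_one] at this
      linarith only [this]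
    have hent : ∑ x, μ x * (f₁ x * Real.log (f₁ x)) ≤ KL ν₁ μ := by
      have h1 : KL ν₁ μ = (∑ x, μ x * (f₁ x * Real.log (f₁ x))) / m₁ - Real.log m₁ := by
        unfold KL
        have h2 : ∀ x, ν₁ x * Real.log (ν₁ x / μ x)
            = (μ x * (f₁ x * Real.log (f₁ x)) - μ x * f₁ x * Real.log m₁) / m₁ := by
          intro x
          rw [hν₁d, Real.log_div (hf₁0 x).ne' hm0.ne']
          simp only [hν₁]
          ring
        simp only [h2]
        rw [← Finset.sum_div, Finset.sum_sub_distrib, ← Finset.sum_mul, ← hm₁]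
        field_simp
      have h3 : ∑ x, μ x * (f₁ x * Real.log (f₁ x)) = m₁ * (KL ν₁ μ + Real.log m₁) := by
        rw [h1]; field_simp; ring
      rw [h3]
      have h4 : Real.log m₁ ≤ 0 := Real.log_nonpos hm0.le hm_le
      have h5 : m₁ * Real.log m₁ ≤ 0 := mul_nonpos_of_nonneg_of_nonpos hm0.le h4
      have h6 : m₁ * KL ν₁ μ ≤ 1 * KL ν₁ μ := mul_le_mul_of_nonneg_right hm_le hKL0
      linarith only [h6, h5]
    have hdiff : KL ν μ ≤ ∑ x, μ x * (f₁ x * Real.log (f₁ x)) + (1 + B * n) * L := by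
      have h1 : KL ν μ = ∑ x, μ x * (f x * Real.log (f x)) := by
        unfold KL
        refine Finset.sum_congr rfl fun x _ => ?_
        rw [hνf x]
        have : μ x * f x / μ x = f x := by
          have := (hμ x).ne'
          field_simp
        rw [this]; ring
      have h2 : KL ν μ - ∑ x, μ x * (f₁ x * Real.log (f₁ x))
          = ∑ x ∈ T, (μ x * (f x * Real.log (f x)) - μ x * (f₁ x * Real.log (f₁ x))) := by
        rw [h1, ← Finset.sum_sub_distrib]
        symm
        apply Finset.sum_subset (Finset.subset_univ _)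
        intro x _ hx
        rw [hnotT x hx, sub_self]
      have h3 : ∑ x ∈ T, (μ x * (f x * Real.log (f x)) - μ x * (f₁ x * Real.log (f₁ x)))
          ≤ ∑ x ∈ T, ν x * (1 + B * n) := by
        apply Finset.sum_le_sum
        intro x hx
        have h4 : f₁ x ≤ f x := min_le_left _ _
        have h5 := xlogx_sub (hf₁0 x) h4
        have h6 : 0 ≤ 1 + Real.log (f x) := by
          have : 0 ≤ Real.log (f x) := Real.log_nonneg (by linarith only [hTA x hx, hA1])
          linarith only [this]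
        have h7 : (f x - f₁ x) * (1 + Real.log (f x)) ≤ f x * (1 + B * n) := by
          apply mul_le_mul _ _ h6 (hf0 x).le
          · linarith only [hf₁0 x]
          · linarith only [hBf x]
        have h8 : f x * Real.log (f x) - f₁ x * Real.log (f₁ x) ≤ f x * (1 + B * n) := by
          linarith only [h7, h5]
        have h9 := mul_le_mul_of_nonneg_left h8 (hμ x).le
        rw [hνf x]
        linarith only [h9]
      rw [← Finset.sum_mul, ← hLdef] at h3
      linarith only [h3, h2]
    have hlast : (1 + B * n) * L ≤ 2 * (1 + B) / η * P := by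
      have h1 : (1 + B * n) ≤ (1 + B) * n := by linarith only [hn1]
      have h2 : (1 + B * n) * L ≤ (1 + B) * n * (4 * IP' ν μ / (η * n)) := by
        apply mul_le_mul h1 hLle hL0
        (clear * - hB0 hn; positivity)
      have h3 : (1 + B) * n * (4 * IP' ν μ / (η * n)) = 4 * (1 + B) / η * IP' ν μ := by
        field_simp
      have h4 : 4 * (1 + B) / η * IP' ν μ ≤ 4 * (1 + B) / η * (1 / 2 * P) :=
        mul_le_mul_of_nonneg_left hIP (by (clear * - hB0 hη; positivity))
      have h5 : 4 * (1 + B) / η * (1 / 2 * P) = 2 * (1 + B) / η * P := by ring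
      linarith only [h2, h3, h4, h5]
    have h10 : C₁ * (Ex μ (fun x => ∑ i, Dv (ν₁ x / μ x) (min (t i x) A / m₁)) + 1)
        ≤ C₁ * (2 * P + 1) := mul_le_mul_of_nonneg_left (by linarith only [hprod]) hC₁
    have h11 : C₁ * (2 * P + 1) ≤ 2 * C₁ * (P + 1) := by linarith only [hC₁]
    have h12 : 2 * (1 + B) / η * P ≤ 2 * (1 + B) / η * (P + 1) :=
      mul_le_mul_of_nonneg_left (by linarith only []) hc1
    have h13 : 0 ≤ 4 * B / η * (P + 1) := by (clear * - hB0 hη hP0; positivity)
    linarith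

end Vale.Agent.P150.H185
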