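import Mathlib
import Vale.Agent.P150.Bdl.B39
import Vale.Agent.P150.H185.Rec
import Vale.Agent.P150.H185.Trunc

/-! Defective approximate tensorization of entropy for the zero-field SK model, every `β < 1`. -/

open MeasureTheory ProbabilityTheory Filter Topology

namespace Vale.Agent.P150.H185

open Vale.Agent.P150.F

section cube

variable {n : ℕ} {J : Fin n → Fin n → ℝ} (b : Fin n → ℝ)

lemma resample_mul (hJ : ∀ i j, J i j = J j i) (i : Fin n) (f : Cfg n → ℝ) (x : Cfg n) :
    (gibbs J b x + gibbs J b (flip x i)) * resample J b i f x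
      = gibbs J b x * f x + gibbs J b (flip x i) * f (flip x i) := by
  have h := resample_sub hJ b i f x
  have h1 := gibbs_pos J b x
  have h2 := gibbs_pos J b (flip x i)
  unfold rate at h
  have h3 : resample J b i f x = f x + gibbs J b (flip x i)
      / (gibbs J b x + gibbs J b (flip x i)) * (f (flip x i) - f x) := by linarith
  rw [h3]
  field_simp
  ring

lemma resample_flip (hJ : ∀ i j, J i j = J j i) (i : Fin n) (f : Cfg n → ℝ) (x : Cfg n) :
    resample J b i f (flip x i) = resample J b i f x := by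
  have h1 := resample_mul b hJ i f x
  have h2 := resample_mul b hJ i f (flip x i)
  rw [flip_flip] at h2
  have h3 : 0 < gibbs J b x + gibbs J b (flip x i) := add_pos (gibbs_pos J b _) (gibbs_pos J b _)
  have h4 : (gibbs J b x + gibbs J b (flip x i)) * resample J b i f (flip x i)
      = (gibbs J b x + gibbs J b (flip x i)) * resample J b i f x := by
    rw [h1]
    linarith
  exact mul_left_cancel₀ h3.ne' h4

lemma resample_pos (hJ : ∀ i j, J i j = J j i) (i : Fin n) {f : Cfg n → ℝ} (hf : ∀ x, 0 < f x)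
    (x : Cfg n) : 0 < resample J b i f x := by
  have h1 := resample_mul b hJ i f x
  have h2 := gibbs_pos J b x
  have h3 := gibbs_pos J b (flip x i)
  have h4 : 0 < (gibbs J b x + gibbs J b (flip x i)) * resample J b i f x := by
    rw [h1]
    have := hf x
    have := hf (flip x i)
    positivity
  exact (mul_pos_iff_of_pos_left (by positivity)).1 h4

/-- resampling under the mean, against a function which does not see the site -/
lemma ex_mul_inv (hJ : ∀ i j, J i j = J j i) (i : Fin n) (f h : Cfg n → ℝ)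
    (hh : ∀ x, h (flip x i) = h x) :
    ex J b (fun x => f x * h x) = ex J b (fun x => resample J b i f x * h x) := by
  have h1 : ∀ g : Cfg n → ℝ, 2 * ex J b g
      = ∑ x, (gibbs J b x * g x + gibbs J b (flip x i) * g (flip x i)) := by
    intro g
    rw [Finset.sum_add_distrib, sum_flip i (fun x => gibbs J b x * g x)]
    unfold ex
    ring
  have h2 : 2 * ex J b (fun x => f x * h x)
      = 2 * ex J b (fun x => resample J b i f x * h x) := by
    rw [h1, h1]
    apply Finset.sum_congr rfl
    intro x _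
    have h3 := resample_mul b hJ i f x
    rw [hh, resample_flip b hJ]
    have e1 : gibbs J b x * (f x * h x) + gibbs J b (flip x i) * (f (flip x i) * h x)
        = (gibbs J b x * f x + gibbs J b (flip x i) * f (flip x i)) * h x := by ring
    rw [e1, ← h3]
    ring
  linarith

/-- the mean of the one-site divergences is the mean of the one-site entropies -/
lemma ex_Dv (hJ : ∀ i j, J i j = J j i) {f : Cfg n → ℝ} (hf : ∀ x, 0 < f x) :
    ∑ x, gibbs J b x * (∑ i, Dv (f x) (resample J b i f x))
      = ∑ i, (ex J b (fun x => f x * Real.log (f x))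
          - ex J b (fun x => resample J b i f x * Real.log (resample J b i f x))) := by
  have e0 : ∑ x, gibbs J b x * (∑ i, Dv (f x) (resample J b i f x))
      = ∑ i, ∑ x, gibbs J b x * Dv (f x) (resample J b i f x) := by
    rw [Finset.sum_comm]
    exact Finset.sum_congr rfl fun x _ => by rw [Finset.mul_sum]
  rw [e0]
  apply Finset.sum_congr rfl
  intro i _
  have h1 := ex_mul_inv b hJ i f (fun x => Real.log (resample J b i f x))
    (fun x => by rw [resample_flip b hJ])
  have h2 := ex_mul_inv b hJ i f (fun _ => 1) (fun _ => rfl)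
  simp only [mul_one] at h2
  have e1 : ∑ x, gibbs J b x * Dv (f x) (resample J b i f x)
      = ex J b (fun x => f x * Real.log (f x))
        - ex J b (fun x => f x * Real.log (resample J b i f x))
        - ex J b (fun x => f x) + ex J b (fun x => resample J b i f x) := by
    unfold ex Dv
    rw [← Finset.sum_sub_distrib, ← Finset.sum_sub_distrib, ← Finset.sum_add_distrib]
    exact Finset.sum_congr rfl fun x _ => by ring
  rw [e1, h1, ← h2]
  ring

end cube

end Vale.Agent.P150.H185

namespace Vale.Agent.P150.F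

open Vale.Agent.P150.H185

/-- the defective approximate tensorization in filter form -/
theorem dat_of (h3 : D3MStatement) (hR : D8RecG) (hB : D8BridgeStatement)
    (β : ℝ) (hβ0 : 0 ≤ β) (hβ1 : β < 1)
    {I : Type} (F : Filter I) (n : I → ℕ) (J : ∀ i, Mat (n i)) (hgood : Good β F n J) :
    ∃ K : ℝ, 0 ≤ K ∧ ∀ᶠ i in F,
      (∀ f : Cfg (n i) → ℝ, (∀ x, 0 < f x) → ex (fun a b => β * J i a b) (fun _ => 0) f = 1 →
        ex (fun a b => β * J i a b) (fun _ => 0) (fun x => f x * Real.log (f x))
          ≤ K * (∑ k, (ex (fun a b => β * J i a b) (fun _ => 0) (fun x => f x * Real.log (f x))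
            - ex (fun a b => β * J i a b) (fun _ => 0)
              (fun x => resample (fun a b => β * J i a b) (fun _ => 0) k f x *
                Real.log (resample (fun a b => β * J i a b) (fun _ => 0) k f x))) + 1)) := by
  obtain ⟨a, ha, C₁, hC₁, hrec⟩ := hR β hβ0 hβ1 F n J hgood
  obtain ⟨η, hη, hent⟩ := h3 β hβ0 hβ1 F n J hgood (a / 2) (by positivity)
  set K := 2 * (6 * C₁) + 2 * (1 + 4) / η + 4 * 4 / η with hK
  have hK0 : 0 ≤ K := by (clear * - hC₁ hη; positivity)
  refine ⟨2 * K, by positivity, ?_⟩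
  have hop := hgood.op 1 one_pos
  have hn2 : ∀ᶠ i in F, 2 ≤ n i := hgood.hn.eventually_ge_atTop 2
  filter_upwards [hrec, hent, hop, hn2] with i h2 h3 h4 h5
  have hop3 : OpLe (J i) 3 := by norm_num at h4; exact h4
  have hsymm : ∀ a b : Fin (n i), β * J i a b = β * J i b a := fun a b => by
    rw [hgood.symm i a b]
  have hge := hB.gibbs_eq (n i) (J i) β (hgood.symm i) (hgood.diag i)
  have hn0 : 0 < n i := by omega
  set μ := gM (β • J i) 0 with hμdef
  have hμ : ∀ x, 0 < μ x := fun x => div_pos (Real.exp_pos _)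
    (Finset.sum_pos (fun _ _ => Real.exp_pos _) Finset.univ_nonempty)
  have hμ1 : ∑ x, μ x = 1 := by
    rw [hμdef]; unfold gM
    rw [← Finset.sum_div]
    exact div_self (Finset.sum_pos (fun _ _ => Real.exp_pos _) Finset.univ_nonempty).ne'
  have hlog : ∀ x, - Real.log (μ x) ≤ 4 * n i :=
    hB.log_le (n i) (J i) β (hgood.symm i) hop3 hβ0 hβ1.le
  have h3' := D8T.ext_pos hμ hμ1 h3
  have hM : ∀ ν, IsProb ν → (∀ x, 0 < ν x) → (∀ x, ν x ≤ 8 * Real.exp (a * n i) * μ x) →
      ∀ t : Fin (n i) → Cfg (n i) → ℝ, (∀ k x, 0 < t k x) → (∀ k x, t k (flip x k) = t k x) →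
      KL ν μ ≤ (6 * C₁) * (Ex μ (fun x => ∑ k, Dv (ν x / μ x) (t k x)) + 1) := by
    intro ν hν hν0 hνle t ht hti
    have hf0 : ∀ x, 0 < ν x / μ x := fun x => div_pos (hν0 x) (hμ x)
    have hc1 : ∀ y : Vec (n i), EntX (gM 0 y) (fun x => ν x / μ x)
        ≤ Ex (gM 0 y) (fun x => ∑ k, Dv (ν x / μ x) (t k x)) := fun y =>
      entX_le y (fun x => ν x / μ x) hf0 t ht hti
    have hG0 : ∀ x : Cfg (n i), 0 ≤ ∑ k, Dv (ν x / μ x) (t k x) := fun x =>
      Finset.sum_nonneg fun k _ => Dv_nonneg (hf0 x) (ht k x)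
    have hExG : ∀ y : Vec (n i), 0 ≤ Ex (gM 0 y) (fun x => ∑ k, Dv (ν x / μ x) (t k x)) :=
      fun y => Finset.sum_nonneg fun x _ => mul_nonneg (gM_pos _ _ x).le (hG0 x)
    have hsm : ∀ ρ : Cfg (n i) → ℝ, Ex ρ (fun x => 6 * ∑ k, Dv (ν x / μ x) (t k x))
        = 6 * Ex ρ (fun x => ∑ k, Dv (ν x / μ x) (t k x)) := by
      intro ρ
      unfold Ex
      rw [Finset.mul_sum]
      exact Finset.sum_congr rfl fun x _ => by ring
    have h7 := h2 ν hν hν0 hνle (fun x => 6 * ∑ k, Dv (ν x / μ x) (t k x))
      (fun x => mul_nonneg (by norm_num) (hG0 x))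
      (fun y => by
        rw [hsm]
        have h8 := hc1 y
        have h9 := hExG y
        linarith)
      (fun y => by
        rw [hsm]
        have h8 := hc1 y
        have h9 := mean_le y (fun x => ν x / μ x) hf0
        linarith)
    rw [hsm] at h7
    have h8 : 0 ≤ Ex μ (fun x => ∑ k, Dv (ν x / μ x) (t k x)) :=
      Finset.sum_nonneg fun x _ => mul_nonneg (hμ x).le (hG0 x)
    have h9 : C₁ * (6 * Ex μ (fun x => ∑ k, Dv (ν x / μ x) (t k x)) + 1)
        ≤ (6 * C₁) * (Ex μ (fun x => ∑ k, Dv (ν x / μ x) (t k x)) + 1) := by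
      linarith only [hC₁]
    exact h7.trans h9
  have htr := truncAT hn0 hμ hμ1 ha hη (by norm_num : (0:ℝ) ≤ 4) (by positivity) hlog h3' hM
  intro f hf hf1
  have hf1' : ∑ x, μ x * f x = 1 := by
    rw [← hf1]; unfold ex; rw [hge]
  have hp : IsProb (fun x => μ x * f x) :=
    ⟨fun x => (mul_pos (hμ x) (hf x)).le, hf1'⟩
  have h6 := htr (fun x => μ x * f x) hp (fun x => mul_pos (hμ x) (hf x))
    (fun k x => resample (fun a b => β * J i a b) (fun _ => 0) k f x)
    (fun k x => resample_pos (fun _ => 0) hsymm k hf x)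
    (fun k x => resample_flip (fun _ => 0) hsymm k f x)
  have e1 : ∀ x, μ x * f x / μ x = f x := fun x => by
    have := (hμ x).ne'
    field_simp
  have e2 : KL (fun x => μ x * f x) μ
      = ex (fun a b => β * J i a b) (fun _ => 0) (fun x => f x * Real.log (f x)) := by
    unfold KL ex
    rw [hge]
    refine Finset.sum_congr rfl fun x _ => ?_
    rw [e1]; ring
  simp only [e1] at h6
  have e3 := ex_Dv (J := fun a b => β * J i a b) (fun _ => 0) hsymm hf
  rw [hge] at e3
  have e4 : Ex μ (fun x => ∑ k, Dv (f x) (resample (fun a b => β * J i a b) (fun _ => 0) k f x))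
      = ∑ k, (ex (fun a b => β * J i a b) (fun _ => 0) (fun x => f x * Real.log (f x))
            - ex (fun a b => β * J i a b) (fun _ => 0)
              (fun x => resample (fun a b => β * J i a b) (fun _ => 0) k f x *
                Real.log (resample (fun a b => β * J i a b) (fun _ => 0) k f x))) := e3
  rw [e4, e2] at h6
  refine h6.trans ?_
  rw [← hK]
  linarith only [hK0]

/-- the defective approximate tensorization -/
theorem dat (β : ℝ) (hβ0 : 0 ≤ β) (hβ1 : β < 1)
    {I : Type} (F : Filter I) (n : I → ℕ) (J : ∀ i, Mat (n i)) (hgood : Good β F n J) :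
    ∃ K : ℝ, 0 ≤ K ∧ ∀ᶠ i in F,
      (∀ f : Cfg (n i) → ℝ, (∀ x, 0 < f x) → ex (fun a b => β * J i a b) (fun _ => 0) f = 1 →
        ex (fun a b => β * J i a b) (fun _ => 0) (fun x => f x * Real.log (f x))
          ≤ K * (∑ k, (ex (fun a b => β * J i a b) (fun _ => 0) (fun x => f x * Real.log (f x))
            - ex (fun a b => β * J i a b) (fun _ => 0)
              (fun x => resample (fun a b => β * J i a b) (fun _ => 0) k f x *
                Real.log (resample (fun a b => β * J i a b) (fun _ => 0) k f x))) + 1)) :=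
  dat_of d3mStatement (d8recG_of (d6_of_core driftCore) thCH1 thCHG thCH4' thCH4'' thCH5 thCH6a
    d8end0 d8end2) d8Bridge β hβ0 hβ1 F n J hgood

end Vale.Agent.P150.F
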