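import Mathlib

/-! Tightening of a defective modified logarithmic Sobolev inequality by a Poincare inequality
(finite reversible chains; no dependence on the number of states). -/

open Finset Real

namespace Vale.Agent.P150.H185

/-- the cost of an edge for the function `g ^ 2` -/
noncomputable def cst (u v : ℝ) : ℝ := (u ^ 2 - v ^ 2) * (log (u ^ 2) - log (v ^ 2))

lemma cst_comm (u v : ℝ) : cst u v = cst v u := by unfold cst; ring

lemma two_sq_le_cst {u v : ℝ} (hu : 0 < u) (hv : 0 < v) : 2 * (u - v) ^ 2 ≤ cst u v := by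
  wlog h : v ≤ u generalizing u v
  · rw [cst_comm, show (u - v) ^ 2 = (v - u) ^ 2 by ring]
    exact this hv hu (le_of_not_ge h)
  unfold cst
  have h1 : 1 - (u / v)⁻¹ ≤ log (u / v) := one_sub_inv_le_log_of_pos (div_pos hu hv)
  rw [log_div hu.ne' hv.ne', inv_div] at h1
  rw [log_pow, log_pow]
  push_cast
  have h2 : (u - v) / u ≤ log u - log v := by
    have : (u - v) / u = 1 - v / u := by field_simp
    rw [this]; exact h1
  have h3 : 0 ≤ u ^ 2 - v ^ 2 := by nlinarith
  have h4 : (u ^ 2 - v ^ 2) * (2 * ((u - v) / u)) ≤ (u ^ 2 - v ^ 2) * (2 * log u - 2 * log v) :=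
    mul_le_mul_of_nonneg_left (by linarith) h3
  refine le_trans ?_ h4
  rw [show (u ^ 2 - v ^ 2) * (2 * ((u - v) / u)) = 2 * (u - v) ^ 2 * ((u + v) / u) by
    field_simp; ring]
  have h5 : 1 ≤ (u + v) / u := by rw [le_div_iff₀ hu]; linarith
  have h6 : 0 ≤ 2 * (u - v) ^ 2 := by positivity
  nlinarith [mul_le_mul_of_nonneg_left h5 h6]

lemma cst_nonneg {u v : ℝ} (hu : 0 < u) (hv : 0 < v) : 0 ≤ cst u v :=
  le_trans (by positivity) (two_sq_le_cst hu hv)

lemma log_sq_diff_nonneg {u v : ℝ} (hv : 0 < v) (h : v ≤ u) : 0 ≤ log (u ^ 2) - log (v ^ 2) := by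
  have : log (v ^ 2) ≤ log (u ^ 2) := log_le_log (by positivity) (by nlinarith)
  linarith

lemma sq_mul_log_le_cst {u v : ℝ} (hv : 0 < v) (h : v ≤ u) :
    (u - v) ^ 2 * (log (u ^ 2) - log (v ^ 2)) ≤ cst u v := by
  unfold cst
  refine mul_le_mul_of_nonneg_right ?_ (log_sq_diff_nonneg hv h)
  nlinarith

/-- the truncation at level `t` -/
noncomputable def psi (t u : ℝ) : ℝ := max (u - t) 0

lemma psi_nonneg (t u : ℝ) : 0 ≤ psi t u := le_max_right _ _

lemma psi_of_le {t u : ℝ} (h : u ≤ t) : psi t u = 0 := max_eq_right (by linarith)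

lemma psi_of_ge {t u : ℝ} (h : t ≤ u) : psi t u = u - t := max_eq_left (by linarith)

lemma psi_mono {t u v : ℝ} (h : v ≤ u) : psi t v ≤ psi t u := max_le_max (by linarith) le_rfl

lemma psi_sub_le {t u v : ℝ} (h : v ≤ u) : psi t u - psi t v ≤ u - v := by
  unfold psi
  rcases le_total (u - t) 0 with h1 | h1 <;> rcases le_total (v - t) 0 with h2 | h2
  · rw [max_eq_right h1, max_eq_right h2]; linarith
  · rw [max_eq_right h1, max_eq_left h2]; linarith
  · rw [max_eq_left h1, max_eq_right h2]; linarith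
  · rw [max_eq_left h1, max_eq_left h2]; linarith

/-- the edge crosses the level `t` -/
def crs (t u v : ℝ) : Prop := min u v < 2 * t ∧ t < max u v

lemma crs_comm (t u v : ℝ) : crs t u v ↔ crs t v u := by
  unfold crs; rw [min_comm, max_comm]

open Classical in
/-- the flux of an edge through the level `t` -/
noncomputable def flx (t u v : ℝ) : ℝ := if crs t u v then (u - v) ^ 2 else 0

lemma flx_comm (t u v : ℝ) : flx t u v = flx t v u := by
  unfold flx
  rw [show (u - v) ^ 2 = (v - u) ^ 2 by ring]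
  by_cases h : crs t u v
  · rw [if_pos h, if_pos ((crs_comm t u v).1 h)]
  · rw [if_neg h, if_neg (fun h' => h ((crs_comm t u v).2 h'))]

lemma flx_nonneg (t u v : ℝ) : 0 ≤ flx t u v := by
  unfold flx; split_ifs <;> positivity

lemma flx_le (t u v : ℝ) : flx t u v ≤ (u - v) ^ 2 := by
  unfold flx; split_ifs <;> nlinarith [sq_nonneg (u - v)]

lemma log_four_le : log 4 ≤ 1.4 := by
  rw [show (4:ℝ) = 2 ^ 2 by norm_num, log_pow]
  have := log_two_lt_d9
  push_cast
  linarith

/-- comparable values -/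
lemma cost_A {P Q a : ℝ} (hP0 : 0 < P) (hQP : Q ≤ P) (hA : P / 2 ≤ Q) (ha : 0 < a) :
    (P ^ 2 - Q ^ 2) * (log (P ^ 2 + a) - log (Q ^ 2 + a)) ≤ 9 * (P - Q) ^ 2 := by
  have hQpos : 0 < Q := by linarith
  have hQa : 0 < Q ^ 2 + a := by positivity
  have hPa : 0 < P ^ 2 + a := by positivity
  have hPQ0 : 0 ≤ P ^ 2 - Q ^ 2 := by nlinarith
  have h4 : log (P ^ 2 + a) - log (Q ^ 2 + a) ≤ (P ^ 2 - Q ^ 2) / Q ^ 2 := by
    rw [← log_div hPa.ne' hQa.ne']
    have h5 := log_le_sub_one_of_pos (div_pos hPa hQa)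
    refine h5.trans ?_
    rw [div_sub_one hQa.ne', show P ^ 2 + a - (Q ^ 2 + a) = P ^ 2 - Q ^ 2 by ring]
    exact div_le_div_of_nonneg_left hPQ0 (by positivity) (by linarith)
  refine (mul_le_mul_of_nonneg_left h4 hPQ0).trans ?_
  rw [← mul_div_assoc, div_le_iff₀ (by positivity)]
  have h6 : (P + Q) ^ 2 ≤ 9 * Q ^ 2 := by
    rw [show 9 * Q ^ 2 = (3 * Q) ^ 2 by ring]
    exact pow_le_pow_left₀ (by linarith) (by linarith) 2
  have h7 := mul_le_mul_of_nonneg_left h6 (sq_nonneg (P - Q))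
  calc (P ^ 2 - Q ^ 2) * (P ^ 2 - Q ^ 2) = (P - Q) ^ 2 * (P + Q) ^ 2 := by ring
    _ ≤ (P - Q) ^ 2 * (9 * Q ^ 2) := h7
    _ = 9 * (P - Q) ^ 2 * Q ^ 2 := by ring

/-- both values above the level -/
lemma cost_B {P Q u v a : ℝ} (hP0 : 0 < P) (hQ0 : 0 < Q) (hv : 0 < v) (h : v ≤ u)
    (hPu : P ≤ u) (hQv : v / 2 ≤ Q) (ha : 0 < a) :
    log (P ^ 2 + a) - log (Q ^ 2 + a) ≤ log 4 + (log (u ^ 2) - log (v ^ 2)) := by
  have hu : 0 < u := hv.trans_le h
  have hQa : 0 < Q ^ 2 + a := by positivity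
  have hPa : 0 < P ^ 2 + a := by positivity
  rw [← log_div hPa.ne' hQa.ne', ← log_div (by positivity) (by positivity),
    ← log_mul (by norm_num) (by positivity)]
  apply log_le_log (div_pos hPa hQa)
  rw [div_le_iff₀ hQa, ← mul_div_assoc, div_mul_eq_mul_div, le_div_iff₀ (by positivity)]
  have h5 : v ^ 2 ≤ 4 * Q ^ 2 := by
    rw [show 4 * Q ^ 2 = (2 * Q) ^ 2 by ring]
    exact pow_le_pow_left₀ hv.le (by linarith) 2
  have h6 : P ^ 2 ≤ u ^ 2 := pow_le_pow_left₀ hP0.le hPu 2
  have h7 : v ^ 2 ≤ u ^ 2 := pow_le_pow_left₀ hv.le h 2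
  have h8 : P ^ 2 * v ^ 2 ≤ u ^ 2 * (4 * Q ^ 2) :=
    mul_le_mul h6 h5 (by positivity) (by positivity)
  have hu2 : 0 ≤ u ^ 2 := sq_nonneg u
  have h9 : a * v ^ 2 ≤ a * (4 * u ^ 2) := mul_le_mul_of_nonneg_left (by linarith) ha.le
  calc (P ^ 2 + a) * v ^ 2 = P ^ 2 * v ^ 2 + a * v ^ 2 := by ring
    _ ≤ u ^ 2 * (4 * Q ^ 2) + a * (4 * u ^ 2) := add_le_add h8 h9
    _ = 4 * u ^ 2 * (Q ^ 2 + a) := by ring

/-- crossing edge -/
lemma cost_C {Q u v t a : ℝ} (hv : 0 < v) (hut : t < u) (ht : 1 ≤ t)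
    (hv2 : v < 2 * t) (ha : 0 < a) (ha1 : a ≤ 1) :
    log ((u - t) ^ 2 + a) - log (Q ^ 2 + a) ≤
        - log a + 2 * log (2 * t) + (log (u ^ 2) - log (v ^ 2)) := by
  have hPa : 0 < (u - t) ^ 2 + a := by positivity
  have h5 : log a ≤ log (Q ^ 2 + a) := log_le_log ha (by linarith [sq_nonneg Q])
  have h6 : log ((u - t) ^ 2 + a) ≤ log (u ^ 2) := by
    apply log_le_log hPa
    nlinarith
  have h7 : log (v ^ 2) ≤ 2 * log (2 * t) := by
    rw [log_pow]
    push_cast
    have := log_le_log hv hv2.le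
    linarith
  linarith

/-- the cost of an edge for the truncated function `psi ^ 2 + a` -/
lemma cost_le_aux {u v t a : ℝ} (hv : 0 < v) (ht : 1 ≤ t) (ha : 0 < a) (ha1 : a ≤ 1)
    (h : v ≤ u) :
    (psi t u ^ 2 - psi t v ^ 2) * (log (psi t u ^ 2 + a) - log (psi t v ^ 2 + a))
      ≤ 7 * cst u v + 4 * flx t u v * (- log a + 2 * log (2 * t)) := by
  have hu : 0 < u := hv.trans_le h
  have hla : 0 ≤ - log a := by have := log_nonpos ha.le ha1; linarith
  have hlt : 0 ≤ 2 * log (2 * t) := by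
    have := log_nonneg (show (1:ℝ) ≤ 2 * t by linarith); linarith
  have hfl : 0 ≤ 4 * flx t u v * (- log a + 2 * log (2 * t)) :=
    mul_nonneg (by have := flx_nonneg t u v; linarith) (by linarith)
  have hc := cst_nonneg hu hv
  rcases le_or_gt u t with hut | hut
  · rw [psi_of_le hut, psi_of_le (h.trans hut)]
    simp only [sub_self, zero_mul]
    linarith
  have hP' : psi t u = u - t := psi_of_ge hut.le
  have hP0 : 0 < psi t u := by rw [hP']; linarith
  have hQ0 : 0 ≤ psi t v := psi_nonneg _ _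
  have hQP : psi t v ≤ psi t u := psi_mono h
  have hd : psi t u - psi t v ≤ u - v := psi_sub_le h
  have hd0 : 0 ≤ psi t u - psi t v := by linarith
  have hdsq : (psi t u - psi t v) ^ 2 ≤ (u - v) ^ 2 := pow_le_pow_left₀ hd0 hd 2
  have h2 := two_sq_le_cst hu hv
  have h3 := sq_mul_log_le_cst hv h
  have hlog := log_sq_diff_nonneg hv h
  rcases le_or_gt (psi t u / 2) (psi t v) with hA | hB
  · have h5 := cost_A hP0 hQP hA ha
    linarith
  have hPQ0 : 0 ≤ psi t u ^ 2 - psi t v ^ 2 := by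
    have := pow_le_pow_left₀ hQ0 hQP 2
    linarith
  have hP2 : psi t u ^ 2 - psi t v ^ 2 ≤ 4 * (u - v) ^ 2 := by
    have h4 : psi t u ^ 2 ≤ (2 * (psi t u - psi t v)) ^ 2 :=
      pow_le_pow_left₀ hP0.le (by linarith) 2
    have h5 : (2 * (psi t u - psi t v)) ^ 2 = 4 * (psi t u - psi t v) ^ 2 := by ring
    have h6 := sq_nonneg (psi t v)
    linarith
  rcases le_or_gt (2 * t) v with hv2 | hv2
  · have hQ' : psi t v = v - t := psi_of_ge (by linarith)
    have h4 := cost_B (Q := psi t v) hP0 (by rw [hQ']; linarith) hv h (by rw [hP']; linarith)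
      (by rw [hQ']; linarith) ha
    have h5 : (psi t u ^ 2 - psi t v ^ 2) * (log (psi t u ^ 2 + a) - log (psi t v ^ 2 + a))
        ≤ 4 * (u - v) ^ 2 * (1.4 + (log (u ^ 2) - log (v ^ 2))) := by
      refine (mul_le_mul_of_nonneg_left h4 hPQ0).trans ?_
      refine mul_le_mul hP2 (by linarith [log_four_le]) ?_ (by positivity)
      have := log_nonneg (show (1:ℝ) ≤ 4 by norm_num)
      linarith
    have h6 : 4 * (u - v) ^ 2 * (1.4 + (log (u ^ 2) - log (v ^ 2)))
        = 5.6 * (u - v) ^ 2 + 4 * ((u - v) ^ 2 * (log (u ^ 2) - log (v ^ 2))) := by ring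
    linarith
  · have hcr : flx t u v = (u - v) ^ 2 := by
      unfold flx
      rw [if_pos]
      exact ⟨by rw [min_eq_right h]; exact hv2, by rw [max_eq_left h]; exact hut⟩
    rw [hcr]
    have h4 := cost_C (Q := psi t v) hv hut ht hv2 ha ha1
    rw [← hP'] at h4
    have h5 : (psi t u ^ 2 - psi t v ^ 2) * (log (psi t u ^ 2 + a) - log (psi t v ^ 2 + a))
        ≤ 4 * (u - v) ^ 2 * (- log a + 2 * log (2 * t) + (log (u ^ 2) - log (v ^ 2))) := by
      refine (mul_le_mul_of_nonneg_left h4 hPQ0).trans ?_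
      exact mul_le_mul_of_nonneg_right hP2 (by linarith)
    have h6 : 4 * (u - v) ^ 2 * (- log a + 2 * log (2 * t) + (log (u ^ 2) - log (v ^ 2)))
        = 4 * (u - v) ^ 2 * (- log a + 2 * log (2 * t))
          + 4 * ((u - v) ^ 2 * (log (u ^ 2) - log (v ^ 2))) := by ring
    linarith

lemma cost_le {u v t a : ℝ} (hu : 0 < u) (hv : 0 < v) (ht : 1 ≤ t) (ha : 0 < a) (ha1 : a ≤ 1) :
    (psi t u ^ 2 - psi t v ^ 2) * (log (psi t u ^ 2 + a) - log (psi t v ^ 2 + a))
      ≤ 7 * cst u v + 4 * flx t u v * (- log a + 2 * log (2 * t)) := by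
  rcases le_total v u with h | h
  · exact cost_le_aux hv ht ha ha1 h
  · rw [cst_comm, flx_comm]
    refine le_trans (le_of_eq ?_) (cost_le_aux hu ht ha ha1 h)
    ring

/-! counting of the levels crossed by an edge -/

/-- the levels -/
noncomputable def lev (j : ℕ) : ℝ := 2 ^ (j + 1)

lemma two_le_lev (j : ℕ) : 2 ≤ lev j := by
  unfold lev
  calc (2:ℝ) = 2 ^ 1 := by norm_num
    _ ≤ 2 ^ (j + 1) := pow_le_pow_right₀ (by norm_num) (by omega)

lemma log_lev (j : ℕ) : log (lev j) = (j + 1) * log 2 := by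
  unfold lev
  rw [log_pow]
  push_cast
  ring

/-- an edge crosses at most `2 + log2 (u / v)` levels -/
lemma card_crs {u v : ℝ} (hv : 0 < v) (h : v ≤ u) (S : Finset ℕ)
    (hS : ∀ j ∈ S, crs (lev j) u v) :
    (S.card : ℝ) * log 2 ≤ 2 * log 2 + (log u - log v) := by
  have hu : 0 < u := hv.trans_le h
  have hl2 : 0 < log 2 := log_pos (by norm_num)
  have hlv : log v ≤ log u := log_le_log hv h
  rcases S.eq_empty_or_nonempty with h0 | h0
  · rw [h0]
    simp only [card_empty, Nat.cast_zero, zero_mul]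
    linarith
  set m := S.min' h0 with hm
  set M := S.max' h0 with hM
  have hmM : m ≤ M := S.min'_le_max' h0
  have hsub : S ⊆ Finset.Icc m M := by
    intro j hj
    rw [Finset.mem_Icc]
    exact ⟨S.min'_le j hj, S.le_max' j hj⟩
  have hcard : S.card ≤ M + 1 - m := by
    have := Finset.card_le_card hsub
    rwa [Nat.card_Icc] at this
  have hcard' : (S.card : ℝ) ≤ M + 1 - m := by
    have h1 : ((M + 1 - m : ℕ) : ℝ) = (M : ℝ) + 1 - m := by
      rw [Nat.cast_sub (by omega)]; push_cast; ring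
    rw [← h1]
    exact_mod_cast hcard
  have c1 := (hS m (S.min'_mem h0)).1
  have c2 := (hS M (S.max'_mem h0)).2
  rw [min_eq_right h] at c1
  rw [max_eq_left h] at c2
  have d1 : log v ≤ log 2 + (m + 1) * log 2 := by
    rw [← log_lev, ← log_mul (by norm_num) (by have := two_le_lev m; positivity)]
    exact log_le_log hv c1.le
  have d2 : (M + 1) * log 2 ≤ log u := by
    rw [← log_lev]
    exact log_le_log (by have := two_le_lev M; positivity) c2.le
  have h5 : (S.card : ℝ) * log 2 ≤ (M + 1 - m) * log 2 :=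
    mul_le_mul_of_nonneg_right hcard' hl2.le
  linarith

/-- total flux of an edge -/
lemma sum_flx_le {u v : ℝ} (hu : 0 < u) (hv : 0 < v) (N : ℕ) :
    ∑ j ∈ range N, flx (lev j) u v ≤ 2 * cst u v := by
  classical
  wlog h : v ≤ u generalizing u v
  · simp only [flx_comm _ u v]
    rw [cst_comm]
    exact this hv hu (le_of_not_ge h)
  have h1 : ∑ j ∈ range N, flx (lev j) u v
      = (((range N).filter (fun j => crs (lev j) u v)).card : ℝ) * (u - v) ^ 2 := by
    unfold flx
    rw [← Finset.sum_filter, Finset.sum_const, nsmul_eq_mul]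
  rw [h1]
  set S := (range N).filter (fun j => crs (lev j) u v) with hS
  have h2 := card_crs hv h S (fun j hj => (Finset.mem_filter.1 hj).2)
  have hl2 : 0.69 < log 2 := by have := log_two_gt_d9; linarith
  have hlog := log_sq_diff_nonneg hv h
  have h3 : (S.card : ℝ) ≤ 2 + (log (u ^ 2) - log (v ^ 2)) := by
    have e : log (u ^ 2) - log (v ^ 2) = 2 * (log u - log v) := by
      rw [log_pow, log_pow]; push_cast; ring
    rw [e] at hlog ⊢
    by_contra hc
    rw [not_le] at hc
    have h4 : (2 + 2 * (log u - log v)) * log 2 < (S.card : ℝ) * log 2 :=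
      mul_lt_mul_of_pos_right hc (by linarith)
    nlinarith
  have h4 := two_sq_le_cst hu hv
  have h5 := sq_mul_log_le_cst hv h
  calc (S.card : ℝ) * (u - v) ^ 2 ≤ (2 + (log (u ^ 2) - log (v ^ 2))) * (u - v) ^ 2 :=
        mul_le_mul_of_nonneg_right h3 (sq_nonneg _)
    _ = 2 * (u - v) ^ 2 + (u - v) ^ 2 * (log (u ^ 2) - log (v ^ 2)) := by ring
    _ ≤ 2 * cst u v := by linarith

/-! the pointwise decomposition of the entropy -/

lemma psi_ge_half {t u : ℝ} (ht : 0 ≤ t) (h : 2 * t ≤ u) : u / 2 ≤ psi t u := by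
  rw [psi_of_ge (by linarith)]
  linarith

lemma log_le_count (k : ℕ) : ∀ u : ℝ, 0 < u → u < 2 * lev k →
    u ^ 2 * log u ≤ log 2 * (2 * u ^ 2 + 4 * ∑ j ∈ range k, psi (lev j) u ^ 2) := by
  have hl2 : 0 < log 2 := log_pos (by norm_num)
  induction k with
  | zero =>
    intro u hu h
    simp only [range_zero, sum_empty, mul_zero, add_zero]
    have h1 : log u ≤ 2 * log 2 := by
      have : log u ≤ log (2 * lev 0) := log_le_log hu h.le
      rw [log_mul (by norm_num) (by unfold lev; norm_num), log_lev] at this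
      push_cast at this
      linarith
    have := mul_le_mul_of_nonneg_left h1 (sq_nonneg u)
    linarith
  | succ k ih =>
    intro u hu h
    rw [sum_range_succ]
    rcases lt_or_ge u (2 * lev k) with h1 | h1
    · have h2 := ih u hu h1
      have h3 : 0 ≤ log 2 * (4 * psi (lev k) u ^ 2) := by positivity
      linarith
    · have h2 : log u ≤ (k + 3) * log 2 := by
        have : log u ≤ log (2 * lev (k + 1)) := log_le_log hu h.le
        rw [log_mul (by norm_num) (by unfold lev; positivity), log_lev] at this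
        push_cast at this
        linarith
      have h3 : (k + 1 : ℝ) * u ^ 2 ≤ 4 * (∑ j ∈ range k, psi (lev j) u ^ 2 + psi (lev k) u ^ 2) := by
        rw [← sum_range_succ (fun j => psi (lev j) u ^ 2) k, Finset.mul_sum]
        have : (k + 1 : ℝ) * u ^ 2 = ∑ _j ∈ range (k + 1), u ^ 2 := by
          rw [sum_const, card_range, nsmul_eq_mul]; push_cast; ring
        rw [this]
        apply sum_le_sum
        intro j hj
        have hjk : j ≤ k := by have := mem_range.1 hj; omega
        have h4 : lev j ≤ lev k := by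
          unfold lev
          exact pow_le_pow_right₀ (by norm_num) (by omega)
        have h5 : u / 2 ≤ psi (lev j) u :=
          psi_ge_half (by have := two_le_lev j; linarith) (by linarith)
        have h6 := pow_le_pow_left₀ (by positivity) h5 2
        linarith
      have h4 : u ^ 2 * log u ≤ u ^ 2 * ((k + 3) * log 2) :=
        mul_le_mul_of_nonneg_left h2 (sq_nonneg u)
      have h5 := mul_le_mul_of_nonneg_left h3 hl2.le
      linarith

/-- pointwise bound of the entropy density -/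
lemma ent_pt {g : ℝ} (hg : 0 < g) (k : ℕ) :
    g ^ 2 * log (g ^ 2) - g ^ 2 + 1 ≤ 25 * (g - 1) ^ 2 + 6 * ∑ j ∈ range k, psi (lev j) g ^ 2
      + 4 * (psi (lev k) g ^ 2 * log (g ^ 2)) := by
  have hs : 0 ≤ ∑ j ∈ range k, psi (lev j) g ^ 2 := sum_nonneg fun j _ => sq_nonneg _
  have hk : 0 ≤ psi (lev k) g ^ 2 * log (g ^ 2) := by
    rcases le_or_gt g (lev k) with h | h
    · rw [psi_of_le h]; simp
    · apply mul_nonneg (sq_nonneg _)
      apply log_nonneg
      have := two_le_lev k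
      nlinarith
  have hsq : 0 ≤ (g - 1) ^ 2 := sq_nonneg _
  rcases lt_or_ge g 4 with h4 | h4
  · have h1 := log_le_sub_one_of_pos (show 0 < g ^ 2 by positivity)
    have h2 := mul_le_mul_of_nonneg_left h1 (sq_nonneg g)
    have h3 : (g + 1) ^ 2 ≤ 25 := by nlinarith
    have h5 := mul_le_mul_of_nonneg_left h3 hsq
    have h6 : g ^ 2 * (g ^ 2 - 1) - g ^ 2 + 1 = (g - 1) ^ 2 * (g + 1) ^ 2 := by ring
    linarith
  have hlg : log (g ^ 2) = 2 * log g := by rw [log_pow]; push_cast; ring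
  have hlg0 : 0 ≤ log g := log_nonneg (by linarith)
  have h1 : g ^ 2 ≤ 4 * (g - 1) ^ 2 := by nlinarith
  have hl2 : log 2 < 0.6931471808 := log_two_lt_d9
  have hl20 : 0 < log 2 := log_pos (by norm_num)
  rcases lt_or_ge g (2 * lev k) with h5 | h5
  · have h6 := log_le_count k g hg h5
    have h7 : log 2 * (2 * g ^ 2 + 4 * ∑ j ∈ range k, psi (lev j) g ^ 2)
        ≤ 0.7 * (2 * g ^ 2 + 4 * ∑ j ∈ range k, psi (lev j) g ^ 2) :=
      mul_le_mul_of_nonneg_right (by linarith) (by positivity)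
    rw [hlg] at hk ⊢
    nlinarith
  · have h6 := psi_ge_half (by have := two_le_lev k; linarith) h5
    have h7 : (g / 2) ^ 2 ≤ psi (lev k) g ^ 2 := pow_le_pow_left₀ (by positivity) h6 2
    have h8 : (g / 2) ^ 2 * log (g ^ 2) ≤ psi (lev k) g ^ 2 * log (g ^ 2) :=
      mul_le_mul_of_nonneg_right h7 (by rw [hlg]; linarith)
    have h9 : (g / 2) ^ 2 * log (g ^ 2) = g ^ 2 * log (g ^ 2) / 4 := by ring
    nlinarith

/-! the tightening theorem -/

variable {Ω ι : Type*} [Fintype Ω] [Fintype ι]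

lemma mul_log_ge {x : ℝ} (hx : 0 ≤ x) : -1 ≤ x * log x := by
  rcases hx.eq_or_lt with h | h
  · rw [← h]; simp
  · have h1 : 1 - x⁻¹ ≤ log x := one_sub_inv_le_log_of_pos h
    have h2 := mul_le_mul_of_nonneg_left h1 hx
    have h3 : x * (1 - x⁻¹) = x - 1 := by field_simp
    linarith

/-- lower bound of the entropy density of the truncated function -/
lemma low_pt {g t a : ℝ} (hg : 0 < g) (ha : 0 < a) :
    psi t g ^ 2 * log (g ^ 2) - (if t < g then g ^ 2 else 0) + a * log a
      ≤ (psi t g ^ 2 + a) * log (psi t g ^ 2 + a) := by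
  have h1 : log a ≤ log (psi t g ^ 2 + a) := log_le_log ha (by linarith [sq_nonneg (psi t g)])
  have h2 : a * log a ≤ a * log (psi t g ^ 2 + a) := mul_le_mul_of_nonneg_left h1 ha.le
  rcases le_or_gt g t with h | h
  · rw [if_neg (not_lt.2 h), psi_of_le h]
    simp
  rw [if_pos h]
  have hp : 0 < psi t g := by rw [psi_of_ge h.le]; linarith
  set r : ℝ := psi t g ^ 2 / g ^ 2 with hr
  have hr0 : 0 < r := by positivity
  have h3 : psi t g ^ 2 = g ^ 2 * r := by rw [hr]; field_simp
  have h4 : psi t g ^ 2 * log (psi t g ^ 2) = psi t g ^ 2 * log (g ^ 2) + g ^ 2 * (r * log r) := by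
    have : log (psi t g ^ 2) = log (g ^ 2) + log r := by
      rw [h3, log_mul (by positivity) hr0.ne']
    rw [this, mul_add]
    congr 1
    rw [h3]; ring
  have h5 : -1 ≤ r * log r := mul_log_ge hr0.le
  have h6 : g ^ 2 * (-1) ≤ g ^ 2 * (r * log r) := mul_le_mul_of_nonneg_left h5 (sq_nonneg g)
  have h7 : psi t g ^ 2 * log (psi t g ^ 2) ≤ psi t g ^ 2 * log (psi t g ^ 2 + a) :=
    mul_le_mul_of_nonneg_left (log_le_log (by positivity) (by linarith)) (by positivity)
  linarith

/-- **Tightening.** A Poincare inequality and a defective modified logarithmic Sobolev inequality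
imply a modified logarithmic Sobolev inequality (form for squares of mean one). -/
theorem tighten_sq (μ : Ω → ℝ) (s d : ι → Ω) (w : ι → ℝ) (hμ : ∀ x, 0 ≤ μ x)
    (hμ1 : ∑ x, μ x = 1) (hw : ∀ e, 0 ≤ w e) {γ K : ℝ} (hγ : 0 < γ) (hK : 0 < K)
    (hP : ∀ g : Ω → ℝ, γ * (∑ x, μ x * g x ^ 2 - (∑ x, μ x * g x) ^ 2)
      ≤ ∑ e, w e * (g (s e) - g (d e)) ^ 2)
    (hD : ∀ F : Ω → ℝ, (∀ x, 0 < F x) →
      ∑ x, μ x * (F x * log (F x)) - (∑ x, μ x * F x) * log (∑ x, μ x * F x)
        ≤ K * (∑ e, w e * ((F (s e) - F (d e)) * (log (F (s e)) - log (F (d e))))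
          + ∑ x, μ x * F x))
    (g : Ω → ℝ) (hg : ∀ x, 0 < g x) (hg1 : ∑ x, μ x * g x ^ 2 = 1) :
    ∑ x, μ x * (g x ^ 2 * log (g x ^ 2))
      ≤ (152 * K + (64 * K + 153) / γ) * ∑ e, w e * cst (g (s e)) (g (d e)) := by
  set D : ℝ := ∑ e, w e * cst (g (s e)) (g (d e)) with hDdef
  have hD0 : 0 ≤ D := sum_nonneg fun e _ => mul_nonneg (hw e) (cst_nonneg (hg _) (hg _))
  -- Poincare for `g`
  have hV : ∑ x, μ x * (g x - 1) ^ 2 ≤ D / γ := by
    have h1 := hP g
    rw [hg1] at h1
    set m := ∑ x, μ x * g x with hm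
    have hm0 : 0 ≤ m := sum_nonneg fun x _ => mul_nonneg (hμ x) (hg x).le
    have h2 : ∑ e, w e * (g (s e) - g (d e)) ^ 2 ≤ D / 2 := by
      rw [hDdef, sum_div]
      apply sum_le_sum
      intro e _
      have h3 := mul_le_mul_of_nonneg_left (two_sq_le_cst (hg (s e)) (hg (d e))) (hw e)
      linarith
    have h3 : ∑ x, μ x * (g x - 1) ^ 2 = 2 - 2 * m := by
      have : ∀ x, μ x * (g x - 1) ^ 2 = μ x * g x ^ 2 - 2 * (μ x * g x) + μ x := fun x => by ring
      simp only [this, sum_add_distrib, sum_sub_distrib, ← mul_sum]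
      rw [hg1, hμ1, ← hm]
      ring
    have h4 : m ^ 2 ≤ 1 := by
      have h5 : 0 ≤ 2 - 2 * m := by
        rw [← h3]; exact sum_nonneg fun x _ => mul_nonneg (hμ x) (sq_nonneg _)
      nlinarith
    have h5 : m ≤ 1 := by nlinarith
    have h6 : 1 - m ≤ 1 - m ^ 2 := by nlinarith
    rw [h3, le_div_iff₀ hγ]
    have h7 := mul_le_mul_of_nonneg_left h6 hγ.le
    linarith
  -- the masses above the levels
  set a : ℕ → ℝ := fun j => ∑ x, μ x * psi (lev j) (g x) ^ 2 with ha
  set S : ℕ → ℝ := fun j => ∑ e, w e * flx (lev j) (g (s e)) (g (d e)) with hS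
  have ha0 : ∀ j, 0 ≤ a j := fun j => sum_nonneg fun x _ => mul_nonneg (hμ x) (sq_nonneg _)
  have hS0 : ∀ j, 0 ≤ S j := fun j => sum_nonneg fun e _ => mul_nonneg (hw e) (flx_nonneg _ _ _)
  have hSsum : ∀ N, ∑ j ∈ range N, S j ≤ 2 * D := by
    intro N
    rw [hS, sum_comm, hDdef, mul_sum]
    apply sum_le_sum
    intro e _
    rw [← mul_sum]
    have := mul_le_mul_of_nonneg_left (sum_flx_le (hg (s e)) (hg (d e)) N) (hw e)
    linarith
  have hex : ∃ j, S j ≤ 1 / (8 * K) * a j := by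
    have hlim : Filter.Tendsto lev Filter.atTop Filter.atTop := by
      have h1 := tendsto_pow_atTop_atTop_of_one_lt (show (1:ℝ) < 2 by norm_num)
      exact h1.comp (Filter.tendsto_add_atTop_nat 1)
    have hbig : ∀ᶠ j in Filter.atTop, ∀ x, g x ≤ lev j := by
      rw [Filter.eventually_all]
      exact fun x => hlim.eventually_ge_atTop (g x)
    obtain ⟨j, hj⟩ := hbig.exists
    refine ⟨j, ?_⟩
    have h1 : S j = 0 := by
      rw [hS]
      apply sum_eq_zero
      intro e _
      unfold flx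
      rw [if_neg, mul_zero]
      intro hc
      exact absurd hc.2 (not_lt.2 (max_le (hj _) (hj _)))
    rw [h1]
    exact mul_nonneg (by positivity) (ha0 j)
  classical
  set k := Nat.find hex with hk
  have hk1 : S k ≤ 1 / (8 * K) * a k := Nat.find_spec hex
  have hk2 : ∀ j < k, 1 / (8 * K) * a j < S j := fun j hj => not_le.1 (Nat.find_min hex hj)
  have hsum : ∑ j ∈ range k, a j ≤ 16 * K * D := by
    have h1 : ∑ j ∈ range k, 1 / (8 * K) * a j ≤ 2 * D :=
      (sum_le_sum fun j hj => (hk2 j (mem_range.1 hj)).le).trans (hSsum k)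
    rw [← mul_sum, one_div, inv_mul_le_iff₀ (by positivity)] at h1
    linarith
  -- the good level
  have hgood : ∑ x, μ x * (psi (lev k) (g x) ^ 2 * log (g x ^ 2))
      ≤ 14 * K * D + (4 * K + 8) * (4 * (D / γ)) := by
    set t := lev k with ht
    have ht2 : 2 ≤ t := two_le_lev k
    set A := a k with hA
    set N := ∑ x, μ x * (if t < g x then g x ^ 2 else 0) with hN
    set X := ∑ x, μ x * (psi t (g x) ^ 2 * log (g x ^ 2)) with hX
    have hN4 : N ≤ 4 * (D / γ) := by
      refine le_trans ?_ (mul_le_mul_of_nonneg_left hV (by norm_num))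
      rw [hN, mul_sum]
      apply sum_le_sum
      intro x _
      have h1 : (if t < g x then g x ^ 2 else 0) ≤ 4 * (g x - 1) ^ 2 := by
        split_ifs with h
        · nlinarith [hg x]
        · positivity
      have := mul_le_mul_of_nonneg_left h1 (hμ x)
      linarith
    have hpN : ∀ x, psi t (g x) ^ 2 ≤ (if t < g x then g x ^ 2 else 0) := by
      intro x
      split_ifs with h
      · exact pow_le_pow_left₀ (psi_nonneg _ _) (by rw [psi_of_ge h.le]; linarith) 2
      · rw [psi_of_le (not_lt.1 h)]; norm_num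
    have hAN : A ≤ N := by
      rw [hA, hN]
      exact sum_le_sum fun x _ => mul_le_mul_of_nonneg_left (hpN x) (hμ x)
    have hA1 : A ≤ 1 := by
      rw [← hg1]
      refine hAN.trans (sum_le_sum fun x _ => mul_le_mul_of_nonneg_left ?_ (hμ x))
      split_ifs
      · exact le_rfl
      · positivity
    have hDγ : 0 ≤ D / γ := div_nonneg hD0 hγ.le
    rcases (ha0 k).eq_or_lt with h0 | hApos
    · -- nothing above the level
      have h1 : X = 0 := by
        have h2 := (sum_eq_zero_iff_of_nonneg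
          (fun x _ => mul_nonneg (hμ x) (sq_nonneg (psi (lev k) (g x))))).1 h0.symm
        rw [hX]
        apply sum_eq_zero
        intro x hx
        rw [← mul_assoc, h2 x hx, zero_mul]
      rw [h1]
      positivity
    have hF := hD (fun x => psi t (g x) ^ 2 + A) (fun x => by positivity)
    have hsF : ∑ x, μ x * (psi t (g x) ^ 2 + A) = 2 * A := by
      simp only [mul_add, sum_add_distrib, ← sum_mul]
      rw [hμ1]
      have : ∑ x, μ x * psi t (g x) ^ 2 = A := rfl
      rw [this]; ring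
    rw [hsF] at hF
    have hcost : ∑ e, w e * ((psi t (g (s e)) ^ 2 + A - (psi t (g (d e)) ^ 2 + A))
          * (log (psi t (g (s e)) ^ 2 + A) - log (psi t (g (d e)) ^ 2 + A)))
        ≤ 7 * D + 4 * S k * (- log A + 2 * log (2 * t)) := by
      have h1 : 7 * D + 4 * S k * (- log A + 2 * log (2 * t))
          = ∑ e, w e * (7 * cst (g (s e)) (g (d e))
            + 4 * flx t (g (s e)) (g (d e)) * (- log A + 2 * log (2 * t))) := by
        rw [hDdef, hS, mul_sum, mul_sum, sum_mul, ← sum_add_distrib]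
        apply sum_congr rfl
        intro e _
        ring
      rw [h1]
      apply sum_le_sum
      intro e _
      refine mul_le_mul_of_nonneg_left ?_ (hw e)
      rw [show psi t (g (s e)) ^ 2 + A - (psi t (g (d e)) ^ 2 + A)
        = psi t (g (s e)) ^ 2 - psi t (g (d e)) ^ 2 by ring]
      exact cost_le (hg _) (hg _) (by linarith) hApos hA1
    have hlow : X - N + A * log A
        ≤ ∑ x, μ x * ((psi t (g x) ^ 2 + A) * log (psi t (g x) ^ 2 + A)) := by
      have h1 : X - N + A * log A = ∑ x, μ x * (psi t (g x) ^ 2 * log (g x ^ 2)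
          - (if t < g x then g x ^ 2 else 0) + A * log A) := by
        simp only [mul_add, mul_sub, sum_add_distrib, sum_sub_distrib, ← sum_mul]
        rw [hμ1, one_mul]
      rw [h1]
      exact sum_le_sum fun x _ => mul_le_mul_of_nonneg_left (low_pt (hg x) hApos) (hμ x)
    have hXt : A * (2 * log t) ≤ X := by
      have h1 : A * (2 * log t) = ∑ x, μ x * (psi t (g x) ^ 2 * (2 * log t)) := by
        rw [hA, ha]
        simp only [sum_mul, mul_assoc]
        rfl
      rw [h1]
      apply sum_le_sum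
      intro x _
      refine mul_le_mul_of_nonneg_left ?_ (hμ x)
      rcases le_or_gt (g x) t with h | h
      · rw [psi_of_le h]; simp
      · refine mul_le_mul_of_nonneg_left ?_ (sq_nonneg _)
        rw [log_pow]
        push_cast
        have := log_le_log (by linarith) h.le
        linarith
    have hlog2A : log (2 * A) = log 2 + log A := log_mul (by norm_num) hApos.ne'
    have hlog2t : log (2 * t) = log 2 + log t := log_mul (by norm_num) (by positivity)
    have hlA : log A ≤ 0 := log_nonpos hApos.le hA1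
    have hlt : 0 ≤ log t := log_nonneg (by linarith)
    have hl20 : 0 < log 2 := log_pos (by norm_num)
    have hl2 : log 2 < 0.7 := by have := log_two_lt_d9; linarith
    have h4 : K * (4 * S k * (- log A + 2 * log (2 * t)))
        ≤ A / 2 * (- log A + 2 * log (2 * t)) := by
      have h5 : K * (4 * S k) ≤ A / 2 := by
        have := mul_le_mul_of_nonneg_left hk1 (show 0 ≤ 4 * K by positivity)
        have h6 : 4 * K * (1 / (8 * K) * a k) = A / 2 := by
          rw [hA]; field_simp; ring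
        linarith
      have h6 : 0 ≤ - log A + 2 * log (2 * t) := by rw [hlog2t]; linarith
      have := mul_le_mul_of_nonneg_right h5 h6
      linarith
    have h5 := mul_le_mul_of_nonneg_left hcost hK.le
    have h6 : A * log A ≤ 0 := mul_nonpos_of_nonneg_of_nonpos hApos.le hlA
    have h7 : A * log 2 ≤ A * 0.7 := mul_le_mul_of_nonneg_left hl2.le hApos.le
    have h8 : K * A ≤ K * (4 * (D / γ)) := mul_le_mul_of_nonneg_left (hAN.trans hN4) hK.le
    have hA4 := hAN.trans hN4
    rw [hlog2A] at hF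
    rw [hlog2t] at h4 h5
    linarith
  -- conclusion
  have hfin : ∑ x, μ x * (g x ^ 2 * log (g x ^ 2))
      = ∑ x, μ x * (g x ^ 2 * log (g x ^ 2) - g x ^ 2 + 1) := by
    simp only [mul_add, mul_sub, sum_add_distrib, sum_sub_distrib, mul_one]
    rw [hg1, hμ1]; ring
  have hpt : ∑ x, μ x * (g x ^ 2 * log (g x ^ 2) - g x ^ 2 + 1)
      ≤ 25 * ∑ x, μ x * (g x - 1) ^ 2 + 6 * ∑ j ∈ range k, a j
        + 4 * ∑ x, μ x * (psi (lev k) (g x) ^ 2 * log (g x ^ 2)) := by
    have h1 : 25 * ∑ x, μ x * (g x - 1) ^ 2 + 6 * ∑ j ∈ range k, a j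
        + 4 * ∑ x, μ x * (psi (lev k) (g x) ^ 2 * log (g x ^ 2))
        = ∑ x, μ x * (25 * (g x - 1) ^ 2 + 6 * ∑ j ∈ range k, psi (lev j) (g x) ^ 2
          + 4 * (psi (lev k) (g x) ^ 2 * log (g x ^ 2))) := by
      have h2 : ∑ j ∈ range k, a j = ∑ x, μ x * ∑ j ∈ range k, psi (lev j) (g x) ^ 2 := by
        rw [ha, sum_comm]
        exact sum_congr rfl fun x _ => by rw [mul_sum]
      rw [h2, mul_sum, mul_sum, mul_sum, ← sum_add_distrib, ← sum_add_distrib]
      exact sum_congr rfl fun x _ => by ring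
    rw [h1]
    exact sum_le_sum fun x _ => mul_le_mul_of_nonneg_left (ent_pt (hg x) k) (hμ x)
  rw [hfin]
  refine hpt.trans ?_
  have h1 : (152 * K + (64 * K + 153) / γ) * D
      = 25 * (D / γ) + 6 * (16 * K * D) + 4 * (14 * K * D + (4 * K + 8) * (4 * (D / γ))) := by
    field_simp; ring
  rw [h1]
  linarith

/-- **Tightening**, form for positive functions of mean one. -/
theorem tighten (μ : Ω → ℝ) (s d : ι → Ω) (w : ι → ℝ) (hμ : ∀ x, 0 ≤ μ x)
    (hμ1 : ∑ x, μ x = 1) (hw : ∀ e, 0 ≤ w e) {γ K : ℝ} (hγ : 0 < γ) (hK : 0 < K)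
    (hP : ∀ g : Ω → ℝ, γ * (∑ x, μ x * g x ^ 2 - (∑ x, μ x * g x) ^ 2)
      ≤ ∑ e, w e * (g (s e) - g (d e)) ^ 2)
    (hD : ∀ F : Ω → ℝ, (∀ x, 0 < F x) →
      ∑ x, μ x * (F x * log (F x)) - (∑ x, μ x * F x) * log (∑ x, μ x * F x)
        ≤ K * (∑ e, w e * ((F (s e) - F (d e)) * (log (F (s e)) - log (F (d e))))
          + ∑ x, μ x * F x))
    (f : Ω → ℝ) (hf : ∀ x, 0 < f x) (hf1 : ∑ x, μ x * f x = 1) :
    ∑ x, μ x * (f x * log (f x)) ≤ (152 * K + (64 * K + 153) / γ) *
      ∑ e, w e * ((f (s e) - f (d e)) * (log (f (s e)) - log (f (d e)))) := by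
  have e : ∀ x, √(f x) ^ 2 = f x := fun x => Real.sq_sqrt (hf x).le
  have h := tighten_sq μ s d w hμ hμ1 hw hγ hK hP hD (fun x => √(f x))
    (fun x => Real.sqrt_pos.2 (hf x)) (by simp only [e]; exact hf1)
  unfold cst at h
  simp only [e] at h
  exact h

end Vale.Agent.P150.H185
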