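import Mathlib
import Vale.Agent.P150.H185.Tighten

/-! Tightening of a defective approximate tensorization of entropy by a Poincare inequality. -/

open Finset Real

namespace Vale.Agent.P150.H185

/-- entropy of a function on two points with masses `m₁, m₂` -/
noncomputable def ent2 (m₁ m₂ A B : ℝ) : ℝ :=
  m₁ * (A * log A) + m₂ * (B * log B)
    - (m₁ * A + m₂ * B) * log ((m₁ * A + m₂ * B) / (m₁ + m₂))

/-- the weight of an edge -/
noncomputable def wgt (m₁ m₂ : ℝ) : ℝ := m₁ * m₂ / (m₁ + m₂)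

lemma wgt_comm (m₁ m₂ : ℝ) : wgt m₁ m₂ = wgt m₂ m₁ := by
  unfold wgt; rw [mul_comm, add_comm]

lemma wgt_pos {m₁ m₂ : ℝ} (h1 : 0 < m₁) (h2 : 0 < m₂) : 0 < wgt m₁ m₂ := by
  unfold wgt; positivity

lemma ent2_comm (m₁ m₂ A B : ℝ) : ent2 m₁ m₂ A B = ent2 m₂ m₁ B A := by
  unfold ent2
  rw [add_comm (m₂ * B) (m₁ * A), add_comm m₂ m₁]
  ring

/-- (T1) lower bound by the squared difference of the roots -/
lemma ent2_ge_sq {m₁ m₂ u v : ℝ} (h1 : 0 < m₁) (h2 : 0 < m₂) (hu : 0 < u) (hv : 0 < v) :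
    wgt m₁ m₂ * (u - v) ^ 2 ≤ ent2 m₁ m₂ (u ^ 2) (v ^ 2) := by
  set M := m₁ + m₂ with hM
  have hM0 : 0 < M := by positivity
  set S := m₁ * u ^ 2 + m₂ * v ^ 2 with hS
  have hS0 : 0 < S := by positivity
  set r := √(S / M) with hr
  have hr0 : 0 < r := Real.sqrt_pos.2 (by positivity)
  have hr2 : r ^ 2 = S / M := Real.sq_sqrt (by positivity)
  have hSr : S = M * r ^ 2 := by rw [hr2]; field_simp
  have hlr : log (S / M) = 2 * log r := by rw [← hr2, log_pow]; push_cast; ring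
  have key : ∀ z : ℝ, 0 < z → z ^ 2 - z * r ≤ z ^ 2 * (log z - log r) := by
    intro z hz
    have h3 := one_sub_inv_le_log_of_pos (div_pos hz hr0)
    rw [log_div hz.ne' hr0.ne', inv_div] at h3
    have h4 := mul_le_mul_of_nonneg_left h3 (sq_nonneg z)
    have h5 : z ^ 2 * (1 - r / z) = z ^ 2 - z * r := by field_simp
    rw [h5] at h4
    exact h4
  have e1 : ent2 m₁ m₂ (u ^ 2) (v ^ 2)
      = 2 * m₁ * (u ^ 2 * (log u - log r)) + 2 * m₂ * (v ^ 2 * (log v - log r)) := by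
    unfold ent2
    rw [← hS, ← hM, hlr, log_pow, log_pow, hS]
    push_cast
    ring
  rw [e1]
  have h3 := mul_le_mul_of_nonneg_left (key u hu) (show 0 ≤ 2 * m₁ by positivity)
  have h4 := mul_le_mul_of_nonneg_left (key v hv) (show 0 ≤ 2 * m₂ by positivity)
  have h5 : wgt m₁ m₂ * (u - v) ^ 2 = S - (m₁ * u + m₂ * v) ^ 2 / M := by
    unfold wgt
    rw [← hM, hS]
    field_simp
    rw [hM]
    ring
  rw [h5]
  have h6 : 0 ≤ M * (r - (m₁ * u + m₂ * v) / M) ^ 2 := by positivity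
  have h7 : M * (r - (m₁ * u + m₂ * v) / M) ^ 2
      = M * r ^ 2 - 2 * r * (m₁ * u + m₂ * v) + (m₁ * u + m₂ * v) ^ 2 / M := by
    field_simp
    ring
  have h8 : 2 * m₁ * (u ^ 2 - u * r) + 2 * m₂ * (v ^ 2 - v * r)
      = 2 * S - 2 * r * (m₁ * u + m₂ * v) := by rw [hS]; ring
  linarith

lemma ent2_nonneg {m₁ m₂ u v : ℝ} (h1 : 0 < m₁) (h2 : 0 < m₂) (hu : 0 < u) (hv : 0 < v) :
    0 ≤ ent2 m₁ m₂ (u ^ 2) (v ^ 2) :=
  le_trans (mul_nonneg (wgt_pos h1 h2).le (sq_nonneg _)) (ent2_ge_sq h1 h2 hu hv)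

/-- (T2) upper bound by the covariance with the logarithm -/
lemma ent2_le_cov {m₁ m₂ A B : ℝ} (h1 : 0 < m₁) (h2 : 0 < m₂) (hA : 0 < A) (hB : 0 < B) :
    ent2 m₁ m₂ A B ≤ wgt m₁ m₂ * ((A - B) * (log A - log B)) := by
  set M := m₁ + m₂ with hM
  have hM0 : 0 < M := by positivity
  have hS0 : 0 < m₁ * A + m₂ * B := by positivity
  have hj : m₁ / M * log A + m₂ / M * log B ≤ log ((m₁ * A + m₂ * B) / M) := by
    have h := strictConcaveOn_log_Ioi.concaveOn.2 (Set.mem_Ioi.2 hA) (Set.mem_Ioi.2 hB)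
      (show 0 ≤ m₁ / M by positivity) (show 0 ≤ m₂ / M by positivity)
      (by rw [← add_div, ← hM, div_self hM0.ne'])
    simp only [smul_eq_mul] at h
    refine h.trans (le_of_eq ?_)
    congr 1
    field_simp
  have h3 := mul_le_mul_of_nonneg_left hj hS0.le
  unfold ent2 wgt
  rw [← hM]
  have h4 : m₁ * m₂ / M * ((A - B) * (log A - log B))
      = m₁ * (A * log A) + m₂ * (B * log B)
        - (m₁ * A + m₂ * B) * (m₁ / M * log A + m₂ / M * log B) := by
    field_simp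
    rw [hM]
    ring
  rw [h4]
  linarith

/-- (T3) upper bound by the logarithm of the mass fraction -/
lemma ent2_le_log {m₁ m₂ A B : ℝ} (h1 : 0 < m₁) (h2 : 0 < m₂) (hB : 0 < B) (hAB : B ≤ A) :
    ent2 m₁ m₂ A B ≤ m₁ * A * log ((m₁ + m₂) / m₁) := by
  have hA : 0 < A := hB.trans_le hAB
  set M := m₁ + m₂ with hM
  have hM0 : 0 < M := by positivity
  have hS0 : 0 < m₁ * A + m₂ * B := by positivity
  have h3 : log A - log (M / m₁) ≤ log ((m₁ * A + m₂ * B) / M) := by
    rw [← log_div hA.ne' (by positivity)]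
    apply log_le_log (by positivity)
    rw [div_div_eq_mul_div]
    apply div_le_div_of_nonneg_right _ hM0.le
    nlinarith
  have h4 : log B ≤ log ((m₁ * A + m₂ * B) / M) := by
    apply log_le_log hB
    rw [le_div_iff₀ hM0, hM]
    nlinarith
  have h5 := mul_le_mul_of_nonneg_left h3 (show 0 ≤ m₁ * A by positivity)
  have h6 := mul_le_mul_of_nonneg_left h4 (show 0 ≤ m₂ * B by positivity)
  unfold ent2
  rw [← hM]
  linarith

/-- two-point Donsker-Varadhan bound -/
lemma ent2_ge_dv {m₁ m₂ A B : ℝ} (h1 : 0 < m₁) (h2 : 0 < m₂) (hA : 0 < A) (hB : 0 < B) (l : ℝ) :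
    m₁ * A * l - (m₁ * A + m₂ * B) * log ((m₁ * exp l + m₂) / (m₁ + m₂)) ≤ ent2 m₁ m₂ A B := by
  set M := m₁ + m₂ with hM
  have hM0 : 0 < M := by positivity
  set S := m₁ * A + m₂ * B with hS
  have hS0 : 0 < S := by positivity
  set Z := m₁ * exp l + m₂ with hZ
  have hZ0 : 0 < Z := by positivity
  have k1 := one_sub_inv_le_log_of_pos (show 0 < A * Z / (exp l * S) by positivity)
  have k2 := one_sub_inv_le_log_of_pos (show 0 < B * Z / S by positivity)
  rw [log_div (by positivity) (by positivity), log_mul hA.ne' hZ0.ne',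
    log_mul (exp_pos l).ne' hS0.ne', log_exp] at k1
  rw [log_div (by positivity) hS0.ne', log_mul hB.ne' hZ0.ne'] at k2
  have k3 := mul_le_mul_of_nonneg_left k1 (show 0 ≤ m₁ * A by positivity)
  have k4 := mul_le_mul_of_nonneg_left k2 (show 0 ≤ m₂ * B by positivity)
  have e1 : m₁ * A * (1 - (A * Z / (exp l * S))⁻¹) + m₂ * B * (1 - (B * Z / S)⁻¹) = 0 := by
    have : m₁ * A * (1 - (A * Z / (exp l * S))⁻¹) + m₂ * B * (1 - (B * Z / S)⁻¹)
        = (m₁ * A + m₂ * B) - S * (m₁ * exp l + m₂) / Z := by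
      field_simp
      ring
    rw [this, ← hS, ← hZ]
    field_simp
    ring
  unfold ent2
  rw [← hM, ← hS, log_div hZ0.ne' hM0.ne', log_div hS0.ne' hM0.ne']
  have e2 : S * log S = m₁ * A * log S + m₂ * B * log S := by rw [hS]; ring
  have e3 : S * log Z = m₁ * A * log Z + m₂ * B * log Z := by rw [hS]; ring
  nlinarith

/-- (T5) lower bound when the large value sits on a small mass fraction -/
lemma ent2_ge_log {m₁ m₂ A B L : ℝ} (h1 : 0 < m₁) (h2 : 0 < m₂) (hA : 0 < A) (hB : 0 < B)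
    (hL : 2.77 ≤ L) (hLr : exp L * B ≤ A) (hLp : exp L * m₁ ≤ m₁ + m₂) :
    1 / 4 * (m₁ * A * L) ≤ ent2 m₁ m₂ A B := by
  set M := m₁ + m₂ with hM
  have hM0 : 0 < M := by positivity
  refine le_trans ?_ (ent2_ge_dv h1 h2 hA hB (L / 2))
  set E := exp (L / 2) with hE
  have hE0 : 0 < E := exp_pos _
  have hEE : exp L = E * E := by rw [hE, ← exp_add]; congr 1; ring
  rw [hEE] at hLr hLp
  have hE3 : 3 ≤ E := by
    have h3 := Real.quadratic_le_exp_of_nonneg (show 0 ≤ L / 2 by linarith)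
    rw [← hE] at h3
    nlinarith
  -- the logarithm
  have hlog : log ((m₁ * E + m₂) / (m₁ + m₂)) ≤ m₁ * E / M := by
    have h3 := log_le_sub_one_of_pos (show 0 < (m₁ * E + m₂) / (m₁ + m₂) by positivity)
    refine h3.trans ?_
    rw [← hM, div_sub_one hM0.ne']
    apply div_le_div_of_nonneg_right _ hM0.le
    rw [hM]
    linarith
  have hS0 : 0 < m₁ * A + m₂ * B := by positivity
  have h4 := mul_le_mul_of_nonneg_left hlog hS0.le
  -- first error term
  have h5 : m₁ * A * (m₁ * E / M) ≤ m₁ * A / E := by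
    rw [← mul_div_assoc, div_le_div_iff₀ hM0 hE0]
    have : m₁ * A * (E * E * m₁) ≤ m₁ * A * M := mul_le_mul_of_nonneg_left hLp (by positivity)
    nlinarith
  have h6 : m₂ * B * (m₁ * E / M) ≤ m₁ * A / E := by
    rw [← mul_div_assoc, div_le_div_iff₀ hM0 hE0]
    have h7 : m₁ * m₂ * (E * E * B) ≤ m₁ * m₂ * A := mul_le_mul_of_nonneg_left hLr (by positivity)
    have h8 : m₁ * m₂ * A ≤ m₁ * A * M := by
      rw [hM]
      have : 0 ≤ m₁ * A * m₁ := by positivity
      nlinarith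
    nlinarith
  -- `8 ≤ E L`
  have h9 : 2 * (m₁ * A / E) ≤ 1 / 4 * (m₁ * A * L) := by
    rw [← mul_div_assoc, div_le_iff₀ hE0]
    have h10 : 8 ≤ L * E := by nlinarith
    have h11 := mul_le_mul_of_nonneg_left h10 (show 0 ≤ m₁ * A by positivity)
    nlinarith
  have h12 : (m₁ * A + m₂ * B) * (m₁ * E / M) = m₁ * A * (m₁ * E / M) + m₂ * B * (m₁ * E / M) := by
    ring
  rw [h12] at h4
  have h13 : m₁ * A * (L / 2) = 1 / 4 * (m₁ * A * L) + 1 / 4 * (m₁ * A * L) := by ring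
  linarith

lemma log_sixteen : 2.77 ≤ log 16 := by
  rw [show (16:ℝ) = 2 ^ 4 by norm_num, log_pow]
  have := log_two_gt_d9
  push_cast
  linarith

/-- saturated edges, ordered form -/
def sat1 (m₁ m₂ u v : ℝ) : Prop := v ≤ u ∧ 16 * v ^ 2 ≤ u ^ 2 ∧ (m₁ + m₂) * v ^ 2 ≤ m₁ * u ^ 2

/-- saturated edges: the entropy does not grow with the ratio any more -/
def satE (m₁ m₂ u v : ℝ) : Prop := sat1 m₁ m₂ u v ∨ sat1 m₂ m₁ v u

lemma satE_comm (m₁ m₂ u v : ℝ) : satE m₁ m₂ u v ↔ satE m₂ m₁ v u := by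
  unfold satE; exact or_comm

lemma sat_cost {m₁ m₂ u v A B : ℝ} (h1 : 0 < m₁) (h2 : 0 < m₂) (hu : 0 < u) (hv : 0 < v)
    (hs : sat1 m₁ m₂ u v) (hB : 0 < B) (hAB : B ≤ A) (hAu : A ≤ u ^ 2) :
    ent2 m₁ m₂ A B ≤ 29 * ent2 m₁ m₂ (u ^ 2) (v ^ 2) := by
  obtain ⟨hvu, h16, hp⟩ := hs
  have hM0 : 0 < m₁ + m₂ := by positivity
  have hk := ent2_nonneg h1 h2 hu hv
  have hlM : 0 ≤ log ((m₁ + m₂) / m₁) := by
    apply log_nonneg
    rw [le_div_iff₀ h1]
    linarith
  have hY : ent2 m₁ m₂ A B ≤ m₁ * u ^ 2 * log ((m₁ + m₂) / m₁) :=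
    (ent2_le_log h1 h2 hB hAB).trans
      (mul_le_mul_of_nonneg_right (mul_le_mul_of_nonneg_left hAu h1.le) hlM)
  rcases le_or_gt (16 * m₁) (m₁ + m₂) with h | h
  · have hL : 2.77 ≤ log ((m₁ + m₂) / m₁) := by
      refine log_sixteen.trans (log_le_log (by norm_num) ?_)
      rw [le_div_iff₀ h1]
      exact h
    have h3 := ent2_ge_log h1 h2 (show 0 < u ^ 2 by positivity) (show 0 < v ^ 2 by positivity) hL
      (by
        rw [exp_log (by positivity), div_mul_eq_mul_div, div_le_iff₀ h1]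
        linarith)
      (by
        rw [exp_log (by positivity)]
        apply le_of_eq
        field_simp)
    linarith
  · have h3 := ent2_ge_sq h1 h2 hu hv
    have h4 : m₁ * u ^ 2 * log ((m₁ + m₂) / m₁) ≤ m₂ * u ^ 2 := by
      have h5 := log_le_sub_one_of_pos (show 0 < (m₁ + m₂) / m₁ by positivity)
      have h6 := mul_le_mul_of_nonneg_left h5 (show 0 ≤ m₁ * u ^ 2 by positivity)
      have h7 : m₁ * u ^ 2 * ((m₁ + m₂) / m₁ - 1) = m₂ * u ^ 2 := by
        field_simp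
        ring
      linarith
    have h5 : 9 * u ^ 2 ≤ 16 * (u - v) ^ 2 := by
      have h6 : 4 * v ≤ u := by
        have h7 : (4 * v) ^ 2 ≤ u ^ 2 := by linarith [show (4 * v) ^ 2 = 16 * v ^ 2 by ring]
        exact (abs_le_of_sq_le_sq' h7 hu.le).2
      have h7 : (3 * u) ^ 2 ≤ (4 * (u - v)) ^ 2 :=
        pow_le_pow_left₀ (by positivity) (by linarith) 2
      linarith [show (3 * u) ^ 2 = 9 * u ^ 2 by ring,
        show (4 * (u - v)) ^ 2 = 16 * (u - v) ^ 2 by ring]
    have h6 : m₂ ≤ 16 * wgt m₁ m₂ := by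
      unfold wgt
      rw [← mul_div_assoc, le_div_iff₀ hM0]
      nlinarith
    have h7 : m₂ * (9 * u ^ 2) ≤ 16 * wgt m₁ m₂ * (16 * (u - v) ^ 2) :=
      mul_le_mul h6 h5 (by positivity) (by have := wgt_pos h1 h2; positivity)
    linarith

lemma unsat_cst {m₁ m₂ u v : ℝ} (h1 : 0 < m₁) (h2 : 0 < m₂) (hu : 0 < u) (hv : 0 < v)
    (hvu : v ≤ u) (hs : ¬ sat1 m₁ m₂ u v) :
    wgt m₁ m₂ * cst u v ≤ 10 * ent2 m₁ m₂ (u ^ 2) (v ^ 2) := by
  have hw := wgt_pos h1 h2
  have hM0 : 0 < m₁ + m₂ := by positivity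
  have h3 := ent2_ge_sq h1 h2 hu hv
  rcases lt_or_ge (u ^ 2) (16 * v ^ 2) with h | h
  · have h4 : u ≤ 4 * v := by
      have h5 : u ^ 2 ≤ (4 * v) ^ 2 := by linarith [show (4 * v) ^ 2 = 16 * v ^ 2 by ring]
      exact (abs_le_of_sq_le_sq' h5 (by positivity)).2
    have h5 : cst u v ≤ 10 * (u - v) ^ 2 := by
      unfold cst
      have h6 := log_le_sub_one_of_pos (div_pos hu hv)
      rw [log_div hu.ne' hv.ne'] at h6
      have h7 : log (u ^ 2) - log (v ^ 2) ≤ 2 * ((u - v) / v) := by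
        rw [log_pow, log_pow]
        push_cast
        have : u / v - 1 = (u - v) / v := by field_simp
        linarith
      have h8 : 0 ≤ u ^ 2 - v ^ 2 := by nlinarith
      refine (mul_le_mul_of_nonneg_left h7 h8).trans ?_
      rw [← mul_div_assoc, ← mul_div_assoc, div_le_iff₀ hv]
      have h9 : 0 ≤ (u - v) ^ 2 := sq_nonneg _
      nlinarith [mul_le_mul_of_nonneg_left h4 h9]
    have h6 := mul_le_mul_of_nonneg_left h5 hw.le
    linarith
  · have hp : m₁ * u ^ 2 < (m₁ + m₂) * v ^ 2 := by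
      by_contra hc
      exact hs ⟨hvu, h, not_lt.1 hc⟩
    have hexp : exp (log (u ^ 2) - log (v ^ 2)) = u ^ 2 / v ^ 2 := by
      rw [exp_sub, exp_log (by positivity), exp_log (by positivity)]
    have hL : 2.77 ≤ log (u ^ 2) - log (v ^ 2) := by
      rw [← log_div (by positivity) (by positivity)]
      refine log_sixteen.trans (log_le_log (by norm_num) ?_)
      rw [le_div_iff₀ (by positivity)]
      exact h
    have h4 := ent2_ge_log h1 h2 (show 0 < u ^ 2 by positivity) (show 0 < v ^ 2 by positivity) hL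
      (by
        rw [hexp]
        apply le_of_eq
        field_simp)
      (by
        rw [hexp, div_mul_eq_mul_div, div_le_iff₀ (by positivity)]
        linarith)
    have h5 : cst u v ≤ u ^ 2 * (log (u ^ 2) - log (v ^ 2)) := by
      unfold cst
      exact mul_le_mul_of_nonneg_right (by nlinarith) (by linarith)
    have h6 : wgt m₁ m₂ ≤ m₁ := by
      unfold wgt
      rw [div_le_iff₀ hM0]
      nlinarith
    have h7 : wgt m₁ m₂ * cst u v ≤ m₁ * (u ^ 2 * (log (u ^ 2) - log (v ^ 2))) :=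
      mul_le_mul h6 h5 (cst_nonneg hu hv) h1.le
    have hk := ent2_nonneg h1 h2 hu hv
    linarith

open Classical in
/-- the flux of an unsaturated edge -/
noncomputable def flE (m₁ m₂ t u v : ℝ) : ℝ :=
  if satE m₁ m₂ u v then 0 else wgt m₁ m₂ * flx t u v

lemma flE_comm (m₁ m₂ t u v : ℝ) : flE m₁ m₂ t u v = flE m₂ m₁ t v u := by
  unfold flE
  by_cases h : satE m₁ m₂ u v
  · rw [if_pos h, if_pos ((satE_comm _ _ _ _).1 h)]
  · rw [if_neg h, if_neg (fun h' => h ((satE_comm _ _ _ _).2 h')), wgt_comm, flx_comm]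

lemma flE_nonneg {m₁ m₂ : ℝ} (h1 : 0 < m₁) (h2 : 0 < m₂) (t u v : ℝ) :
    0 ≤ flE m₁ m₂ t u v := by
  unfold flE
  split_ifs
  · exact le_rfl
  · exact mul_nonneg (wgt_pos h1 h2).le (flx_nonneg _ _ _)

lemma sum_flE_le {m₁ m₂ u v : ℝ} (h1 : 0 < m₁) (h2 : 0 < m₂) (hu : 0 < u) (hv : 0 < v) (N : ℕ) :
    ∑ j ∈ range N, flE m₁ m₂ (lev j) u v ≤ 20 * ent2 m₁ m₂ (u ^ 2) (v ^ 2) := by
  wlog h : v ≤ u generalizing m₁ m₂ u v
  · simp only [flE_comm m₁ m₂]
    rw [ent2_comm]
    exact this h2 h1 hv hu (le_of_not_ge h)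
  have hk := ent2_nonneg h1 h2 hu hv
  by_cases hs : satE m₁ m₂ u v
  · unfold flE
    simp only [if_pos hs, sum_const_zero]
    linarith
  · unfold flE
    simp only [if_neg hs]
    rw [← mul_sum]
    have h3 := mul_le_mul_of_nonneg_left (sum_flx_le hu hv N) (wgt_pos h1 h2).le
    have h4 := unsat_cst h1 h2 hu hv h (fun h' => hs (Or.inl h'))
    linarith

lemma level_cost {m₁ m₂ u v t a : ℝ} (h1 : 0 < m₁) (h2 : 0 < m₂) (hu : 0 < u) (hv : 0 < v)
    (ht : 1 ≤ t) (ha : 0 < a) (ha1 : a ≤ 1) :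
    ent2 m₁ m₂ (psi t u ^ 2 + a) (psi t v ^ 2 + a)
      ≤ 70 * ent2 m₁ m₂ (u ^ 2) (v ^ 2) + 4 * flE m₁ m₂ t u v * (- log a + 2 * log (2 * t)) := by
  wlog h : v ≤ u generalizing m₁ m₂ u v
  · rw [ent2_comm, flE_comm, ent2_comm m₁ m₂ (u ^ 2)]
    exact this h2 h1 hv hu (le_of_not_ge h)
  have hk := ent2_nonneg h1 h2 hu hv
  have hP0 := psi_nonneg t u
  have hQ0 := psi_nonneg t v
  have hQP : psi t v ≤ psi t u := psi_mono h
  by_cases hs : satE m₁ m₂ u v
  · have hfl : flE m₁ m₂ t u v = 0 := by unfold flE; rw [if_pos hs]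
    rw [hfl]
    rcases le_or_gt u t with hut | hut
    · rw [psi_of_le hut, psi_of_le (h.trans hut)]
      have : ent2 m₁ m₂ (0 ^ 2 + a) (0 ^ 2 + a) = 0 := by
        unfold ent2
        have : (m₁ * (0 ^ 2 + a) + m₂ * (0 ^ 2 + a)) / (m₁ + m₂) = 0 ^ 2 + a := by
          field_simp
        rw [this]
        ring
      rw [this]
      linarith
    · have hs1 : sat1 m₁ m₂ u v := by
        rcases hs with h' | h'
        · exact h'
        · exfalso
          have h3 := h'.1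
          have h4 := h'.2.1
          have h5 : u = v := le_antisymm h3 h
          rw [h5] at h4
          nlinarith [sq_pos_of_pos hv]
      have h3 := sat_cost h1 h2 hu hv hs1 (A := psi t u ^ 2 + a) (B := psi t v ^ 2 + a)
        (by positivity) (by
          have := pow_le_pow_left₀ hQ0 hQP 2
          linarith)
        (by
          rw [psi_of_ge hut.le]
          nlinarith)
      linarith
  · have hfl : flE m₁ m₂ t u v = wgt m₁ m₂ * flx t u v := by unfold flE; rw [if_neg hs]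
    rw [hfl]
    have h3 := ent2_le_cov h1 h2 (show 0 < psi t u ^ 2 + a by positivity)
      (show 0 < psi t v ^ 2 + a by positivity)
    rw [show psi t u ^ 2 + a - (psi t v ^ 2 + a) = psi t u ^ 2 - psi t v ^ 2 by ring] at h3
    have h4 := mul_le_mul_of_nonneg_left (cost_le hu hv ht ha ha1) (wgt_pos h1 h2).le
    have h5 := unsat_cst h1 h2 hu hv h (fun h' => hs (Or.inl h'))
    have h6 : wgt m₁ m₂ * (7 * cst u v + 4 * flx t u v * (- log a + 2 * log (2 * t)))
        = 7 * (wgt m₁ m₂ * cst u v)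
          + 4 * (wgt m₁ m₂ * flx t u v) * (- log a + 2 * log (2 * t)) := by ring
    linarith

variable {Ω ι : Type*} [Fintype Ω] [Fintype ι]

/-- **Tightening of the approximate tensorization.** A Poincare inequality and a defective
approximate tensorization of entropy imply approximate tensorization of entropy (form for squares
of mean one). -/
theorem tightenAT_sq (μ : Ω → ℝ) (s d : ι → Ω) (m₁ m₂ : ι → ℝ) (hμ : ∀ x, 0 ≤ μ x)
    (hμ1 : ∑ x, μ x = 1) (hm1 : ∀ e, 0 < m₁ e) (hm2 : ∀ e, 0 < m₂ e)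
    {γ K : ℝ} (hγ : 0 < γ) (hK : 0 < K)
    (hP : ∀ g : Ω → ℝ, γ * (∑ x, μ x * g x ^ 2 - (∑ x, μ x * g x) ^ 2)
      ≤ ∑ e, wgt (m₁ e) (m₂ e) * (g (s e) - g (d e)) ^ 2)
    (hD : ∀ F : Ω → ℝ, (∀ x, 0 < F x) →
      ∑ x, μ x * (F x * log (F x)) - (∑ x, μ x * F x) * log (∑ x, μ x * F x)
        ≤ K * (∑ e, ent2 (m₁ e) (m₂ e) (F (s e)) (F (d e)) + ∑ x, μ x * F x))
    (g : Ω → ℝ) (hg : ∀ x, 0 < g x) (hg1 : ∑ x, μ x * g x ^ 2 = 1) :
    ∑ x, μ x * (g x ^ 2 * log (g x ^ 2))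
      ≤ (1520 * K + (128 * K + 306) / γ)
        * ∑ e, ent2 (m₁ e) (m₂ e) (g (s e) ^ 2) (g (d e) ^ 2) := by
  set D : ℝ := ∑ e, ent2 (m₁ e) (m₂ e) (g (s e) ^ 2) (g (d e) ^ 2) with hDdef
  have hD0 : 0 ≤ D := sum_nonneg fun e _ => ent2_nonneg (hm1 e) (hm2 e) (hg _) (hg _)
  -- Poincare for `g`
  have hV : ∑ x, μ x * (g x - 1) ^ 2 ≤ 2 * (D / γ) := by
    have h1 := hP g
    rw [hg1] at h1
    set m := ∑ x, μ x * g x with hm
    have hm0 : 0 ≤ m := sum_nonneg fun x _ => mul_nonneg (hμ x) (hg x).le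
    have h2 : ∑ e, wgt (m₁ e) (m₂ e) * (g (s e) - g (d e)) ^ 2 ≤ D := by
      rw [hDdef]
      exact sum_le_sum fun e _ => ent2_ge_sq (hm1 e) (hm2 e) (hg _) (hg _)
    have h3 : ∑ x, μ x * (g x - 1) ^ 2 = 2 - 2 * m := by
      have : ∀ x, μ x * (g x - 1) ^ 2 = μ x * g x ^ 2 - 2 * (μ x * g x) + μ x := fun x => by ring
      simp only [this, sum_add_distrib, sum_sub_distrib, ← mul_sum]
      rw [hg1, hμ1, ← hm]
      ring
    have h4 : m ^ 2 ≤ 1 := by
      have h5 : 0 ≤ 2 - 2 * m := by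
        rw [← h3]; exact sum_nonneg fun x _ => mul_nonneg (hμ x) (sq_nonneg _)
      nlinarith
    have h5 : m ≤ 1 := by nlinarith
    have h6 : 1 - m ≤ 1 - m ^ 2 := by nlinarith
    rw [h3, ← mul_div_assoc, le_div_iff₀ hγ]
    have h7 := mul_le_mul_of_nonneg_left h6 hγ.le
    linarith
  -- the masses above the levels
  set a : ℕ → ℝ := fun j => ∑ x, μ x * psi (lev j) (g x) ^ 2 with ha
  set S : ℕ → ℝ := fun j => ∑ e, flE (m₁ e) (m₂ e) (lev j) (g (s e)) (g (d e)) with hS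
  have ha0 : ∀ j, 0 ≤ a j := fun j => sum_nonneg fun x _ => mul_nonneg (hμ x) (sq_nonneg _)
  have hS0 : ∀ j, 0 ≤ S j := fun j => sum_nonneg fun e _ => flE_nonneg (hm1 e) (hm2 e) _ _ _
  have hSsum : ∀ N, ∑ j ∈ range N, S j ≤ 20 * D := by
    intro N
    rw [hS, sum_comm, hDdef, mul_sum]
    exact sum_le_sum fun e _ => sum_flE_le (hm1 e) (hm2 e) (hg _) (hg _) N
  have hex : ∃ j, S j ≤ 1 / (8 * K) * a j := by
    have hlim : Filter.Tendsto lev Filter.atTop Filter.atTop := by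
      have h1 := tendsto_pow_atTop_atTop_of_one_lt (show (1:ℝ) < 2 by norm_num)
      exact h1.comp (Filter.tendsto_add_atTop_nat 1)
    have hbig : ∀ᶠ j in Filter.atTop, ∀ x, g x ≤ lev j := by
      rw [Filter.eventually_all]
      exact fun x => hlim.eventually_ge_atTop (g x)
    obtain ⟨j, hj⟩ := hbig.exists
    refine ⟨j, ?_⟩
    have h1 : S j = 0 := by
      rw [hS]
      apply sum_eq_zero
      intro e _
      have h2 : flx (lev j) (g (s e)) (g (d e)) = 0 := by
        unfold flx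
        rw [if_neg]
        intro hc
        exact absurd hc.2 (not_lt.2 (max_le (hj _) (hj _)))
      unfold flE
      rw [h2, mul_zero, ite_self]
    rw [h1]
    exact mul_nonneg (by positivity) (ha0 j)
  classical
  set k := Nat.find hex with hk
  have hk1 : S k ≤ 1 / (8 * K) * a k := Nat.find_spec hex
  have hk2 : ∀ j < k, 1 / (8 * K) * a j < S j := fun j hj => not_le.1 (Nat.find_min hex hj)
  have hsum : ∑ j ∈ range k, a j ≤ 160 * K * D := by
    have h1 : ∑ j ∈ range k, 1 / (8 * K) * a j ≤ 20 * D :=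
      (sum_le_sum fun j hj => (hk2 j (mem_range.1 hj)).le).trans (hSsum k)
    rw [← mul_sum, one_div, inv_mul_le_iff₀ (by positivity)] at h1
    linarith
  -- the good level
  have hgood : ∑ x, μ x * (psi (lev k) (g x) ^ 2 * log (g x ^ 2))
      ≤ 140 * K * D + (4 * K + 8) * (8 * (D / γ)) := by
    set t := lev k with ht
    have ht2 : 2 ≤ t := two_le_lev k
    set A := a k with hA
    set N := ∑ x, μ x * (if t < g x then g x ^ 2 else 0) with hN
    set X := ∑ x, μ x * (psi t (g x) ^ 2 * log (g x ^ 2)) with hX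
    have hN4 : N ≤ 8 * (D / γ) := by
      refine le_trans ?_ (le_trans (mul_le_mul_of_nonneg_left hV (show (0:ℝ) ≤ 4 by norm_num))
        (le_of_eq (by ring)))
      rw [hN, mul_sum]
      apply sum_le_sum
      intro x _
      have h1 : (if t < g x then g x ^ 2 else 0) ≤ 4 * (g x - 1) ^ 2 := by
        split_ifs with h
        · nlinarith [hg x]
        · positivity
      have := mul_le_mul_of_nonneg_left h1 (hμ x)
      linarith
    have hpN : ∀ x, psi t (g x) ^ 2 ≤ (if t < g x then g x ^ 2 else 0) := by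
      intro x
      split_ifs with h
      · exact pow_le_pow_left₀ (psi_nonneg _ _) (by rw [psi_of_ge h.le]; linarith) 2
      · rw [psi_of_le (not_lt.1 h)]; norm_num
    have hAN : A ≤ N := by
      rw [hA, hN]
      exact sum_le_sum fun x _ => mul_le_mul_of_nonneg_left (hpN x) (hμ x)
    have hA1 : A ≤ 1 := by
      rw [← hg1]
      refine hAN.trans (sum_le_sum fun x _ => mul_le_mul_of_nonneg_left ?_ (hμ x))
      split_ifs
      · exact le_rfl
      · positivity
    have hDγ : 0 ≤ D / γ := div_nonneg hD0 hγ.le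
    rcases (ha0 k).eq_or_lt with h0 | hApos
    · -- nothing above the level
      have h1 : X = 0 := by
        have h2 := (sum_eq_zero_iff_of_nonneg
          (fun x _ => mul_nonneg (hμ x) (sq_nonneg (psi (lev k) (g x))))).1 h0.symm
        rw [hX]
        apply sum_eq_zero
        intro x hx
        rw [← mul_assoc, h2 x hx, zero_mul]
      rw [h1]
      positivity
    have hF := hD (fun x => psi t (g x) ^ 2 + A) (fun x => by positivity)
    have hsF : ∑ x, μ x * (psi t (g x) ^ 2 + A) = 2 * A := by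
      simp only [mul_add, sum_add_distrib, ← sum_mul]
      rw [hμ1]
      have : ∑ x, μ x * psi t (g x) ^ 2 = A := rfl
      rw [this]; ring
    rw [hsF] at hF
    have hcost : ∑ e, ent2 (m₁ e) (m₂ e) (psi t (g (s e)) ^ 2 + A) (psi t (g (d e)) ^ 2 + A)
        ≤ 70 * D + 4 * S k * (- log A + 2 * log (2 * t)) := by
      have h1 : 70 * D + 4 * S k * (- log A + 2 * log (2 * t))
          = ∑ e, (70 * ent2 (m₁ e) (m₂ e) (g (s e) ^ 2) (g (d e) ^ 2)
            + 4 * flE (m₁ e) (m₂ e) t (g (s e)) (g (d e)) * (- log A + 2 * log (2 * t))) := by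
        rw [hDdef, hS, mul_sum, mul_sum, sum_mul, ← sum_add_distrib]
      rw [h1]
      exact sum_le_sum fun e _ => level_cost (hm1 e) (hm2 e) (hg _) (hg _) (by linarith) hApos hA1
    have hlow : X - N + A * log A
        ≤ ∑ x, μ x * ((psi t (g x) ^ 2 + A) * log (psi t (g x) ^ 2 + A)) := by
      have h1 : X - N + A * log A = ∑ x, μ x * (psi t (g x) ^ 2 * log (g x ^ 2)
          - (if t < g x then g x ^ 2 else 0) + A * log A) := by
        simp only [mul_add, mul_sub, sum_add_distrib, sum_sub_distrib, ← sum_mul]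
        rw [hμ1, one_mul]
      rw [h1]
      exact sum_le_sum fun x _ => mul_le_mul_of_nonneg_left (low_pt (hg x) hApos) (hμ x)
    have hXt : A * (2 * log t) ≤ X := by
      have h1 : A * (2 * log t) = ∑ x, μ x * (psi t (g x) ^ 2 * (2 * log t)) := by
        rw [hA, ha]
        simp only [sum_mul, mul_assoc]
        rfl
      rw [h1]
      apply sum_le_sum
      intro x _
      refine mul_le_mul_of_nonneg_left ?_ (hμ x)
      rcases le_or_gt (g x) t with h | h
      · rw [psi_of_le h]; simp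
      · refine mul_le_mul_of_nonneg_left ?_ (sq_nonneg _)
        rw [log_pow]
        push_cast
        have := log_le_log (by linarith) h.le
        linarith
    have hlog2A : log (2 * A) = log 2 + log A := log_mul (by norm_num) hApos.ne'
    have hlog2t : log (2 * t) = log 2 + log t := log_mul (by norm_num) (by positivity)
    have hlA : log A ≤ 0 := log_nonpos hApos.le hA1
    have hlt : 0 ≤ log t := log_nonneg (by linarith)
    have hl20 : 0 < log 2 := log_pos (by norm_num)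
    have hl2 : log 2 < 0.7 := by have := log_two_lt_d9; linarith
    have h4 : K * (4 * S k * (- log A + 2 * log (2 * t)))
        ≤ A / 2 * (- log A + 2 * log (2 * t)) := by
      have h5 : K * (4 * S k) ≤ A / 2 := by
        have := mul_le_mul_of_nonneg_left hk1 (show 0 ≤ 4 * K by positivity)
        have h6 : 4 * K * (1 / (8 * K) * a k) = A / 2 := by
          rw [hA]; field_simp; ring
        linarith
      have h6 : 0 ≤ - log A + 2 * log (2 * t) := by rw [hlog2t]; linarith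
      have := mul_le_mul_of_nonneg_right h5 h6
      linarith
    have h5 := mul_le_mul_of_nonneg_left hcost hK.le
    have h6 : A * log A ≤ 0 := mul_nonpos_of_nonneg_of_nonpos hApos.le hlA
    have h7 : A * log 2 ≤ A * 0.7 := mul_le_mul_of_nonneg_left hl2.le hApos.le
    have h8 : K * A ≤ K * (8 * (D / γ)) := mul_le_mul_of_nonneg_left (hAN.trans hN4) hK.le
    have hA4 := hAN.trans hN4
    rw [hlog2A] at hF
    rw [hlog2t] at h4 h5
    linarith
  -- conclusion
  have hfin : ∑ x, μ x * (g x ^ 2 * log (g x ^ 2))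
      = ∑ x, μ x * (g x ^ 2 * log (g x ^ 2) - g x ^ 2 + 1) := by
    simp only [mul_add, mul_sub, sum_add_distrib, sum_sub_distrib, mul_one]
    rw [hg1, hμ1]; ring
  have hpt : ∑ x, μ x * (g x ^ 2 * log (g x ^ 2) - g x ^ 2 + 1)
      ≤ 25 * ∑ x, μ x * (g x - 1) ^ 2 + 6 * ∑ j ∈ range k, a j
        + 4 * ∑ x, μ x * (psi (lev k) (g x) ^ 2 * log (g x ^ 2)) := by
    have h1 : 25 * ∑ x, μ x * (g x - 1) ^ 2 + 6 * ∑ j ∈ range k, a j
        + 4 * ∑ x, μ x * (psi (lev k) (g x) ^ 2 * log (g x ^ 2))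
        = ∑ x, μ x * (25 * (g x - 1) ^ 2 + 6 * ∑ j ∈ range k, psi (lev j) (g x) ^ 2
          + 4 * (psi (lev k) (g x) ^ 2 * log (g x ^ 2))) := by
      have h2 : ∑ j ∈ range k, a j = ∑ x, μ x * ∑ j ∈ range k, psi (lev j) (g x) ^ 2 := by
        rw [ha, sum_comm]
        exact sum_congr rfl fun x _ => by rw [mul_sum]
      rw [h2, mul_sum, mul_sum, mul_sum, ← sum_add_distrib, ← sum_add_distrib]
      exact sum_congr rfl fun x _ => by ring
    rw [h1]
    exact sum_le_sum fun x _ => mul_le_mul_of_nonneg_left (ent_pt (hg x) k) (hμ x)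
  rw [hfin]
  refine hpt.trans ?_
  have h1 : (1520 * K + (128 * K + 306) / γ) * D
      = 25 * (2 * (D / γ)) + 6 * (160 * K * D)
        + 4 * (140 * K * D + (4 * K + 8) * (8 * (D / γ))) := by
    field_simp; ring
  rw [h1]
  linarith

/-- **Tightening of the approximate tensorization**, positive functions of mean one. -/
theorem tightenAT (μ : Ω → ℝ) (s d : ι → Ω) (m₁ m₂ : ι → ℝ) (hμ : ∀ x, 0 ≤ μ x)
    (hμ1 : ∑ x, μ x = 1) (hm1 : ∀ e, 0 < m₁ e) (hm2 : ∀ e, 0 < m₂ e)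
    {γ K : ℝ} (hγ : 0 < γ) (hK : 0 < K)
    (hP : ∀ g : Ω → ℝ, γ * (∑ x, μ x * g x ^ 2 - (∑ x, μ x * g x) ^ 2)
      ≤ ∑ e, wgt (m₁ e) (m₂ e) * (g (s e) - g (d e)) ^ 2)
    (hD : ∀ F : Ω → ℝ, (∀ x, 0 < F x) →
      ∑ x, μ x * (F x * log (F x)) - (∑ x, μ x * F x) * log (∑ x, μ x * F x)
        ≤ K * (∑ e, ent2 (m₁ e) (m₂ e) (F (s e)) (F (d e)) + ∑ x, μ x * F x))
    (f : Ω → ℝ) (hf : ∀ x, 0 < f x) (hf1 : ∑ x, μ x * f x = 1) :
    ∑ x, μ x * (f x * log (f x)) ≤ (1520 * K + (128 * K + 306) / γ) *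
      ∑ e, ent2 (m₁ e) (m₂ e) (f (s e)) (f (d e)) := by
  have e : ∀ x, √(f x) ^ 2 = f x := fun x => Real.sq_sqrt (hf x).le
  have h := tightenAT_sq μ s d m₁ m₂ hμ hμ1 hm1 hm2 hγ hK hP hD (fun x => √(f x))
    (fun x => Real.sqrt_pos.2 (hf x)) (by simp only [e]; exact hf1)
  simp only [e] at h
  exact h

end Vale.Agent.P150.H185
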