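import Mathlib
import Vale.Agent.P150.Bdl.B39
import Vale.Agent.P150.H185.TightenAT
import Vale.Agent.P150.H185.Dat

/-! Approximate tensorization of entropy and the logarithmic Sobolev inequality for the zero-field
SK model, every `β < 1`. -/

open MeasureTheory ProbabilityTheory Filter Topology

namespace Vale.Agent.P150.H185

open Vale.Agent.P150.Semi

variable {n : ℕ} {J : Fin n → Fin n → ℝ} (b : Fin n → ℝ)

lemma ent2_div {m₁ m₂ A B m : ℝ} (h1 : 0 < m₁) (h2 : 0 < m₂) (hA : 0 < A) (hB : 0 < B)
    (hm : 0 < m) : ent2 m₁ m₂ (A / m) (B / m) = ent2 m₁ m₂ A B / m := by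
  unfold ent2
  have e1 : (m₁ * (A / m) + m₂ * (B / m)) / (m₁ + m₂) = (m₁ * A + m₂ * B) / (m₁ + m₂) / m := by
    field_simp
  rw [e1, Real.log_div hA.ne' hm.ne', Real.log_div hB.ne' hm.ne',
    Real.log_div (x := (m₁ * A + m₂ * B) / (m₁ + m₂)) (by positivity) hm.ne']
  field_simp
  ring

/-- the sum of the edge entropies in one direction -/
lemma ent_site (hJ : ∀ i j, J i j = J j i) (i : Fin n) (f : Cfg n → ℝ) :
    ∑ x, ent2 (gibbs J b (flip x i) / 2) (gibbs J b x / 2) (f (flip x i)) (f x)
      = ex J b (fun x => f x * Real.log (f x))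
        - ex J b (fun x => resample J b i f x * Real.log (resample J b i f x)) := by
  set G : Cfg n → ℝ := fun y => gibbs J b y * (f y * Real.log (f y)
    - resample J b i f y * Real.log (resample J b i f y)) with hG
  have key : ∀ x, ent2 (gibbs J b (flip x i) / 2) (gibbs J b x / 2) (f (flip x i)) (f x)
      = (1 / 2) * (G (flip x i) + G x) := by
    intro x
    have h1 := gibbs_pos J b x
    have h2 := gibbs_pos J b (flip x i)
    have h3 := resample_mul b hJ i f x
    have h4 := resample_flip b hJ i f x
    have e1 : (gibbs J b (flip x i) / 2 * f (flip x i) + gibbs J b x / 2 * f x)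
        / (gibbs J b (flip x i) / 2 + gibbs J b x / 2) = resample J b i f x := by
      rw [div_eq_iff (by positivity)]
      linarith
    have e2 : gibbs J b (flip x i) / 2 * f (flip x i) + gibbs J b x / 2 * f x
        = (gibbs J b x + gibbs J b (flip x i)) * resample J b i f x / 2 := by
      rw [h3]; ring
    unfold ent2
    rw [e1, e2, hG]
    simp only [h4]
    ring
  simp only [key]
  rw [← Finset.mul_sum, Finset.sum_add_distrib, sum_flip i G]
  have e3 : ∑ x, G x = ex J b (fun x => f x * Real.log (f x))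
        - ex J b (fun x => resample J b i f x * Real.log (resample J b i f x)) := by
    rw [hG]
    unfold ex
    rw [← Finset.sum_sub_distrib]
    exact Finset.sum_congr rfl fun x _ => by ring
  rw [e3]
  ring

/-- tightening of the approximate tensorization for the heat-bath dynamics -/
theorem at_of_def (hJ : ∀ i j, J i j = J j i)
    {γ K : ℝ} (hγ : 0 < γ) (hK : 0 < K) (hgap : γ ≤ gap J b)
    (hdef : ∀ f : Cfg n → ℝ, (∀ x, 0 < f x) → ex J b f = 1 →
      ex J b (fun x => f x * Real.log (f x)) ≤ K *
        (∑ i, (ex J b (fun x => f x * Real.log (f x))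
          - ex J b (fun x => resample J b i f x * Real.log (resample J b i f x))) + 1))
    (f : Cfg n → ℝ) (hf : ∀ x, 0 < f x) :
    ex J b (fun x => f x * Real.log (f x)) - ex J b f * Real.log (ex J b f)
      ≤ (1520 * K + (128 * K + 306) / γ) *
        ∑ i, (ex J b (fun x => f x * Real.log (f x))
          - ex J b (fun x => resample J b i f x * Real.log (resample J b i f x))) := by
  have hex0 : ∀ F : Cfg n → ℝ, (∀ x, 0 < F x) → 0 < ex J b F := by
    intro F hF
    unfold ex
    exact Finset.sum_pos (fun x _ => mul_pos (gibbs_pos J b x) (hF x)) Finset.univ_nonempty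
  have hsum : ∀ F : Cfg n → ℝ, ∑ e : Fin n × Cfg n,
      ent2 (gibbs J b (flip e.2 e.1) / 2) (gibbs J b e.2 / 2) (F (flip e.2 e.1)) (F e.2)
      = ∑ i, (ex J b (fun x => F x * Real.log (F x))
          - ex J b (fun x => resample J b i F x * Real.log (resample J b i F x))) := by
    intro F
    rw [Fintype.sum_prod_type]
    exact Finset.sum_congr rfl fun i _ => ent_site b hJ i F
  -- scaling
  have hscale : ∀ F : Cfg n → ℝ, (∀ x, 0 < F x) → ∀ m : ℝ, m = ex J b F →
      ex J b (fun x => F x / m * Real.log (F x / m))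
          = (ex J b (fun x => F x * Real.log (F x)) - m * Real.log m) / m ∧
      (∑ e : Fin n × Cfg n, ent2 (gibbs J b (flip e.2 e.1) / 2) (gibbs J b e.2 / 2)
          (F (flip e.2 e.1) / m) (F e.2 / m))
        = (∑ e : Fin n × Cfg n, ent2 (gibbs J b (flip e.2 e.1) / 2) (gibbs J b e.2 / 2)
          (F (flip e.2 e.1)) (F e.2)) / m ∧
      ex J b (fun x => F x / m) = 1 := by
    intro F hF m hm
    have hm0 : 0 < m := hm ▸ hex0 F hF
    have hlog : ∀ x, Real.log (F x / m) = Real.log (F x) - Real.log m := fun x =>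
      Real.log_div (hF x).ne' hm0.ne'
    refine ⟨?_, ?_, ?_⟩
    · rw [hm]
      rw [hm] at hlog hm0
      unfold ex at *
      simp only [hlog]
      rw [eq_div_iff hm0.ne', Finset.sum_mul, Finset.sum_mul, ← Finset.sum_sub_distrib]
      apply Finset.sum_congr rfl
      intro x _
      field_simp
      try ring
    · rw [Finset.sum_div]
      apply Finset.sum_congr rfl
      intro e _
      have h1 := gibbs_pos J b e.2
      have h2 := gibbs_pos J b (flip e.2 e.1)
      exact ent2_div (by positivity) (by positivity) (hF _) (hF _) hm0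
    · have h1 : ex J b (fun x => F x / m) = ex J b F / m := by
        unfold ex
        rw [Finset.sum_div]
        exact Finset.sum_congr rfl fun x _ => by ring
      rw [h1, ← hm, div_self hm0.ne']
  have hwgt : ∀ (i : Fin n) (x : Cfg n), wgt (gibbs J b (flip x i) / 2) (gibbs J b x / 2)
      = (1 / 2) * (gibbs J b x * gibbs J b (flip x i) / (gibbs J b x + gibbs J b (flip x i))) := by
    intro i x
    have h1 := gibbs_pos J b x
    have h2 := gibbs_pos J b (flip x i)
    unfold wgt
    field_simp
    ring
  obtain ⟨e1, e2, e3⟩ := hscale f hf (ex J b f) rfl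
  set m := ex J b f with hm
  have hm0 : 0 < m := hex0 f hf
  have key := tightenAT (Ω := Cfg n) (ι := Fin n × Cfg n) (gibbs J b)
    (fun e => flip e.2 e.1) (fun e => e.2)
    (fun e => gibbs J b (flip e.2 e.1) / 2) (fun e => gibbs J b e.2 / 2)
    (fun x => (gibbs_pos J b x).le) (gibbs_sum J b)
    (fun e => half_pos (gibbs_pos J b _)) (fun e => half_pos (gibbs_pos J b _)) hγ hK
    (by
      intro g
      have h1 := gap_mul_var_le b hJ g
      have h2 := Semi.var_nonneg (J := J) b g
      have h3 := (mul_le_mul_of_nonneg_right hgap h2).trans h1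
      rw [Semi.var_eq, dir_eq hJ] at h3
      refine h3.trans (le_of_eq ?_)
      rw [Fintype.sum_prod_type, Finset.mul_sum]
      apply Finset.sum_congr rfl
      intro i _
      rw [Finset.mul_sum]
      apply Finset.sum_congr rfl
      intro x _
      rw [hwgt]
      ring)
    (by
      intro F hF
      have hmF : 0 < ex J b F := hex0 F hF
      obtain ⟨f1, f2, f3⟩ := hscale F hF (ex J b F) rfl
      have h1 := hdef (fun x => F x / ex J b F) (fun x => div_pos (hF x) hmF) f3
      rw [← hsum (fun x => F x / ex J b F), f1] at h1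
      rw [f2] at h1
      rw [div_le_iff₀ hmF] at h1
      refine h1.trans (le_of_eq ?_)
      have e5 : (∑ x, gibbs J b x * F x) = ex J b F := rfl
      rw [e5]
      field_simp)
    (fun x => f x / m) (fun x => div_pos (hf x) hm0) e3
  rw [e2, hsum f] at key
  have h3 : ∑ x, gibbs J b x * (f x / m * Real.log (f x / m))
      = (ex J b (fun x => f x * Real.log (f x)) - m * Real.log m) / m := e1
  rw [h3, ← mul_div_assoc, div_le_div_iff_of_pos_right hm0] at key
  exact key

/-- extension to nonnegative functions -/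
theorem at_nonneg {C : ℝ}
    (hA : ∀ f : Cfg n → ℝ, (∀ x, 0 < f x) →
      ex J b (fun x => f x * Real.log (f x)) - ex J b f * Real.log (ex J b f)
      ≤ C * ∑ i, (ex J b (fun x => f x * Real.log (f x))
          - ex J b (fun x => resample J b i f x * Real.log (resample J b i f x))))
    (f : Cfg n → ℝ) (hf : ∀ x, 0 ≤ f x) :
    ex J b (fun x => f x * Real.log (f x)) - ex J b f * Real.log (ex J b f)
      ≤ C * ∑ i, (ex J b (fun x => f x * Real.log (f x))
          - ex J b (fun x => resample J b i f x * Real.log (resample J b i f x))) := by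
  have hlog : ∀ {g : ℝ → ℝ}, Continuous g → Continuous fun e => g e * Real.log (g e) :=
    fun hg => Real.continuous_mul_log.comp hg
  have hex : ∀ {g : ℝ → Cfg n → ℝ}, (∀ x, Continuous fun e => g e x) →
      Continuous fun e => ex J b (g e) := by
    intro g hg
    unfold ex
    exact continuous_finsetSum _ fun x _ => continuous_const.mul (hg x)
  have hres : ∀ i x, Continuous fun e : ℝ => resample J b i (fun z => f z + e) x := by
    intro i x
    unfold resample
    exact continuous_finsetSum _ fun s _ => continuous_const.mul (continuous_const.add continuous_id)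
  have hL : Continuous fun e : ℝ => ex J b (fun x => (f x + e) * Real.log (f x + e))
      - ex J b (fun x => f x + e) * Real.log (ex J b (fun x => f x + e)) := by
    refine Continuous.sub (hex fun x => hlog (continuous_const.add continuous_id)) ?_
    exact hlog (hex fun x => continuous_const.add continuous_id)
  have hR : Continuous fun e : ℝ => C * ∑ i, (ex J b (fun x => (f x + e) * Real.log (f x + e))
      - ex J b (fun x => resample J b i (fun z => f z + e) x
        * Real.log (resample J b i (fun z => f z + e) x))) := by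
    refine continuous_const.mul (continuous_finsetSum _ fun i _ => Continuous.sub ?_ ?_)
    · exact hex fun x => hlog (continuous_const.add continuous_id)
    · exact hex fun x => hlog (hres i x)
  have h1 : Tendsto (fun e : ℝ => ex J b (fun x => (f x + e) * Real.log (f x + e))
      - ex J b (fun x => f x + e) * Real.log (ex J b (fun x => f x + e))) (𝓝[>] 0)
      (𝓝 (ex J b (fun x => (f x + 0) * Real.log (f x + 0))
      - ex J b (fun x => f x + 0) * Real.log (ex J b (fun x => f x + 0)))) :=
    (hL.tendsto 0).mono_left nhdsWithin_le_nhds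
  have h2 : Tendsto (fun e : ℝ => C * ∑ i, (ex J b (fun x => (f x + e) * Real.log (f x + e))
      - ex J b (fun x => resample J b i (fun z => f z + e) x
        * Real.log (resample J b i (fun z => f z + e) x)))) (𝓝[>] 0)
      (𝓝 (C * ∑ i, (ex J b (fun x => (f x + 0) * Real.log (f x + 0))
      - ex J b (fun x => resample J b i (fun z => f z + 0) x
        * Real.log (resample J b i (fun z => f z + 0) x))))) :=
    (hR.tendsto 0).mono_left nhdsWithin_le_nhds
  have h3 := le_of_tendsto_of_tendsto h1 h2 (by
    filter_upwards [self_mem_nhdsWithin] with e he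
    have he0 : (0:ℝ) < e := he
    exact hA (fun x => f x + e) (fun x => by have := hf x; linarith))
  simpa only [add_zero] using h3

/-- two-point logarithmic Sobolev inequality -/
lemma ent2_le_lsi {m₁ m₂ u v : ℝ} (h1 : 0 < m₁) (h2 : 0 < m₂) (hu : 0 < u) (hv : 0 < v) :
    ent2 m₁ m₂ (u ^ 2) (v ^ 2) ≤ (m₁ + m₂) * (u - v) ^ 2 := by
  set M := m₁ + m₂ with hM
  have hM0 : 0 < M := by positivity
  set S := m₁ * u ^ 2 + m₂ * v ^ 2 with hS
  have hS0 : 0 < S := by positivity
  set r := S / M with hr
  have hr0 : 0 < r := by positivity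
  have hSr : S = M * r := by rw [hr]; field_simp
  have key : ∀ z : ℝ, 0 < z → z * Real.log z - z * Real.log r ≤ z * (z / r - 1) := by
    intro z hz
    have h3 := Real.log_le_sub_one_of_pos (div_pos hz hr0)
    rw [Real.log_div hz.ne' hr0.ne'] at h3
    have h4 := mul_le_mul_of_nonneg_left h3 hz.le
    linarith
  have e1 : ent2 m₁ m₂ (u ^ 2) (v ^ 2)
      = m₁ * (u ^ 2 * Real.log (u ^ 2) - u ^ 2 * Real.log r)
        + m₂ * (v ^ 2 * Real.log (v ^ 2) - v ^ 2 * Real.log r) := by
    unfold ent2
    rw [← hS, ← hM, ← hr, hS]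
    ring
  rw [e1]
  have h3 := mul_le_mul_of_nonneg_left (key (u ^ 2) (by positivity)) h1.le
  have h4 := mul_le_mul_of_nonneg_left (key (v ^ 2) (by positivity)) h2.le
  have h5 : m₁ * (u ^ 2 * (u ^ 2 / r - 1)) + m₂ * (v ^ 2 * (v ^ 2 / r - 1))
      = (m₁ * m₂ * (u + v) ^ 2) * (u - v) ^ 2 / S := by
    rw [hr]
    field_simp
    rw [hS, hM]
    ring
  have h6 : m₁ * m₂ * (u + v) ^ 2 ≤ M * S := by
    have h7 : M * S - m₁ * m₂ * (u + v) ^ 2 = (m₁ * u - m₂ * v) ^ 2 := by
      rw [hS, hM]
      ring
    linarith [sq_nonneg (m₁ * u - m₂ * v)]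
  have h7 : (m₁ * m₂ * (u + v) ^ 2) * (u - v) ^ 2 / S ≤ M * (u - v) ^ 2 := by
    rw [div_le_iff₀ hS0]
    have := mul_le_mul_of_nonneg_right h6 (sq_nonneg (u - v))
    linarith
  linarith

/-- the logarithmic Sobolev inequality from the approximate tensorization -/
theorem lsi_of_at (hJ : ∀ i j, J i j = J j i) {C : ℝ} (hC : 0 ≤ C)
    (hA : ∀ f : Cfg n → ℝ, (∀ x, 0 < f x) →
      ex J b (fun x => f x * Real.log (f x)) - ex J b f * Real.log (ex J b f)
      ≤ C * ∑ i, (ex J b (fun x => f x * Real.log (f x))
          - ex J b (fun x => resample J b i f x * Real.log (resample J b i f x))))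
    (f : Cfg n → ℝ) :
    ex J b (fun x => f x ^ 2 * Real.log (f x ^ 2))
      - ex J b (fun x => f x ^ 2) * Real.log (ex J b (fun x => f x ^ 2))
      ≤ C * ∑ i, ex J b (fun x => (f (Function.update x i (!x i)) - f x) ^ 2) := by
  -- positive functions
  have hpos : ∀ g : Cfg n → ℝ, (∀ x, 0 < g x) →
      ex J b (fun x => g x ^ 2 * Real.log (g x ^ 2))
      - ex J b (fun x => g x ^ 2) * Real.log (ex J b (fun x => g x ^ 2))
      ≤ C * ∑ i, ex J b (fun x => (g (Function.update x i (!x i)) - g x) ^ 2) := by
    intro g hg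
    refine (hA (fun x => g x ^ 2) (fun x => by have := hg x; positivity)).trans ?_
    apply mul_le_mul_of_nonneg_left _ hC
    apply Finset.sum_le_sum
    intro i _
    rw [← ent_site b hJ i (fun x => g x ^ 2)]
    have h1 : ∑ x, ent2 (gibbs J b (flip x i) / 2) (gibbs J b x / 2) (g (flip x i) ^ 2) (g x ^ 2)
        ≤ ∑ x, (gibbs J b (flip x i) / 2 + gibbs J b x / 2) * (g (flip x i) - g x) ^ 2 :=
      Finset.sum_le_sum fun x _ => ent2_le_lsi (half_pos (gibbs_pos J b _))
        (half_pos (gibbs_pos J b _)) (hg _) (hg _)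
    refine h1.trans (le_of_eq ?_)
    set G : Cfg n → ℝ := fun y => gibbs J b y * (g (flip y i) - g y) ^ 2 with hG
    have h2 : ∀ x, (gibbs J b (flip x i) / 2 + gibbs J b x / 2) * (g (flip x i) - g x) ^ 2
        = (1 / 2) * (G (flip x i) + G x) := by
      intro x
      rw [hG]
      simp only [flip_flip]
      ring
    simp only [h2]
    rw [← Finset.mul_sum, Finset.sum_add_distrib, sum_flip i G]
    have e3 : ∑ x, G x = ex J b (fun x => (g (Function.update x i (!x i)) - g x) ^ 2) := rfl
    rw [e3]
    ring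
  have hlog : ∀ {g : ℝ → ℝ}, Continuous g → Continuous fun e => g e * Real.log (g e) :=
    fun hg => Real.continuous_mul_log.comp hg
  have hex : ∀ {g : ℝ → Cfg n → ℝ}, (∀ x, Continuous fun e => g e x) →
      Continuous fun e => ex J b (g e) := by
    intro g hg
    unfold ex
    exact continuous_finsetSum _ fun x _ => continuous_const.mul (hg x)
  have hsq : ∀ x, Continuous fun e : ℝ => (|f x| + e) ^ 2 := fun x =>
    (continuous_const.add continuous_id).pow 2
  have hL : Continuous fun e : ℝ => ex J b (fun x => (|f x| + e) ^ 2 * Real.log ((|f x| + e) ^ 2))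
      - ex J b (fun x => (|f x| + e) ^ 2) * Real.log (ex J b (fun x => (|f x| + e) ^ 2)) := by
    refine Continuous.sub (hex fun x => hlog (hsq x)) ?_
    exact hlog (hex hsq)
  have h1 : Tendsto (fun e : ℝ => ex J b (fun x => (|f x| + e) ^ 2 * Real.log ((|f x| + e) ^ 2))
      - ex J b (fun x => (|f x| + e) ^ 2) * Real.log (ex J b (fun x => (|f x| + e) ^ 2))) (𝓝[>] 0)
      (𝓝 (ex J b (fun x => (|f x| + 0) ^ 2 * Real.log ((|f x| + 0) ^ 2))
      - ex J b (fun x => (|f x| + 0) ^ 2) * Real.log (ex J b (fun x => (|f x| + 0) ^ 2)))) :=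
    (hL.tendsto 0).mono_left nhdsWithin_le_nhds
  have h3 := le_of_tendsto h1 (b := C * ∑ i, ex J b
      (fun x => (f (Function.update x i (!x i)) - f x) ^ 2)) (by
    filter_upwards [self_mem_nhdsWithin] with e he
    have he0 : (0:ℝ) < e := he
    refine (hpos (fun x => |f x| + e) (fun x => by have := abs_nonneg (f x); linarith)).trans ?_
    apply mul_le_mul_of_nonneg_left _ hC
    apply Finset.sum_le_sum
    intro i _
    unfold ex
    apply Finset.sum_le_sum
    intro x _
    apply mul_le_mul_of_nonneg_left _ (gibbs_pos J b x).le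
    have h4 : |f (Function.update x i (!x i))| + e - (|f x| + e)
        = |f (Function.update x i (!x i))| - |f x| := by ring
    show (|f (Function.update x i (!x i))| + e - (|f x| + e)) ^ 2
      ≤ (f (Function.update x i (!x i)) - f x) ^ 2
    rw [h4]
    exact sq_le_sq.2 (abs_abs_sub_abs_le _ _))
  simpa only [add_zero, sq_abs] using h3

/-- **Approximate tensorization of entropy and the logarithmic Sobolev inequality** for the
zero-field SK model, every `β < 1`. -/
theorem sk_at (β : ℝ) (hβ0 : 0 ≤ β) (hβ1 : β < 1) :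
    ∃ C : ℝ, 0 < C ∧ ∀ᶠ i in F.whpF,
      (∀ f : Cfg i.1 → ℝ, (∀ x, 0 ≤ f x) →
        ex (skJ β i.2) (fun _ => 0) (fun x => f x * Real.log (f x))
          - ex (skJ β i.2) (fun _ => 0) f * Real.log (ex (skJ β i.2) (fun _ => 0) f)
          ≤ C * ∑ k, (ex (skJ β i.2) (fun _ => 0) (fun x => f x * Real.log (f x))
            - ex (skJ β i.2) (fun _ => 0) (fun x => resample (skJ β i.2) (fun _ => 0) k f x
              * Real.log (resample (skJ β i.2) (fun _ => 0) k f x)))) ∧
      ∀ f : Cfg i.1 → ℝ,
        ex (skJ β i.2) (fun _ => 0) (fun x => f x ^ 2 * Real.log (f x ^ 2))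
          - ex (skJ β i.2) (fun _ => 0) (fun x => f x ^ 2)
            * Real.log (ex (skJ β i.2) (fun _ => 0) (fun x => f x ^ 2))
          ≤ C * ∑ k, ex (skJ β i.2) (fun _ => 0)
            (fun x => (f (Function.update x k (!x k)) - f x) ^ 2) := by
  have hgood := F.prob β hβ0 hβ1
  obtain ⟨γ, hγ, h1⟩ := F.gapStatement (F.d6_of_core F.driftCore) F.d3mStatement β hβ0 hβ1
    F.whpF (fun i => i.1) (fun i => F.skM i.2) hgood
  obtain ⟨K, hK, h2⟩ := F.dat β hβ0 hβ1 F.whpF (fun i => i.1) (fun i => F.skM i.2) hgood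
  refine ⟨1520 * (K + 1) + (128 * (K + 1) + 306) / γ, by positivity, ?_⟩
  filter_upwards [h1, h2] with i a1 a2
  have e : skJ β i.2 = fun a b => β * F.skM i.2 a b := F.skJ_eq β i.2
  have hs : ∀ a b, skJ β i.2 a b = skJ β i.2 b a := Asm.skJ_symm β i.2
  rw [← e] at a1 a2
  have hA : ∀ f : Cfg i.1 → ℝ, (∀ x, 0 < f x) →
        ex (skJ β i.2) (fun _ => 0) (fun x => f x * Real.log (f x))
          - ex (skJ β i.2) (fun _ => 0) f * Real.log (ex (skJ β i.2) (fun _ => 0) f)
          ≤ (1520 * (K + 1) + (128 * (K + 1) + 306) / γ) *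
            ∑ k, (ex (skJ β i.2) (fun _ => 0) (fun x => f x * Real.log (f x))
            - ex (skJ β i.2) (fun _ => 0) (fun x => resample (skJ β i.2) (fun _ => 0) k f x
              * Real.log (resample (skJ β i.2) (fun _ => 0) k f x))) := by
    intro f hf
    refine at_of_def _ hs hγ (by linarith : (0:ℝ) < K + 1) a1 ?_ f hf
    intro f hf hf1
    refine (a2 f hf hf1).trans (mul_le_mul_of_nonneg_right (by linarith) ?_)
    have h3 : 0 ≤ ∑ k, (ex (skJ β i.2) (fun _ => 0) (fun x => f x * Real.log (f x))
            - ex (skJ β i.2) (fun _ => 0) (fun x => resample (skJ β i.2) (fun _ => 0) k f x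
              * Real.log (resample (skJ β i.2) (fun _ => 0) k f x))) := by
      rw [← ex_Dv (J := skJ β i.2) (fun _ => 0) hs hf]
      refine Finset.sum_nonneg fun x _ => mul_nonneg (gibbs_pos _ _ x).le
        (Finset.sum_nonneg fun k _ => Dv_nonneg (hf x) (resample_pos _ hs k hf x))
    linarith
  exact ⟨at_nonneg _ hA, lsi_of_at _ hs (by positivity) hA⟩

end Vale.Agent.P150.H185
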