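import Mathlib
import Vale.Agent.P150.Bdl.B30

/-! Ward identities for the resolvent and sharp bounds for the integration by parts terms. -/

open MeasureTheory ProbabilityTheory Filter Topology
open scoped Matrix

namespace Vale.Agent.P150.H185.Crit

open Vale.Agent.P150.Cav

variable {n : ℕ}

lemma Gm_symm (z : ℂ) (g : Pairs n → ℝ) (i j : Fin n) : Gm z g i j = Gm z g j i := by
  have h1 : (Am z g)ᵀ = Am z g := by
    ext a b
    show (if b = a then z else 0) - (Wm g b a : ℂ) = (if a = b then z else 0) - (Wm g a b : ℂ)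
    rw [Wm_symm g b a]
    by_cases h : a = b
    · subst h; rfl
    · rw [if_neg h, if_neg (Ne.symm h)]
  have h2 : (Gm z g)ᵀ = Gm z g := by
    unfold Gm
    rw [Matrix.transpose_nonsing_inv, h1]
  conv_lhs => rw [← h2]
  rfl

lemma im_Gx (z : ℂ) (hz : 0 < z.im) (g : Pairs n → ℝ) (x : Cfg n) :
    -(∑ i, Gx z g x i * (sp (x i) : ℂ)).im = z.im * nsq (Gx z g x) := by
  have hq := quad_Am z g ((Gm z g).mulVec (xv x))
  rw [Matrix.mulVec_mulVec, Am_mul_Gm z g hz, Matrix.one_mulVec] at hq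
  have him := congrArg Complex.im hq
  rw [Complex.im_sum, Complex.sub_im, Complex.mul_im, Complex.ofReal_im, Complex.ofReal_im,
    Complex.ofReal_re, mul_zero, sub_zero, zero_add] at him
  rw [Complex.im_sum, ← Finset.sum_neg_distrib]
  refine Eq.trans (Finset.sum_congr rfl fun i _ => ?_) him
  show -(Gx z g x i * (sp (x i) : ℂ)).im = ((starRingEnd ℂ) (Gx z g x i) * (sp (x i) : ℂ)).im
  simp only [Complex.mul_im, Complex.conj_re, Complex.conj_im, Complex.ofReal_re,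
    Complex.ofReal_im, mul_zero, zero_add]
  ring

lemma neg_im_aa (z : ℂ) (hz : 0 < z.im) (β : ℝ) (g : Pairs n → ℝ) :
    -(aa z β g).im = z.im * ((n : ℝ)⁻¹ * ∑ x : Cfg n, pw β g x * nsq (Gx z g x)) := by
  unfold aa
  have h2 : ((n : ℂ)⁻¹) = (((n : ℝ)⁻¹ : ℝ) : ℂ) := by push_cast; rfl
  rw [h2, Complex.im_ofReal_mul, Complex.im_sum]
  have e : ∀ x : Cfg n, ((pw β g x : ℂ) * ∑ i, Gx z g x i * (sp (x i) : ℂ)).im =
      -(pw β g x * (z.im * nsq (Gx z g x))) := by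
    intro x
    rw [Complex.im_ofReal_mul, ← im_Gx z hz g x]
    ring
  rw [Finset.sum_congr rfl fun x _ => e x, Finset.sum_neg_distrib, mul_neg, neg_neg]
  rw [Finset.mul_sum, Finset.mul_sum, Finset.mul_sum]
  exact Finset.sum_congr rfl fun x _ => by ring

lemma neg_im_mm (z : ℂ) (hz : 0 < z.im) (g : Pairs n → ℝ) :
    -(mm z g).im = z.im * ((n : ℝ)⁻¹ * ∑ l, ∑ k, ‖Gm z g l k‖ ^ 2) := by
  have h1 : ∀ i : Fin n, -(Gm z g i i).im = z.im * ∑ k, ‖Gm z g k i‖ ^ 2 := by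
    intro i
    have hq := quad_Am z g ((Gm z g).mulVec (Pi.single i 1))
    rw [Matrix.mulVec_mulVec, Am_mul_Gm z g hz, Matrix.one_mulVec] at hq
    rw [Finset.sum_eq_single i] at hq
    · have him := congrArg Complex.im hq
      simp only [Matrix.mulVec_single_one, Pi.single_eq_same, mul_one, Complex.conj_im,
        Complex.sub_im, Complex.mul_im, Complex.ofReal_re, Complex.ofReal_im, mul_zero,
        sub_zero, zero_add] at him
      have h2 : (Matrix.col (Gm z g) i) i = Gm z g i i := rfl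
      rw [h2] at him
      exact him
    · intro b _ hb
      rw [Pi.single_eq_of_ne hb, mul_zero]
    · simp
  unfold mm
  have h2 : ((n : ℂ)⁻¹) = (((n : ℝ)⁻¹ : ℝ) : ℂ) := by push_cast; rfl
  rw [h2, Complex.im_ofReal_mul, Complex.im_sum, Finset.sum_comm, ← mul_neg,
    ← Finset.sum_neg_distrib, Finset.sum_congr rfl fun i _ => h1 i, ← Finset.mul_sum]
  ring

/-- `⟨|G x|²⟩ ≤ n |a| / Im z` -/
lemma avg_nsq_Gx_le (z : ℂ) (hz : 0 < z.im) (β : ℝ) (hn : 0 < n) (g : Pairs n → ℝ) :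
    ∑ x : Cfg n, pw β g x * nsq (Gx z g x) ≤ n * ((z.im)⁻¹ * ‖aa z β g‖) := by
  have hn' : (0 : ℝ) < n := by exact_mod_cast hn
  have h1 := neg_im_aa z hz β g
  have h2 := Complex.abs_im_le_norm (aa z β g)
  have h3 := neg_abs_le (aa z β g).im
  have e : ∑ x : Cfg n, pw β g x * nsq (Gx z g x) = n * ((z.im)⁻¹ * -(aa z β g).im) := by
    rw [h1]
    field_simp
  rw [e]
  refine mul_le_mul_of_nonneg_left (mul_le_mul_of_nonneg_left ?_ (by positivity)) hn'.le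
  linarith only [h2, h3]

/-- Frobenius norm of `G` -/
lemma frob_eq (z : ℂ) (hz : 0 < z.im) (hn : 0 < n) (g : Pairs n → ℝ) :
    ∑ l, ∑ k, ‖Gm z g l k‖ ^ 2 = n * ((z.im)⁻¹ * -(mm z g).im) := by
  have hn' : (0 : ℝ) < n := by exact_mod_cast hn
  rw [neg_im_mm z hz g]
  field_simp

/-- `x · G x` -/
noncomputable def FF (z : ℂ) (g : Pairs n → ℝ) (x : Cfg n) : ℂ := ∑ l, Gx z g x l * (sp (x l) : ℂ)

lemma norm_FF_le' (z : ℂ) (g : Pairs n → ℝ) (x : Cfg n) :
    ‖FF z g x‖ ≤ √n * √(nsq (Gx z g x)) := by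
  unfold FF
  refine (norm_sum_le _ _).trans ?_
  have h1 := sum_norm_mul_le (Gx z g x) (xv x)
  rw [nsq_xv] at h1
  rw [mul_comm]
  refine le_trans (le_of_eq ?_) h1
  exact Finset.sum_congr rfl fun i _ => by rw [norm_mul]; rfl

lemma norm_FF_le (z : ℂ) (hz : 0 < z.im) (g : Pairs n → ℝ) (x : Cfg n) :
    ‖FF z g x‖ ≤ (z.im)⁻¹ * n := by
  have h2 := (coer_im z g).bilin_le hz (xv x) (xv x)
  rw [nsq_xv, Real.mul_self_sqrt (Nat.cast_nonneg n)] at h2
  refine le_trans (le_of_eq ?_) h2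
  congr 1
  exact Finset.sum_congr rfl fun i _ => by rw [mul_comm]; rfl

lemma sum_Gm_sp (z : ℂ) (g : Pairs n → ℝ) (x : Cfg n) (i : Fin n) :
    ∑ l, Gm z g l i * (sp (x l) : ℂ) = Gx z g x i := by
  unfold Gx
  exact Finset.sum_congr rfl fun l _ => by rw [Gm_symm]

/-- sharp bound of `x · G M x` -/
lemma norm_rr_le' (z : ℂ) (β : ℝ) (hn : 0 < n) (g : Pairs n → ℝ) (x : Cfg n) :
    ‖rr z β g x‖ ≤ √(nsq (Gx z g x)) * (n * √n * √(YY β g)) := by
  have hn' : (0 : ℝ) < n := by exact_mod_cast hn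
  set v : Fin n → ℂ := fun k => ∑ i, (Mm β g k i : ℂ) * (sp (x i) : ℂ) with hv
  have h1 : rr z β g x = ∑ k, Gx z g x k * v k := by
    have e1 : ∀ k, Gx z g x k * v k = ∑ j, ∑ i, (Gm z g j k * (sp (x j) : ℂ)) *
        ((Mm β g k i : ℂ) * (sp (x i) : ℂ)) := by
      intro k
      rw [← sum_Gm_sp, hv, Finset.sum_mul_sum]
    rw [Finset.sum_congr rfl fun k _ => e1 k]
    unfold rr
    have e2 : ∀ i j : Fin n, (sp (x i) : ℂ) * (sp (x j) : ℂ) * hh z β g i j =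
        ∑ k, (Gm z g j k * (sp (x j) : ℂ)) * ((Mm β g k i : ℂ) * (sp (x i) : ℂ)) := by
      intro i j
      rw [hh_eq, Finset.mul_sum]
      exact Finset.sum_congr rfl fun k _ => by ring
    refine (Finset.sum_congr rfl fun i _ => Finset.sum_congr rfl fun j _ => e2 i j).trans ?_
    refine Finset.sum_comm.trans ?_
    refine (Finset.sum_congr rfl fun j _ => Finset.sum_comm).trans ?_
    exact Finset.sum_comm
  rw [h1]
  refine (norm_sum_le _ _).trans ?_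
  have h2 := sum_norm_mul_le (Gx z g x) v
  have e4 : ∑ i, ‖Gx z g x i * v i‖ = ∑ i, ‖Gx z g x i‖ * ‖v i‖ :=
    Finset.sum_congr rfl fun i _ => norm_mul _ _
  rw [e4]
  refine h2.trans (mul_le_mul_of_nonneg_left ?_ (Real.sqrt_nonneg _))
  have hY := YY_nonneg β g
  have h3 : nsq v ≤ (n : ℝ) ^ 2 * n * YY β g := by
    have e5 : (n : ℝ) ^ 2 * n * YY β g = (∑ k, ∑ i, Mm β g k i ^ 2) * n := by
      unfold YY; field_simp
    rw [e5]
    unfold nsq
    rw [Finset.sum_mul]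
    refine Finset.sum_le_sum fun k _ => ?_
    have e6 : v k = ((∑ i, Mm β g k i * sp (x i) : ℝ) : ℂ) := by
      rw [hv]; push_cast; rfl
    rw [e6, Complex.norm_real, Real.norm_eq_abs, sq_abs]
    have e7 : ∑ i, sp (x i) ^ 2 = (n : ℝ) := by simp [Cav.sp_sq]
    have h8 := Finset.sum_mul_sq_le_sq_mul_sq Finset.univ (fun i => Mm β g k i)
      (fun i => sp (x i))
    rw [e7] at h8
    exact h8
  refine (Real.sqrt_le_sqrt h3).trans (le_of_eq ?_)
  rw [Real.sqrt_mul (by positivity), Real.sqrt_mul (by positivity), Real.sqrt_sq hn'.le]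

lemma norm_rr_le'' (z : ℂ) (hz : 0 < z.im) (β : ℝ) (hn : 0 < n) (g : Pairs n → ℝ) (x : Cfg n) :
    ‖rr z β g x‖ ≤ (z.im)⁻¹ * (n : ℝ) ^ 2 * √(YY β g) := by
  have hn' : (0 : ℝ) < n := by exact_mod_cast hn
  have h1 := norm_rr_le' z β hn g x
  have h2 : √(nsq (Gx z g x)) ≤ (z.im)⁻¹ * √n := by
    have := (coer_im z g).sqrt_nsq_inv_le hz (xv x)
    rwa [nsq_xv] at this
  refine h1.trans ((mul_le_mul_of_nonneg_right h2 (by positivity)).trans (le_of_eq ?_))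
  have hs : √(n : ℝ) * √n = n := Real.mul_self_sqrt hn'.le
  calc (z.im)⁻¹ * √n * (n * √n * √(YY β g)) = (z.im)⁻¹ * n * (√n * √n) * √(YY β g) := by ring
    _ = _ := by rw [hs]; ring

lemma norm_rho_le (z : ℂ) (hz : 0 < z.im) (β : ℝ) (hn : 0 < n) (g : Pairs n → ℝ) :
    ‖∑ i, ∑ j, (Mm β g i j : ℂ) * hh z β g i j‖ ≤ (z.im)⁻¹ * (n : ℝ) ^ 2 * √(YY β g) := by
  rw [sum_Mm_hh]
  exact norm_avg_le β g _ _ fun x => norm_rr_le'' z hz β hn g x

lemma norm_sum_DYY_hh_le' (z : ℂ) (hz : 0 < z.im) (β : ℝ) (hn : 0 < n) (g : Pairs n → ℝ) :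
    ‖∑ i, ∑ j, (DYY β i j g : ℂ) * hh z β g i j‖ ≤
      ((n : ℝ)⁻¹) ^ 2 * (2 * (|β| / Real.sqrt n)) * (((n : ℝ) ^ 2 * YY β g) *
        (2 * ((z.im)⁻¹ * (n : ℝ) ^ 2 * √(YY β g)))) := by
  have hn' : (0 : ℝ) < n := by exact_mod_cast hn
  set ρ : ℂ := ∑ i, ∑ j, (Mm β g i j : ℂ) * hh z β g i j with hρ
  have hρb := norm_rho_le z hz β hn g
  rw [← hρ] at hρb
  have h1 : ∑ i, ∑ j, (DYY β i j g : ℂ) * hh z β g i j =
      ((((n : ℝ)⁻¹) ^ 2 * (2 * (β / Real.sqrt n)) : ℝ) : ℂ) *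
        ∑ x : Cfg n, (pw β g x : ℂ) * ((qf β g x : ℂ) * (rr z β g x - ρ)) := by
    have e0 : ∀ x : Cfg n, rr z β g x - ρ = ∑ i, ∑ j,
        ((sp (x i) * sp (x j) - Mm β g i j : ℝ) : ℂ) * hh z β g i j := by
      intro x
      rw [hρ]
      unfold rr
      rw [← Finset.sum_sub_distrib]
      refine Finset.sum_congr rfl fun i _ => ?_
      rw [← Finset.sum_sub_distrib]
      refine Finset.sum_congr rfl fun j _ => ?_
      push_cast
      ring
    simp only [e0]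
    unfold DYY
    simp only [Finset.mul_sum, Finset.sum_mul, Complex.ofReal_sum, Complex.ofReal_mul]
    have e1 : ∀ (F : Fin n → Fin n → Cfg n → ℂ), ∑ i, ∑ j, ∑ x : Cfg n, F i j x =
        ∑ x : Cfg n, ∑ i, ∑ j, F i j x := by
      intro F
      have : ∀ i : Fin n, ∑ j, ∑ x : Cfg n, F i j x = ∑ x : Cfg n, ∑ j, F i j x :=
        fun i => Finset.sum_comm
      simp only [this]
      exact Finset.sum_comm
    rw [e1]
    refine Finset.sum_congr rfl fun x _ => Finset.sum_congr rfl fun i _ =>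
      Finset.sum_congr rfl fun j _ => ?_
    push_cast
    ring
  rw [h1, norm_mul, Complex.norm_real, Real.norm_eq_abs]
  have h0 : |((n : ℝ)⁻¹) ^ 2 * (2 * (β / Real.sqrt n))| =
      ((n : ℝ)⁻¹) ^ 2 * (2 * (|β| / Real.sqrt n)) := by
    rw [abs_mul, abs_mul, abs_div, abs_of_nonneg (Real.sqrt_nonneg _)]
    rw [abs_of_nonneg (by positivity : (0 : ℝ) ≤ ((n : ℝ)⁻¹) ^ 2), abs_two]
  rw [h0]
  refine mul_le_mul_of_nonneg_left ?_ (by positivity)
  refine (norm_sum_le _ _).trans ?_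
  have h2 : (n : ℝ) ^ 2 * YY β g = ∑ x : Cfg n, pw β g x * qf β g x := by
    rw [avg_qf]
    unfold YY
    field_simp
  rw [h2, Finset.sum_mul]
  refine Finset.sum_le_sum fun x _ => ?_
  rw [norm_mul, norm_mul, norm_pw, Complex.norm_real, Real.norm_eq_abs,
    abs_of_nonneg (qf_nonneg β g x), mul_assoc]
  refine mul_le_mul_of_nonneg_left ?_ (pw_pos β g x).le
  refine mul_le_mul_of_nonneg_left ?_ (qf_nonneg β g x)
  refine (norm_sub_le _ _).trans ?_
  have := norm_rr_le'' z hz β hn g x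
  linarith only [this, hρb]

/-- the cutoff term is small: sharp form -/
lemma norm_X_le' {ε α : ℝ} (hε : 0 < ε) (hα : 0 < α) (z : ℂ) (hz : 0 < z.im) (β : ℝ)
    (hn : 0 < n) (g : Pairs n → ℝ) :
    ‖((((n : ℝ) * Real.sqrt n)⁻¹ : ℝ) : ℂ) *
      ∑ i, ∑ j, (if i = j then 0 else (DPh ε α β i j g : ℂ) * hh z β g i j)‖ ≤
      (4 * |β| * α * (z.im)⁻¹) * (Ph ε α β g * √(YY β g)) := by
  have hn' : (0 : ℝ) < n := by exact_mod_cast hn
  have hY := YY_nonneg β g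
  have hsY := Real.sqrt_nonneg (YY β g)
  have hpos : 0 < ε + YY β g := by linarith only [hY, hε]
  have e1 : ∑ i, ∑ j, (if i = j then 0 else (DPh ε α β i j g : ℂ) * hh z β g i j) =
      (((-α) * (ε + YY β g) ^ (-α - 1) : ℝ) : ℂ) *
        ∑ i, ∑ j, (DYY β i j g : ℂ) * hh z β g i j := by
    rw [Finset.mul_sum]
    refine Finset.sum_congr rfl fun i _ => ?_
    rw [Finset.mul_sum]
    refine Finset.sum_congr rfl fun j _ => ?_
    by_cases hij : i = j
    · subst hij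
      have : DYY β i i g = 0 := by
        unfold DYY
        rw [Mm_self]
        simp [sp_mul_self]
      simp [this]
    · simp only [hij, if_false]
      unfold DPh
      push_cast
      ring
  rw [e1, norm_mul, norm_mul, Complex.norm_real, Complex.norm_real, Real.norm_eq_abs,
    Real.norm_eq_abs, abs_of_nonneg (by positivity : (0 : ℝ) ≤ ((n : ℝ) * Real.sqrt n)⁻¹)]
  have h2 := norm_sum_DYY_hh_le' z hz β hn g
  have h3 : |(-α) * (ε + YY β g) ^ (-α - 1)| = α * (ε + YY β g) ^ (-α - 1) := by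
    rw [abs_mul, abs_neg, abs_of_pos hα, abs_of_pos (Real.rpow_pos_of_pos hpos _)]
  rw [h3]
  have h4 : (ε + YY β g) ^ (-α - 1) * YY β g ≤ Ph ε α β g := by
    unfold Ph
    rw [Real.rpow_sub_one hpos.ne', div_mul_eq_mul_div, div_le_iff₀ hpos]
    refine mul_le_mul_of_nonneg_left (by linarith only [hε]) (Real.rpow_nonneg hpos.le _)
  have hs : Real.sqrt n * Real.sqrt n = n := Real.mul_self_sqrt hn'.le
  have hs0 : Real.sqrt n ≠ 0 := (Real.sqrt_pos.2 hn').ne'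
  have hrp : 0 ≤ (ε + YY β g) ^ (-α - 1) := Real.rpow_nonneg hpos.le _
  calc ((n : ℝ) * Real.sqrt n)⁻¹ * (α * (ε + YY β g) ^ (-α - 1) *
        ‖∑ i, ∑ j, (DYY β i j g : ℂ) * hh z β g i j‖)
      ≤ ((n : ℝ) * Real.sqrt n)⁻¹ * (α * (ε + YY β g) ^ (-α - 1) *
        (((n : ℝ)⁻¹) ^ 2 * (2 * (|β| / Real.sqrt n)) * (((n : ℝ) ^ 2 * YY β g) *
        (2 * ((z.im)⁻¹ * (n : ℝ) ^ 2 * √(YY β g)))))) := by
        refine mul_le_mul_of_nonneg_left ?_ (by positivity)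
        exact mul_le_mul_of_nonneg_left h2 (mul_nonneg hα.le hrp)
    _ = (4 * |β| * α * (z.im)⁻¹) * (((ε + YY β g) ^ (-α - 1) * YY β g) * √(YY β g)) := by
        have : ((n : ℝ) * Real.sqrt n)⁻¹ * (|β| / Real.sqrt n) = |β| * ((n : ℝ)⁻¹) ^ 2 := by
          rw [div_eq_mul_inv, mul_inv]
          have : (Real.sqrt n)⁻¹ * (Real.sqrt n)⁻¹ = (n : ℝ)⁻¹ := by
            rw [← mul_inv, hs]
          calc (n : ℝ)⁻¹ * (Real.sqrt n)⁻¹ * (|β| * (Real.sqrt n)⁻¹)
              = (n : ℝ)⁻¹ * |β| * ((Real.sqrt n)⁻¹ * (Real.sqrt n)⁻¹) := by ring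
            _ = _ := by rw [this]; ring
        calc ((n : ℝ) * Real.sqrt n)⁻¹ * (α * (ε + YY β g) ^ (-α - 1) *
            (((n : ℝ)⁻¹) ^ 2 * (2 * (|β| / Real.sqrt n)) * (((n : ℝ) ^ 2 * YY β g) *
            (2 * ((z.im)⁻¹ * (n : ℝ) ^ 2 * √(YY β g))))))
            = (((n : ℝ) * Real.sqrt n)⁻¹ * (|β| / Real.sqrt n)) * (4 * α * (z.im)⁻¹ *
              (((ε + YY β g) ^ (-α - 1) * YY β g) * √(YY β g))) *
              (((n : ℝ)⁻¹) ^ 2 * (n : ℝ) ^ 2 * (n : ℝ) ^ 2) := by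
              ring
          _ = _ := by
              rw [this]
              field_simp
    _ ≤ _ := mul_le_mul_of_nonneg_left (mul_le_mul_of_nonneg_right h4 hsY)
        (by (clear * - hα hz; positivity))

end Vale.Agent.P150.H185.Crit
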