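import Mathlib
import Vale.Agent.P150.H185.CritWard

/-! Derivative of the trace of the resolvent against the covariance matrix of the SK model. -/

open MeasureTheory ProbabilityTheory Filter Topology
open scoped Matrix

namespace Vale.Agent.P150.H185.Crit

open Vale.Agent.P150.Cav

variable {n : ℕ}

/-- derivative of `aa` -/
noncomputable def Daa (z : ℂ) (β : ℝ) (i j : Fin n) (g : Pairs n → ℝ) : ℂ :=
  ((((n : ℝ) * Real.sqrt n)⁻¹ : ℝ) : ℂ) *
    (β * ∑ x : Cfg n, (pw β g x : ℂ) * (((sp (x i) * sp (x j) - Mm β g i j : ℝ) : ℂ) * FF z g x)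
      + 2 * ∑ x : Cfg n, (pw β g x : ℂ) * (Gx z g x i * Gx z g x j))

lemma hasDerivAt_aa (z : ℂ) (hz : 0 < z.im) (β : ℝ) (g : Pairs n → ℝ) (i j : Fin n) (h : i ≠ j) :
    HasDerivAt (fun s => aa z β (Function.update g (pr i j h) s)) (Daa z β i j g)
      (g (pr i j h)) := by
  unfold aa
  have key : ∀ x : Cfg n, HasDerivAt (fun s => (pw β (Function.update g (pr i j h) s) x : ℂ) *
      ∑ l, Gx z (Function.update g (pr i j h) s) x l * (sp (x l) : ℂ))
      (((pw β g x * (β / Real.sqrt n * (sp (x i) * sp (x j) - Mm β g i j)) : ℝ) : ℂ) *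
        (∑ l, Gx z g x l * (sp (x l) : ℂ)) + (pw β g x : ℂ) * ∑ l, ((((Real.sqrt n)⁻¹ : ℝ) *
        (Gm z g l i * Gx z g x j + Gm z g l j * Gx z g x i)) * (sp (x l) : ℂ)))
      (g (pr i j h)) := by
    intro x
    have h1 := (hasDerivAt_pw β g i j h x).ofReal_comp
    have h2 := HasDerivAt.fun_sum (u := Finset.univ) fun l (_ : l ∈ Finset.univ) =>
      (hasDerivAt_Gx z hz g i j h x l).mul_const (sp (x l) : ℂ)
    have h3 := h1.fun_mul h2
    refine h3.congr_deriv ?_
    simp only [Function.update_eq_self]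
  refine ((HasDerivAt.fun_sum fun x _ => key x).const_mul _).congr_deriv ?_
  unfold Daa
  have e1 : ∀ x : Cfg n, ∑ l, ((((Real.sqrt n)⁻¹ : ℝ) : ℂ) *
        (Gm z g l i * Gx z g x j + Gm z g l j * Gx z g x i)) * (sp (x l) : ℂ)
      = (((Real.sqrt n)⁻¹ : ℝ) : ℂ) * (2 * (Gx z g x i * Gx z g x j)) := by
    intro x
    have e2 : ∀ l, ((((Real.sqrt n)⁻¹ : ℝ) : ℂ) *
        (Gm z g l i * Gx z g x j + Gm z g l j * Gx z g x i)) * (sp (x l) : ℂ)
        = (((Real.sqrt n)⁻¹ : ℝ) : ℂ) * (Gx z g x j * (Gm z g l i * (sp (x l) : ℂ))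
          + Gx z g x i * (Gm z g l j * (sp (x l) : ℂ))) := fun l => by ring
    rw [Finset.sum_congr rfl fun l _ => e2 l, ← Finset.mul_sum, Finset.sum_add_distrib,
      ← Finset.mul_sum, ← Finset.mul_sum, sum_Gm_sp, sum_Gm_sp]
    ring
  have e3 : ((((n : ℝ) * Real.sqrt n)⁻¹ : ℝ) : ℂ) = (n : ℂ)⁻¹ * (((Real.sqrt n)⁻¹ : ℝ) : ℂ) := by
    push_cast
    rw [mul_inv]
  rw [e3, mul_assoc]
  congr 1
  rw [Finset.mul_sum, Finset.mul_sum, ← Finset.sum_add_distrib, Finset.mul_sum]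
  refine Finset.sum_congr rfl fun x _ => ?_
  rw [e1]
  unfold FF
  push_cast
  ring

lemma norm_Daa_le (z : ℂ) (hz : 0 < z.im) (β : ℝ) (i j : Fin n) (g : Pairs n → ℝ) :
    ‖Daa z β i j g‖ ≤ ((n : ℝ) * Real.sqrt n)⁻¹ *
      (|β| * (2 * ((z.im)⁻¹ * n)) + 2 * ((z.im)⁻¹ * n * ((z.im)⁻¹ * n))) := by
  unfold Daa
  rw [norm_mul, Complex.norm_real, Real.norm_eq_abs, abs_of_nonneg (by positivity)]
  refine mul_le_mul_of_nonneg_left ?_ (by positivity)
  refine (norm_add_le _ _).trans (add_le_add ?_ ?_)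
  · rw [norm_mul, Complex.norm_real, Real.norm_eq_abs]
    refine mul_le_mul_of_nonneg_left ?_ (abs_nonneg _)
    refine norm_avg_le β g _ _ fun x => ?_
    rw [norm_mul, Complex.norm_real, Real.norm_eq_abs]
    refine mul_le_mul ?_ (norm_FF_le z hz g x) (norm_nonneg _) (by norm_num)
    refine (abs_sub _ _).trans ?_
    rw [abs_mul, abs_sp, abs_sp]
    have := abs_Mm_le β g i j
    linarith
  · rw [norm_mul]
    simp only [Complex.norm_ofNat]
    refine mul_le_mul_of_nonneg_left ?_ (by norm_num)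
    refine norm_avg_le β g _ _ fun x => ?_
    rw [norm_mul]
    exact mul_le_mul (norm_Gx_le z hz g x i) (norm_Gx_le z hz g x j) (norm_nonneg _)
      (by positivity)

lemma continuous_FF (z : ℂ) (hz : 0 < z.im) (x : Cfg n) :
    Continuous (fun g : Pairs n → ℝ => FF z g x) :=
  continuous_finsetSum _ fun l _ => (continuous_Gx z hz x l).mul continuous_const

lemma continuous_Daa (z : ℂ) (hz : 0 < z.im) (β : ℝ) (i j : Fin n) :
    Continuous (fun g : Pairs n → ℝ => Daa z β i j g) := by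
  unfold Daa
  refine continuous_const.mul (Continuous.add (continuous_const.mul ?_) (continuous_const.mul ?_))
  · exact continuous_finsetSum _ fun x _ => (continuous_pwC β x).mul
      ((Complex.continuous_ofReal.comp (continuous_const.sub (continuous_Mm β i j))).mul
        (continuous_FF z hz x))
  · exact continuous_finsetSum _ fun x _ => (continuous_pwC β x).mul
      ((continuous_Gx z hz x i).mul (continuous_Gx z hz x j))

/-- Frobenius norm of `G M` -/
lemma sum_hh_sq_le (z : ℂ) (hz : 0 < z.im) (β : ℝ) (hn : 0 < n) (g : Pairs n → ℝ) :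
    ∑ p : Fin n × Fin n, ‖hh z β g p.1 p.2‖ ^ 2 ≤ ((z.im)⁻¹) ^ 2 * ((n : ℝ) ^ 2 * YY β g) := by
  have hn' : (0 : ℝ) < n := by exact_mod_cast hn
  rw [Fintype.sum_prod_type]
  have e1 : (n : ℝ) ^ 2 * YY β g = ∑ i, ∑ j, Mm β g i j ^ 2 := by
    unfold YY; field_simp
  rw [e1, Finset.mul_sum]
  refine Finset.sum_le_sum fun i _ => ?_
  have h1 := (coer_im z g).nsq_inv_le hz (fun k => (Mm β g i k : ℂ))
  have h3 : nsq (fun j => (Mm β g i j : ℂ)) = ∑ j, Mm β g i j ^ 2 := by
    unfold nsq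
    refine Finset.sum_congr rfl fun j _ => ?_
    rw [Complex.norm_real, Real.norm_eq_abs, sq_abs]
  rw [h3] at h1
  refine le_trans (le_of_eq ?_) h1
  unfold nsq
  refine Finset.sum_congr rfl fun j _ => ?_
  congr 2
  rw [hh_eq]
  show _ = ∑ k, Gm z g j k * (Mm β g i k : ℂ)
  exact Finset.sum_congr rfl fun k _ => by rw [Mm_symm β g k i]

/-- Cauchy-Schwarz against `G M` -/
lemma norm_sum_hh_le (z : ℂ) (hz : 0 < z.im) (β : ℝ) (hn : 0 < n) (g : Pairs n → ℝ)
    (a : Fin n → Fin n → ℂ) {S : ℝ} (hS : 0 ≤ S)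
    (ha : ∑ p : Fin n × Fin n, ‖a p.1 p.2‖ ^ 2 ≤ S ^ 2) :
    ‖∑ i, ∑ j, (if i = j then 0 else a i j * hh z β g i j)‖
      ≤ S * ((z.im)⁻¹ * (n * √(YY β g))) := by
  have hY := YY_nonneg β g
  rw [← Fintype.sum_prod_type (f := fun p : Fin n × Fin n =>
    if p.1 = p.2 then 0 else a p.1 p.2 * hh z β g p.1 p.2)]
  refine (norm_sum_le _ _).trans ?_
  have h1 : ∑ p : Fin n × Fin n, ‖(if p.1 = p.2 then 0 else a p.1 p.2 * hh z β g p.1 p.2)‖
      ≤ ∑ p : Fin n × Fin n, ‖a p.1 p.2‖ * ‖hh z β g p.1 p.2‖ := by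
    refine Finset.sum_le_sum fun p _ => ?_
    split_ifs
    · rw [norm_zero]; positivity
    · rw [norm_mul]
  refine h1.trans ((Real.sum_mul_le_sqrt_mul_sqrt _ _ _).trans ?_)
  refine mul_le_mul ?_ ?_ (Real.sqrt_nonneg _) hS
  · exact (Real.sqrt_le_sqrt ha).trans (le_of_eq (Real.sqrt_sq hS))
  · refine (Real.sqrt_le_sqrt (sum_hh_sq_le z hz β hn g)).trans (le_of_eq ?_)
    rw [Real.sqrt_mul (sq_nonneg _), Real.sqrt_sq (by positivity), Real.sqrt_mul (sq_nonneg _),
      Real.sqrt_sq (Nat.cast_nonneg n)]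

/-- the derivative term of `aa` is small when the mean squared overlap is small -/
lemma norm_sum_Daa_hh_le (z : ℂ) (hz : 0 < z.im) (β : ℝ) (hn : 0 < n) (g : Pairs n → ℝ) :
    ‖((((n : ℝ) * Real.sqrt n)⁻¹ : ℝ) : ℂ) *
      ∑ i, ∑ j, (if i = j then 0 else (starRingEnd ℂ) (Daa z β i j g) * hh z β g i j)‖ ≤
      ‖aa z β g‖ * ((2 * |β| * (z.im)⁻¹ + 2 * ((z.im)⁻¹) ^ 2 * (n : ℝ)⁻¹) * √(YY β g)) := by
  have hn' : (0 : ℝ) < n := by exact_mod_cast hn
  set A : ℝ := (z.im)⁻¹ with hA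
  have hA0 : 0 < A := by positivity
  set c : ℝ := ((n : ℝ) * Real.sqrt n)⁻¹ with hc
  have hc0 : 0 ≤ c := by positivity
  set N : Cfg n → ℝ := fun x => √(nsq (Gx z g x)) with hN
  have hN0 : ∀ x, 0 ≤ N x := fun x => Real.sqrt_nonneg _
  have hN2 : ∀ x, N x ^ 2 = nsq (Gx z g x) := fun x => Real.sq_sqrt (nsq_nonneg _)
  set S : ℝ := ∑ x : Cfg n, pw β g x * nsq (Gx z g x) with hS
  have hS0 : 0 ≤ S := Finset.sum_nonneg fun x _ => mul_nonneg (pw_pos β g x).le (nsq_nonneg _)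
  have hSle : S ≤ n * (A * ‖aa z β g‖) := avg_nsq_Gx_le z hz β hn g
  set T : ℝ := n * √n * √(YY β g) with hT
  have hT0 : 0 ≤ T := by positivity
  set ρ : ℂ := ∑ i, ∑ j, (Mm β g i j : ℂ) * hh z β g i j with hρ
  set m : ℝ := ∑ x : Cfg n, pw β g x * N x with hm
  have hm0 : 0 ≤ m := Finset.sum_nonneg fun x _ => mul_nonneg (pw_pos β g x).le (hN0 x)
  have hmS : m * m ≤ S := by
    have h1 : 0 ≤ ∑ x : Cfg n, pw β g x * (N x - m) ^ 2 :=
      Finset.sum_nonneg fun x _ => mul_nonneg (pw_pos β g x).le (sq_nonneg _)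
    have h2 : ∑ x : Cfg n, pw β g x * (N x - m) ^ 2 = S - m * m := by
      have e : ∀ x : Cfg n, pw β g x * (N x - m) ^ 2 =
          pw β g x * nsq (Gx z g x) - 2 * m * (pw β g x * N x) + m ^ 2 * pw β g x := by
        intro x
        rw [← hN2 x]
        ring
      simp only [e]
      rw [Finset.sum_add_distrib, Finset.sum_sub_distrib, ← Finset.mul_sum, ← Finset.mul_sum,
        pw_sum, ← hS, ← hm]
      ring
    linarith only [h1, h2]
  have hrr : ∀ x, ‖rr z β g x‖ ≤ N x * T := fun x => norm_rr_le' z β hn g x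
  have hρb : ‖ρ‖ ≤ m * T := by
    rw [hρ, sum_Mm_hh, hm, Finset.sum_mul]
    refine (norm_sum_le _ _).trans (Finset.sum_le_sum fun x _ => ?_)
    rw [norm_mul, norm_pw, mul_assoc]
    exact mul_le_mul_of_nonneg_left (hrr x) (pw_pos β g x).le
  have hsplit : ∑ i, ∑ j, (if i = j then 0 else (starRingEnd ℂ) (Daa z β i j g) * hh z β g i j)
      = (c : ℂ) * (β * ∑ x : Cfg n, (pw β g x : ℂ) * ((starRingEnd ℂ) (FF z g x) *
          ∑ i, ∑ j, (if i = j then 0 else
            ((sp (x i) * sp (x j) - Mm β g i j : ℝ) : ℂ) * hh z β g i j))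
        + 2 * ∑ x : Cfg n, (pw β g x : ℂ) * ∑ i, ∑ j, (if i = j then 0 else
            (starRingEnd ℂ) (Gx z g x i * Gx z g x j) * hh z β g i j)) := by
    have e1 : ∀ (F : Fin n → Fin n → Cfg n → ℂ), ∑ i, ∑ j, ∑ x : Cfg n, F i j x =
        ∑ x : Cfg n, ∑ i, ∑ j, F i j x := by
      intro F
      have : ∀ i : Fin n, ∑ j, ∑ x : Cfg n, F i j x = ∑ x : Cfg n, ∑ j, F i j x :=
        fun i => Finset.sum_comm
      simp only [this]
      exact Finset.sum_comm
    have e2 : ∀ i j : Fin n, (if i = j then 0 else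
        (starRingEnd ℂ) (Daa z β i j g) * hh z β g i j)
        = ∑ x : Cfg n, ((c : ℂ) * (β * ((pw β g x : ℂ) * ((starRingEnd ℂ) (FF z g x) *
          (if i = j then 0 else
            ((sp (x i) * sp (x j) - Mm β g i j : ℝ) : ℂ) * hh z β g i j))))
        + (c : ℂ) * (2 * ((pw β g x : ℂ) * (if i = j then 0 else
            (starRingEnd ℂ) (Gx z g x i * Gx z g x j) * hh z β g i j)))) := by
      intro i j
      by_cases hij : i = j
      · simp [hij]
      · simp only [hij, if_false]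
        unfold Daa
        rw [← hc, Finset.sum_add_distrib, ← Finset.mul_sum, ← Finset.mul_sum, ← Finset.mul_sum,
          ← Finset.mul_sum]
        simp only [map_mul, map_add, map_sum, Complex.conj_ofReal, map_ofNat]
        rw [mul_assoc, add_mul, mul_add, mul_assoc, mul_assoc, Finset.sum_mul, Finset.sum_mul]
        congr 1
        · congr 2
          exact Finset.sum_congr rfl fun x _ => by ring
        · congr 2
          exact Finset.sum_congr rfl fun x _ => by ring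
    simp only [e2]
    rw [e1]
    simp only [Finset.sum_add_distrib, ← Finset.mul_sum]
    rw [mul_add]
  have hrho : ∀ x : Cfg n, ∑ i, ∑ j, (if i = j then 0 else
      ((sp (x i) * sp (x j) - Mm β g i j : ℝ) : ℂ) * hh z β g i j) = rr z β g x - ρ := by
    intro x
    rw [hρ]
    unfold rr
    rw [← Finset.sum_sub_distrib]
    refine Finset.sum_congr rfl fun i _ => ?_
    rw [← Finset.sum_sub_distrib]
    refine Finset.sum_congr rfl fun j _ => ?_
    by_cases hij : i = j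
    · subst hij
      rw [if_pos rfl, Mm_self, ← Complex.ofReal_mul, sp_mul_self]
      simp
    · rw [if_neg hij]
      push_cast
      ring
  rw [hsplit, norm_mul, norm_mul, Complex.norm_real, Real.norm_eq_abs, abs_of_nonneg hc0]
  -- first part
  have hp1 : ‖(β : ℂ) * ∑ x : Cfg n, (pw β g x : ℂ) * ((starRingEnd ℂ) (FF z g x) *
          ∑ i, ∑ j, (if i = j then 0 else
            ((sp (x i) * sp (x j) - Mm β g i j : ℝ) : ℂ) * hh z β g i j))‖
      ≤ |β| * (√n * T * (2 * S)) := by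
    rw [norm_mul, Complex.norm_real, Real.norm_eq_abs]
    refine mul_le_mul_of_nonneg_left ?_ (abs_nonneg _)
    refine (norm_sum_le _ _).trans ?_
    have h1 : ∀ x : Cfg n, ‖(pw β g x : ℂ) * ((starRingEnd ℂ) (FF z g x) *
          ∑ i, ∑ j, (if i = j then 0 else
            ((sp (x i) * sp (x j) - Mm β g i j : ℝ) : ℂ) * hh z β g i j))‖ ≤
        √n * T * (pw β g x * nsq (Gx z g x) + m * (pw β g x * N x)) := by
      intro x
      rw [hrho x, norm_mul, norm_pw, norm_mul, RCLike.norm_conj]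
      have h2 : ‖FF z g x‖ ≤ √n * N x := norm_FF_le' z g x
      have h3 : ‖rr z β g x - ρ‖ ≤ N x * T + m * T :=
        (norm_sub_le _ _).trans (add_le_add (hrr x) hρb)
      calc pw β g x * (‖FF z g x‖ * ‖rr z β g x - ρ‖) ≤
            pw β g x * ((√n * N x) * (N x * T + m * T)) := by
            refine mul_le_mul_of_nonneg_left ?_ (pw_pos β g x).le
            exact mul_le_mul h2 h3 (norm_nonneg _) (mul_nonneg (Real.sqrt_nonneg _) (hN0 x))
        _ = √n * T * (pw β g x * N x ^ 2 + m * (pw β g x * N x)) := by ring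
        _ = _ := by rw [hN2]
    refine (Finset.sum_le_sum fun x _ => h1 x).trans ?_
    rw [← Finset.mul_sum, Finset.sum_add_distrib, ← Finset.mul_sum, ← hS, ← hm]
    refine mul_le_mul_of_nonneg_left ?_ (by positivity)
    linarith only [hmS]
  have hp2 : ‖(2 : ℂ) * ∑ x : Cfg n, (pw β g x : ℂ) * ∑ i, ∑ j, (if i = j then 0 else
            (starRingEnd ℂ) (Gx z g x i * Gx z g x j) * hh z β g i j)‖
      ≤ 2 * (S * (A * (n * √(YY β g)))) := by
    rw [norm_mul]
    simp only [Complex.norm_ofNat]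
    refine mul_le_mul_of_nonneg_left ?_ (by norm_num)
    refine (norm_sum_le _ _).trans ?_
    rw [hS, Finset.sum_mul]
    refine Finset.sum_le_sum fun x _ => ?_
    rw [norm_mul, norm_pw, mul_assoc]
    refine mul_le_mul_of_nonneg_left ?_ (pw_pos β g x).le
    refine norm_sum_hh_le z hz β hn g (fun i j => (starRingEnd ℂ) (Gx z g x i * Gx z g x j))
      (S := nsq (Gx z g x)) (nsq_nonneg _) ?_
    have h1 : ∑ p : Fin n × Fin n, ‖(starRingEnd ℂ) (Gx z g x p.1 * Gx z g x p.2)‖ ^ 2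
        = nsq (Gx z g x) * nsq (Gx z g x) := by
      rw [Fintype.sum_prod_type]
      unfold nsq
      rw [Finset.sum_mul_sum]
      refine Finset.sum_congr rfl fun i _ => Finset.sum_congr rfl fun j _ => ?_
      rw [RCLike.norm_conj, norm_mul, mul_pow]
    rw [h1, sq]
  have hs : Real.sqrt n * Real.sqrt n = n := Real.mul_self_sqrt hn'.le
  have hcc : c * c * (n : ℝ) ^ 3 = 1 := by
    rw [hc]
    have hs0 : Real.sqrt n ≠ 0 := (Real.sqrt_pos.2 hn').ne'
    field_simp
    nlinarith [hs]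
  have hsum := (norm_add_le ((β : ℂ) * ∑ x : Cfg n, (pw β g x : ℂ) * ((starRingEnd ℂ) (FF z g x) *
          ∑ i, ∑ j, (if i = j then 0 else
            ((sp (x i) * sp (x j) - Mm β g i j : ℝ) : ℂ) * hh z β g i j)))
    ((2 : ℂ) * ∑ x : Cfg n, (pw β g x : ℂ) * ∑ i, ∑ j, (if i = j then 0 else
            (starRingEnd ℂ) (Gx z g x i * Gx z g x j) * hh z β g i j))).trans (add_le_add hp1 hp2)
  have hYs := Real.sqrt_nonneg (YY β g)
  calc c * (c * _) ≤ c * (c * (|β| * (√n * T * (2 * S)) + 2 * (S * (A * (n * √(YY β g)))))) :=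
        mul_le_mul_of_nonneg_left (mul_le_mul_of_nonneg_left hsum hc0) hc0
    _ = (c * c) * ((2 * |β| * n * (√n * √n) + 2 * A * n) * √(YY β g)) * S := by
        rw [hT]; ring
    _ = (c * c) * ((2 * |β| * (n : ℝ) ^ 2 + 2 * A * n) * √(YY β g)) * S := by
        rw [hs]; ring
    _ ≤ (c * c) * ((2 * |β| * (n : ℝ) ^ 2 + 2 * A * n) * √(YY β g)) * (n * (A * ‖aa z β g‖)) :=
        mul_le_mul_of_nonneg_left hSle (by positivity)
    _ = (c * c * (n : ℝ) ^ 3) * (‖aa z β g‖ *
          ((2 * |β| * A + 2 * A ^ 2 * (n : ℝ)⁻¹) * √(YY β g))) := by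
        field_simp
    _ = _ := by rw [hcc, one_mul]

end Vale.Agent.P150.H185.Crit
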