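import Mathlib
import Vale.Agent.P150.H185.CritIbp

/-! The weighted second moment bound for the defect `(u - β) aa - 1` at fixed `n`. -/

open MeasureTheory ProbabilityTheory Filter Topology

namespace Vale.Agent.P150.H185.Crit

open Vale.Agent.P150.Cav

variable {n : ℕ}

/-- the defect -/
noncomputable def th (u z : ℂ) (β : ℝ) (g : Pairs n → ℝ) : ℂ := (u - β) * aa z β g - 1

lemma norm_th_le (u z : ℂ) (hz : 0 < z.im) (β : ℝ) (hn : 0 < n) (g : Pairs n → ℝ) :
    ‖th u z β g‖ ≤ ‖u - β‖ * (z.im)⁻¹ + 1 := by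
  unfold th
  refine (norm_sub_le _ _).trans (add_le_add ?_ (by simp))
  rw [norm_mul]
  exact mul_le_mul_of_nonneg_left (norm_aa_le z β hn g hz (coer_im z g)) (norm_nonneg _)

lemma norm_mul_aa_le (u z : ℂ) (β : ℝ) (g : Pairs n → ℝ) :
    ‖u - β‖ * ‖aa z β g‖ ≤ 1 + ‖th u z β g‖ := by
  have h1 : (u - β) * aa z β g = 1 + th u z β g := by
    unfold th; ring
  rw [← norm_mul, h1]
  refine (norm_add_le _ _).trans (le_of_eq ?_)
  simp

lemma continuous_th (u z : ℂ) (hz : 0 < z.im) (β : ℝ) :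
    Continuous (fun g : Pairs n → ℝ => th u z β g) :=
  (continuous_const.mul (continuous_aa z hz β)).sub continuous_const

lemma Ph_one (ε β : ℝ) (g : Pairs n → ℝ) : Ph ε 1 β g = (ε + YY β g)⁻¹ := by
  unfold Ph
  exact Real.rpow_neg_one _

lemma Ph_one_bounds {ε : ℝ} (hε : 0 < ε) (β : ℝ) (g : Pairs n → ℝ) :
    Ph ε 1 β g ≤ ε⁻¹ ∧ Ph ε 1 β g * YY β g ≤ 1 ∧ Ph ε 1 β g * √(YY β g) ≤ (√ε)⁻¹ := by
  have hY0 := YY_nonneg β g
  have hpos : 0 < ε + YY β g := by linarith only [hY0, hε]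
  rw [Ph_one]
  refine ⟨inv_anti₀ hε (by linarith only [hY0]), ?_, ?_⟩
  · rw [inv_mul_eq_div, div_le_one hpos]
    linarith only [hε]
  · have hs : 0 < √ε := Real.sqrt_pos.2 hε
    have hsY := Real.sqrt_nonneg (YY β g)
    have e1 : √ε * √ε = ε := Real.mul_self_sqrt hε.le
    have e2 : √(YY β g) * √(YY β g) = YY β g := Real.mul_self_sqrt hY0
    rw [inv_mul_eq_div, div_le_iff₀ hpos, inv_mul_eq_div, le_div_iff₀ hs]
    nlinarith only [sq_nonneg (√ε - √(YY β g)), e1, e2, hs, hsY, mul_nonneg hs.le hsY]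

/-- The weighted second moment of the defect. -/
theorem second_moment {ε : ℝ} (hε : 0 < ε)
    (u : ℂ) (z : ℂ) (hzu : z = u + u⁻¹) (hz : 0 < z.im) (β : ℝ) (hn : 0 < n) :
    ε * ∫ g : Pairs n → ℝ, Ph ε 1 β g * ‖th u z β g‖ ^ 2 ∂(disorder n) ≤
      3 * ((7 * |β| * (z.im)⁻¹ + 2 * (z.im)⁻¹ ^ 2 * (n : ℝ)⁻¹) ^ 2 * ε +
        9 * (z.im)⁻¹ ^ 4 * (n : ℝ)⁻¹ ^ 2 +
        (z.im)⁻¹ ^ 2 * ∫ g : Pairs n → ℝ, ‖mm z g - u⁻¹‖ ^ 2 ∂(disorder n)) +
      2 * (2 * |β| * (z.im)⁻¹ + 2 * (z.im)⁻¹ ^ 2 * (n : ℝ)⁻¹) * √ε := by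
  have hα : (0 : ℝ) < 1 := one_pos
  have hn' : (0 : ℝ) < n := by exact_mod_cast hn
  have hn1 : (1 : ℝ) ≤ n := by exact_mod_cast hn
  set A : ℝ := (z.im)⁻¹ with hA
  have hA0 : 0 < A := by positivity
  set D : ℝ := ‖u - β‖ with hD
  have hD0 : 0 ≤ D := norm_nonneg _
  set B : ℝ := D * A + 1 with hB
  have hB0 : 0 < B := by positivity
  set R : ℝ := 2 * |β| * A + 2 * A ^ 2 * (n : ℝ)⁻¹ with hR
  have hR0 : 0 ≤ R := by positivity
  set P : ℝ := 7 * |β| * A + 2 * A ^ 2 * (n : ℝ)⁻¹ with hP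
  have hP0 : 0 ≤ P := by positivity
  have hPR : P = 5 * |β| * A + R := by rw [hP, hR]; ring
  have hPc := continuous_Ph (n := n) hε 1 β
  have hac := continuous_aa (n := n) z hz β
  have hbc := continuous_bb (n := n) z hz β
  have hec := continuous_ee (n := n) z hz β
  have hmc := continuous_mm (n := n) z hz
  have htc := continuous_th (n := n) u z hz β
  have hεi : 0 < ε⁻¹ := inv_pos.2 hε
  have htb : ∀ g : Pairs n → ℝ, ‖th u z β g‖ ≤ B := fun g => norm_th_le u z hz β hn g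
  have hab : ∀ g : Pairs n → ℝ, ‖aa z β g‖ ≤ A := fun g =>
    norm_aa_le z β hn g hz (coer_im z g)
  have hbY : ∀ g : Pairs n → ℝ, ‖bb z β g‖ ≤ A * YY β g := fun g =>
    norm_bb_le z β g hz (coer_im z g)
  have hbb : ∀ g : Pairs n → ℝ, ‖bb z β g‖ ≤ A := fun g => by
    have h1 := hbY g
    have h2 := YY_le_one β hn g
    have h3 : A * YY β g ≤ A * 1 := mul_le_mul_of_nonneg_left h2 hA0.le
    linarith only [h3, h1]
  have heb : ∀ g : Pairs n → ℝ, ‖ee z β g‖ ≤ 3 * A ^ 2 * (n : ℝ)⁻¹ := fun g =>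
    norm_ee_le z hz β hn g
  have hmb : ∀ g : Pairs n → ℝ, ‖mm z g‖ ≤ A := fun g => norm_mm_le z hz hn g
  have hPle : ∀ g : Pairs n → ℝ, Ph ε 1 β g ≤ ε⁻¹ := fun g => (Ph_one_bounds hε β g).1
  have hPp : ∀ g : Pairs n → ℝ, 0 < Ph ε 1 β g := fun g => Ph_pos hε 1 β g
  have hPb : ∀ g : Pairs n → ℝ, ‖(Ph ε 1 β g : ℂ)‖ ≤ ε⁻¹ := by
    intro g
    rw [Complex.norm_real, Real.norm_eq_abs, abs_of_pos (hPp g)]
    exact hPle g
  have hPC : Continuous (fun g : Pairs n → ℝ => (Ph ε 1 β g : ℂ)) :=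
    Complex.continuous_ofReal.comp hPc
  -- derivative of the cutoff
  set CD : ℝ := ((n : ℝ)⁻¹) ^ 2 * (2 * (|β| / Real.sqrt n)) * ((n : ℝ) ^ 2 * 2) * 1 *
    ε ^ (-(1 : ℝ) - 1) with hCD
  have hCD0 : 0 ≤ CD := by (clear * - hn hε; positivity)
  have hDb : ∀ (i j : Fin n) (g : Pairs n → ℝ), |DPh ε 1 β i j g| ≤ CD := by
    intro i j g
    have hY := YY_nonneg β g
    unfold DPh
    rw [abs_mul, abs_mul, abs_neg, abs_one]
    have h1 : |(ε + YY β g) ^ (-(1 : ℝ) - 1)| ≤ ε ^ (-(1 : ℝ) - 1) := by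
      rw [abs_of_nonneg (Real.rpow_nonneg (by linarith only [hY, hε]) _)]
      exact Real.rpow_le_rpow_of_nonpos hε (by linarith only [hY]) (by norm_num)
    have h2 := abs_DYY_le β i j g
    refine mul_le_mul (mul_le_mul_of_nonneg_right h2 zero_le_one) h1 (abs_nonneg _)
      (by (clear * - hn; positivity))
  have hDPc : ∀ i j : Fin n, Continuous (fun g : Pairs n → ℝ => (DPh ε 1 β i j g : ℂ)) := by
    intro i j
    refine Complex.continuous_ofReal.comp ?_
    unfold DPh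
    refine ((continuous_DYY β i j).mul continuous_const).mul ?_
    refine Continuous.rpow_const (continuous_const.add (continuous_YY β)) fun g => Or.inl ?_
    have := YY_nonneg β g
    exact ne_of_gt (by linarith only [this, hε])
  -- derivative of the defect
  set CT : ℝ := ((n : ℝ) * Real.sqrt n)⁻¹ * (|β| * (2 * (A * n)) + 2 * (A * n * (A * n))) with hCT
  have hCT0 : 0 ≤ CT := by (clear * - hn hA0; positivity)
  have hTb : ∀ (i j : Fin n) (g : Pairs n → ℝ), ‖Daa z β i j g‖ ≤ CT := fun i j g =>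
    norm_Daa_le z hz β i j g
  set Ψ : (Pairs n → ℝ) → ℂ := fun g => (Ph ε 1 β g : ℂ) * (starRingEnd ℂ) (th u z β g) with hΨ
  set DΨ : Fin n → Fin n → (Pairs n → ℝ) → ℂ := fun i j g =>
    (DPh ε 1 β i j g : ℂ) * (starRingEnd ℂ) (th u z β g) +
      (Ph ε 1 β g : ℂ) * (starRingEnd ℂ) ((u - β) * Daa z β i j g) with hDΨ
  have hΨc : Continuous Ψ := hPC.mul (Complex.continuous_conj.comp htc)
  have hDΨc : ∀ i j : Fin n, Continuous (DΨ i j) := fun i j =>
    ((hDPc i j).mul (Complex.continuous_conj.comp htc)).add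
      (hPC.mul (Complex.continuous_conj.comp (continuous_const.mul (continuous_Daa z hz β i j))))
  have hΨb : ∀ g, ‖Ψ g‖ ≤ ε⁻¹ * B := by
    intro g
    simp only [hΨ, norm_mul, RCLike.norm_conj]
    exact mul_le_mul (hPb g) (htb g) (norm_nonneg _) hεi.le
  have hDΨb : ∀ i j g, ‖DΨ i j g‖ ≤ CD * B + ε⁻¹ * (D * CT) := by
    intro i j g
    simp only [hDΨ]
    refine (norm_add_le _ _).trans (add_le_add ?_ ?_)
    · rw [norm_mul, RCLike.norm_conj, Complex.norm_real, Real.norm_eq_abs]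
      exact mul_le_mul (hDb i j g) (htb g) (norm_nonneg _) hCD0
    · rw [norm_mul, RCLike.norm_conj, norm_mul]
      exact mul_le_mul (hPb g) (mul_le_mul_of_nonneg_left (hTb i j g) hD0)
        (mul_nonneg (norm_nonneg _) (norm_nonneg _)) hεi.le
  have hmain := main_ibp z hz β hn Ψ DΨ hΨc.measurable (fun i j => (hDΨc i j).measurable)
    (ε⁻¹ * B + (CD * B + ε⁻¹ * (D * CT)))
    (fun g => by
      have h1 := hΨb g
      have h2 : 0 ≤ CD * B + ε⁻¹ * (D * CT) := by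
        (clear * - hCD0 hB0 hεi hD0 hCT0; positivity)
      linarith only [h1, h2])
    (fun i j g => by
      have h1 := hDΨb i j g
      have h2 : 0 ≤ ε⁻¹ * B := by (clear * - hB0 hεi; positivity)
      linarith only [h1, h2])
    (by
      intro i j h g
      have h1 := (hasDerivAt_Ph hε 1 β g i j h).ofReal_comp
      have h2 : HasDerivAt (fun s => th u z β (Function.update g (pr i j h) s))
          ((u - β) * Daa z β i j g) (g (pr i j h)) := by
        unfold th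
        exact ((hasDerivAt_aa z hz β g i j h).const_mul _).sub_const 1
      have h2' : HasDerivAt (fun s => (starRingEnd ℂ) (th u z β (Function.update g (pr i j h) s)))
          ((starRingEnd ℂ) ((u - β) * Daa z β i j g)) (g (pr i j h)) := h2.star_conj
      have h3 := h1.fun_mul h2'
      refine h3.congr_deriv ?_
      simp only [Function.update_eq_self, hDΨ])
  -- the error
  set c : ℝ := ((n : ℝ) * Real.sqrt n)⁻¹ with hc
  set X : (Pairs n → ℝ) → ℂ := fun g => (c : ℂ) *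
      ∑ i, ∑ j, (if i = j then 0 else DΨ i j g * hh z β g i j) with hX
  have hXm : Measurable X := by
    refine measurable_const.mul ?_
    refine Finset.measurable_sum _ fun i _ => Finset.measurable_sum _ fun j _ => ?_
    by_cases hij : i = j
    · simp only [hij, if_true]; exact measurable_const
    · simp only [hij, if_false]
      exact (hDΨc i j).measurable.mul (continuous_hh z hz β i j).measurable
  have hXb : ∀ g, ‖X g‖ ≤ Ph ε 1 β g * (‖th u z β g‖ * (4 * |β| * A * √(YY β g)) +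
      (1 + ‖th u z β g‖) * (R * √(YY β g))) := by
    intro g
    have hsplit : X g = (starRingEnd ℂ) (th u z β g) * ((c : ℂ) *
        ∑ i, ∑ j, (if i = j then 0 else (DPh ε 1 β i j g : ℂ) * hh z β g i j)) +
        (Ph ε 1 β g : ℂ) * (starRingEnd ℂ) (u - β) * ((c : ℂ) *
        ∑ i, ∑ j, (if i = j then 0 else (starRingEnd ℂ) (Daa z β i j g) * hh z β g i j)) := by
      rw [hX]
      simp only [hDΨ]
      simp only [Finset.mul_sum]
      rw [← Finset.sum_add_distrib]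
      refine Finset.sum_congr rfl fun i _ => ?_
      rw [← Finset.sum_add_distrib]
      refine Finset.sum_congr rfl fun j _ => ?_
      by_cases hij : i = j
      · simp [hij]
      · simp only [hij, if_false, map_mul]
        ring
    rw [hsplit, mul_add]
    refine (norm_add_le _ _).trans (add_le_add ?_ ?_)
    · rw [norm_mul, RCLike.norm_conj]
      have h1 := norm_X_le' hε hα z hz β hn g
      calc ‖th u z β g‖ * _ ≤ ‖th u z β g‖ * ((4 * |β| * 1 * A) * (Ph ε 1 β g * √(YY β g))) :=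
            mul_le_mul_of_nonneg_left h1 (norm_nonneg _)
        _ = _ := by ring
    · rw [norm_mul, norm_mul, RCLike.norm_conj, Complex.norm_real, Real.norm_eq_abs,
        abs_of_pos (hPp g)]
      have h1 := norm_sum_Daa_hh_le z hz β hn g
      have h2 := norm_mul_aa_le u z β g
      have hsY := Real.sqrt_nonneg (YY β g)
      calc Ph ε 1 β g * D * _ ≤ Ph ε 1 β g * D * (‖aa z β g‖ * (R * √(YY β g))) :=
            mul_le_mul_of_nonneg_left h1 (mul_nonneg (hPp g).le hD0)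
        _ = Ph ε 1 β g * ((D * ‖aa z β g‖) * (R * √(YY β g))) := by ring
        _ ≤ Ph ε 1 β g * ((1 + ‖th u z β g‖) * (R * √(YY β g))) :=
            mul_le_mul_of_nonneg_left (mul_le_mul_of_nonneg_right h2 (mul_nonneg hR0 hsY))
              (hPp g).le
  set E : (Pairs n → ℝ) → ℂ := fun g => Ψ g * (-(β * bb z β g) + ee z β g +
    (mm z g - u⁻¹) * aa z β g) + X g with hE
  set W : (Pairs n → ℝ) → ℝ := fun g => Ph ε 1 β g * ‖th u z β g‖ ^ 2 / 2 +
    (3 / 2 * (P ^ 2 + 9 * A ^ 4 * (n : ℝ)⁻¹ ^ 2 * ε⁻¹) + R * (√ε)⁻¹ +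
    3 / 2 * (A ^ 2 * ε⁻¹) * ‖mm z g - u⁻¹‖ ^ 2) with hW
  have hEb : ∀ g, ‖E g‖ ≤ W g := by
    intro g
    have hP0' := (hPp g).le
    have hY0 := YY_nonneg β g
    have hY1 := YY_le_one β hn g
    have hsY := Real.sqrt_nonneg (YY β g)
    have hYY : √(YY β g) ^ 2 = YY β g := Real.sq_sqrt hY0
    set y : ℝ := √(YY β g) with hy
    set q : ℝ := ‖th u z β g‖ with hq
    set δ : ℝ := ‖mm z g - u⁻¹‖ with hδ
    have hq0 : 0 ≤ q := norm_nonneg _
    have hδ0 : 0 ≤ δ := norm_nonneg _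
    have hYle : YY β g ≤ y := by
      rw [← hYY, sq]
      have hy1 : y ≤ 1 := by
        rw [hy]; exact Real.sqrt_le_one.2 hY1
      exact mul_le_of_le_one_left hsY hy1
    obtain ⟨hB1, hB2, hB3⟩ := Ph_one_bounds hε β g
    set p : ℝ := Ph ε 1 β g with hp
    have hPsi : ‖Ψ g‖ = p * q := by
      simp only [hΨ, norm_mul, RCLike.norm_conj, Complex.norm_real, Real.norm_eq_abs,
        abs_of_pos (hPp g)]
      rfl
    have hin : ‖-(β * bb z β g) + ee z β g + (mm z g - u⁻¹) * aa z β g‖ ≤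
        |β| * (A * y) + 3 * A ^ 2 * (n : ℝ)⁻¹ + δ * A := by
      refine (norm_add_le _ _).trans (add_le_add ((norm_add_le _ _).trans
        (add_le_add ?_ (heb g))) ?_)
      · rw [norm_neg, norm_mul, Complex.norm_real, Real.norm_eq_abs]
        refine mul_le_mul_of_nonneg_left ((hbY g).trans ?_) (abs_nonneg _)
        exact mul_le_mul_of_nonneg_left hYle hA0.le
      · rw [norm_mul]
        exact mul_le_mul_of_nonneg_left (hab g) hδ0
    have h1 : ‖Ψ g * (-(β * bb z β g) + ee z β g + (mm z g - u⁻¹) * aa z β g)‖ ≤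
        p * (q * (|β| * (A * y) + 3 * A ^ 2 * (n : ℝ)⁻¹ + δ * A)) := by
      rw [norm_mul, hPsi, mul_assoc]
      exact mul_le_mul_of_nonneg_left (mul_le_mul_of_nonneg_left hin hq0) hP0'
    have h2 := hXb g
    have h3 : ‖E g‖ ≤ p * (q * (P * y + 3 * A ^ 2 * (n : ℝ)⁻¹ + δ * A)) + R * (p * y) := by
      refine ((norm_add_le _ _).trans (add_le_add h1 h2)).trans (le_of_eq ?_)
      rw [hPR]
      ring
    have h4 : q * (P * y + 3 * A ^ 2 * (n : ℝ)⁻¹ + δ * A) ≤ q ^ 2 / 2 +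
        3 / 2 * (P ^ 2 * YY β g + 9 * A ^ 4 * (n : ℝ)⁻¹ ^ 2 + A ^ 2 * δ ^ 2) := by
      rw [← hYY]
      set w1 : ℝ := P * y with hw1
      set w2 : ℝ := 3 * A ^ 2 * (n : ℝ)⁻¹ with hw2
      set w3 : ℝ := δ * A with hw3
      have e1 : P ^ 2 * y ^ 2 + 9 * A ^ 4 * (n : ℝ)⁻¹ ^ 2 + A ^ 2 * δ ^ 2 =
          w1 ^ 2 + w2 ^ 2 + w3 ^ 2 := by
        rw [hw1, hw2, hw3]; ring
      rw [e1]
      nlinarith only [sq_nonneg (q - (w1 + w2 + w3)), sq_nonneg (w1 - w2), sq_nonneg (w1 - w3),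
        sq_nonneg (w2 - w3)]
    have h5 : p * (q * (P * y + 3 * A ^ 2 * (n : ℝ)⁻¹ + δ * A)) ≤ p * q ^ 2 / 2 +
        3 / 2 * (P ^ 2 * (p * YY β g) + 9 * A ^ 4 * (n : ℝ)⁻¹ ^ 2 * p + A ^ 2 * δ ^ 2 * p) := by
      refine (mul_le_mul_of_nonneg_left h4 hP0').trans (le_of_eq ?_)
      ring
    have h6 : P ^ 2 * (p * YY β g) ≤ P ^ 2 * 1 := mul_le_mul_of_nonneg_left hB2 (sq_nonneg _)
    have h7 : 9 * A ^ 4 * (n : ℝ)⁻¹ ^ 2 * p ≤ 9 * A ^ 4 * (n : ℝ)⁻¹ ^ 2 * ε⁻¹ :=
      mul_le_mul_of_nonneg_left hB1 (by (clear * - hA0 hn'; positivity))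
    have h8 : A ^ 2 * δ ^ 2 * p ≤ A ^ 2 * δ ^ 2 * ε⁻¹ :=
      mul_le_mul_of_nonneg_left hB1 (by (clear * - hA0; positivity))
    have h9 : R * (p * y) ≤ R * (√ε)⁻¹ := mul_le_mul_of_nonneg_left hB3 hR0
    have e2 : W g = p * q ^ 2 / 2 + (3 / 2 * (P ^ 2 + 9 * A ^ 4 * (n : ℝ)⁻¹ ^ 2 * ε⁻¹) +
        R * (√ε)⁻¹ + 3 / 2 * (A ^ 2 * ε⁻¹) * δ ^ 2) := rfl
    rw [e2]
    linarith only [h3, h5, h6, h7, h8, h9]
  -- integrability
  have hI1 : Integrable (fun g : Pairs n → ℝ => Ψ g * (z * aa z β g - 1)) (disorder n) := by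
    refine integrable_of_bdd (hΨc.mul ((continuous_const.mul hac).sub continuous_const)).measurable
      (ε⁻¹ * B * (‖z‖ * A + 1)) fun g => ?_
    rw [norm_mul]
    refine mul_le_mul (hΨb g) ?_ (norm_nonneg _) (by (clear * - hεi hB0; positivity))
    refine (norm_sub_le _ _).trans (add_le_add ?_ (by simp))
    rw [norm_mul]
    exact mul_le_mul_of_nonneg_left (hab g) (norm_nonneg _)
  have hDΨhh : ∀ g, ‖X g‖ ≤ ‖(c : ℂ)‖ * ((n : ℝ) * ((n : ℝ) *
      ((CD * B + ε⁻¹ * (D * CT)) * (A * n)))) := by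
    intro g
    simp only [hX]
    rw [norm_mul]
    refine mul_le_mul_of_nonneg_left ?_ (norm_nonneg _)
    have hK0 : 0 ≤ (CD * B + ε⁻¹ * (D * CT)) * (A * n) := by
      (clear * - hCD0 hB0 hεi hD0 hCT0 hA0; positivity)
    refine (norm_sum_le _ _).trans ?_
    refine (Finset.sum_le_card_nsmul _ _ ((n : ℝ) *
      ((CD * B + ε⁻¹ * (D * CT)) * (A * n))) fun i _ => ?_).trans (by simp)
    refine (norm_sum_le _ _).trans ?_
    refine (Finset.sum_le_card_nsmul _ _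
      ((CD * B + ε⁻¹ * (D * CT)) * (A * n)) fun j _ => ?_).trans (by simp)
    by_cases hij : i = j
    · simp only [hij, if_true, norm_zero]; exact hK0
    · simp only [hij, if_false]
      rw [norm_mul]
      exact mul_le_mul (hDΨb i j g) (norm_hh_le z hz β g i j) (norm_nonneg _)
        (by (clear * - hCD0 hB0 hεi hD0 hCT0; positivity))
  have hI2 : Integrable (fun g : Pairs n → ℝ => Ψ g * (mm z g * aa z β g +
      β * aa z β g - β * bb z β g + ee z β g) + X g) (disorder n) := by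
    refine integrable_of_bdd ((hΨc.mul ((((hmc.mul hac).add (continuous_const.mul hac)).sub
      (continuous_const.mul hbc)).add hec)).measurable.add hXm)
      (ε⁻¹ * B * (A * A + |β| * A + |β| * A + 3 * A ^ 2 * (n : ℝ)⁻¹) +
        ‖(c : ℂ)‖ * ((n : ℝ) * ((n : ℝ) * ((CD * B + ε⁻¹ * (D * CT)) * (A * n)))))
      fun g => ?_
    refine (norm_add_le _ _).trans (add_le_add ?_ (hDΨhh g))
    rw [norm_mul]
    refine mul_le_mul (hΨb g) ?_ (norm_nonneg _) (by (clear * - hεi hB0; positivity))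
    refine (norm_add_le _ _).trans (add_le_add ?_ (heb g))
    refine (norm_sub_le _ _).trans (add_le_add ?_ ?_)
    · refine (norm_add_le _ _).trans (add_le_add ?_ ?_)
      · rw [norm_mul]
        exact mul_le_mul (hmb g) (hab g) (norm_nonneg _) (by positivity)
      · rw [norm_mul, Complex.norm_real, Real.norm_eq_abs]
        exact mul_le_mul_of_nonneg_left (hab g) (abs_nonneg _)
    · rw [norm_mul, Complex.norm_real, Real.norm_eq_abs]
      exact mul_le_mul_of_nonneg_left (hbb g) (abs_nonneg _)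
  have hImm : Integrable (fun g : Pairs n → ℝ => ‖mm z g - u⁻¹‖ ^ 2) (disorder n) := by
    refine Integrable.of_bound ((hmc.sub continuous_const).norm.pow
      2).measurable.aestronglyMeasurable
      ((A + ‖u⁻¹‖) ^ 2) (Eventually.of_forall fun g => ?_)
    rw [Real.norm_eq_abs, abs_of_nonneg (by positivity)]
    exact pow_le_pow_left₀ (norm_nonneg _)
      ((norm_sub_le _ _).trans (add_le_add (norm_mm_le z hz hn g) le_rfl)) 2
  have hIth : Integrable (fun g : Pairs n → ℝ => Ph ε 1 β g * ‖th u z β g‖ ^ 2)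
      (disorder n) := by
    refine Integrable.of_bound (hPc.mul (htc.norm.pow 2)).measurable.aestronglyMeasurable
      (ε⁻¹ * B ^ 2) (Eventually.of_forall fun g => ?_)
    rw [Real.norm_eq_abs, abs_of_nonneg (mul_nonneg (hPp g).le (sq_nonneg _))]
    exact mul_le_mul (hPle g)
      (pow_le_pow_left₀ (norm_nonneg _) (htb g) 2) (sq_nonneg _) hεi.le
  have hIW2 : Integrable (fun g : Pairs n → ℝ =>
      3 / 2 * (P ^ 2 + 9 * A ^ 4 * (n : ℝ)⁻¹ ^ 2 * ε⁻¹) + R * (√ε)⁻¹ +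
      3 / 2 * (A ^ 2 * ε⁻¹) * ‖mm z g - u⁻¹‖ ^ 2) (disorder n) :=
    (integrable_const _).add (hImm.const_mul _)
  have hIW : Integrable W (disorder n) := (hIth.div_const 2).add hIW2
  have hEm : Measurable E := (hΨc.mul (((continuous_const.mul hbc).neg.add hec).add
    ((hmc.sub continuous_const).mul hac))).measurable.add hXm
  have hIE : Integrable E (disorder n) :=
    hIW.mono' hEm.aestronglyMeasurable (Eventually.of_forall hEb)
  -- the identity
  have hkey : ∫ g : Pairs n → ℝ, ((Ph ε 1 β g * ‖th u z β g‖ ^ 2 : ℝ) : ℂ) ∂(disorder n) =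
      ∫ g, E g ∂(disorder n) := by
    have h1 : ∀ g : Pairs n → ℝ, ((Ph ε 1 β g * ‖th u z β g‖ ^ 2 : ℝ) : ℂ) =
        (Ψ g * (z * aa z β g - 1) - (Ψ g * (mm z g * aa z β g + β * aa z β g - β * bb z β g +
          ee z β g) + X g)) + E g := by
      intro g
      have h2 : ((Ph ε 1 β g * ‖th u z β g‖ ^ 2 : ℝ) : ℂ) = Ψ g * th u z β g := by
        push_cast
        rw [← Complex.conj_mul']
        simp only [hΨ]
        ring
      rw [h2]
      simp only [hE]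
      have h3 : th u z β g = (z * aa z β g - 1) - (mm z g * aa z β g + β * aa z β g) +
          (mm z g - u⁻¹) * aa z β g := by
        unfold th
        rw [hzu]
        ring
      conv_lhs => rw [h3]
      ring
    simp only [h1]
    have hI12 : Integrable (fun g : Pairs n → ℝ => Ψ g * (z * aa z β g - 1) -
        (Ψ g * (mm z g * aa z β g + β * aa z β g - β * bb z β g + ee z β g) + X g))
        (disorder n) := hI1.sub hI2
    rw [integral_add hI12 hIE, integral_sub hI1 hI2, hmain, sub_self, zero_add]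
  rw [integral_complex_ofReal] at hkey
  set I0 : ℝ := ∫ g : Pairs n → ℝ, Ph ε 1 β g * ‖th u z β g‖ ^ 2 ∂(disorder n) with hI0
  set I1 : ℝ := ∫ g : Pairs n → ℝ, ‖mm z g - u⁻¹‖ ^ 2 ∂(disorder n) with hI1'
  have h3 : |I0| = ‖∫ g, E g ∂(disorder n)‖ := by
    rw [← hkey, Complex.norm_real, Real.norm_eq_abs]
  have h4 := norm_integral_le_of_norm_le hIW (Eventually.of_forall hEb)
  have hIW' : ∫ g, W g ∂(disorder n) = I0 / 2 +
      (3 / 2 * (P ^ 2 + 9 * A ^ 4 * (n : ℝ)⁻¹ ^ 2 * ε⁻¹) + R * (√ε)⁻¹ +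
      3 / 2 * (A ^ 2 * ε⁻¹) * I1) := by
    simp only [hW]
    rw [integral_add (hIth.div_const 2) hIW2,
      integral_add (integrable_const _) (hImm.const_mul _), integral_const_mul, integral_const,
      integral_div]
    simp only [probReal_univ, one_smul]
    rfl
  rw [hIW'] at h4
  have h5 := le_abs_self I0
  rw [h3] at h5
  have h6 : I0 ≤ 2 * (3 / 2 * (P ^ 2 + 9 * A ^ 4 * (n : ℝ)⁻¹ ^ 2 * ε⁻¹) + R * (√ε)⁻¹ +
      3 / 2 * (A ^ 2 * ε⁻¹) * I1) := by
    linarith only [h4, h5]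
  have hs : 0 < √ε := Real.sqrt_pos.2 hε
  have e3 : ε * (√ε)⁻¹ = √ε := by
    have : √ε * √ε = ε := Real.mul_self_sqrt hε.le
    rw [← div_eq_mul_inv, div_eq_iff hs.ne', this]
  have e4 : ε * ε⁻¹ = 1 := mul_inv_cancel₀ hε.ne'
  calc ε * I0 ≤ ε * (2 * (3 / 2 * (P ^ 2 + 9 * A ^ 4 * (n : ℝ)⁻¹ ^ 2 * ε⁻¹) + R * (√ε)⁻¹ +
        3 / 2 * (A ^ 2 * ε⁻¹) * I1)) := mul_le_mul_of_nonneg_left h6 hε.le
    _ = 3 * (P ^ 2 * ε + 9 * A ^ 4 * (n : ℝ)⁻¹ ^ 2 * (ε * ε⁻¹) + A ^ 2 * I1 * (ε * ε⁻¹)) +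
        2 * R * (ε * (√ε)⁻¹) := by ring
    _ = _ := by rw [e3, e4]; ring

end Vale.Agent.P150.H185.Crit
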