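import Mathlib
import Vale.Agent.P150.H185.CritIneq
import Vale.Agent.P150.Bdl.B19
import Vale.Agent.P150.Bdl.B3

/-! A spectral gap bounded below forces the resolvent trace against the covariance matrix to be
small, which contradicts a small defect. -/

open MeasureTheory ProbabilityTheory Filter Topology

namespace Vale.Agent.P150.H185.Crit

open Vale.Agent.P150.Cav

variable {n : ℕ}

lemma skJ_symm (β : ℝ) (g : Pairs n → ℝ) (i j : Fin n) : skJ β g i j = skJ β g j i := by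
  unfold skJ
  rw [gsym_symm]

lemma cov_gap {β : ℝ} {g : Pairs n → ℝ} {γ : ℝ} (hγ : 0 < γ)
    (hg : γ ≤ gap (skJ β g) (fun _ => 0)) (v : Fin n → ℝ) :
    ∑ x : Cfg n, pw β g x * (∑ l, v l * sp (x l)) ^ 2 ≤ γ⁻¹ * ∑ l, v l ^ 2 := by
  have hJs := skJ_symm β g
  have h : ∀ f : Cfg n → ℝ, γ * var (skJ β g) (fun _ => 0) f ≤ dir (skJ β g) (fun _ => 0) f f := by
    intro f
    have h1 := Semi.gap_mul_var_le (fun _ => 0) hJs f
    have h2 := mul_le_mul_of_nonneg_right hg (Poinc.var_nonneg (skJ β g) (fun _ => 0) f)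
    exact h2.trans h1
  have h1 := cov_le hJs hγ h v
  have hmean : ex (skJ β g) (fun _ => 0) (fun x => ∑ i, v i * sp (x i)) = 0 := by
    have : ex (skJ β g) (fun _ => 0) (fun x => ∑ i, v i * sp (x i)) =
        ∑ j, v j * ex (skJ β g) (fun _ => 0) (fun x => sp (x j)) := by
      unfold ex
      simp only [Finset.mul_sum]
      rw [Finset.sum_comm]
      exact Finset.sum_congr rfl fun j _ => Finset.sum_congr rfl fun x _ => by ring
    rw [this]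
    simp [Poinc.ex_sp_zero]
  rw [Poinc.var_eq, hmean] at h1
  have e : ex (skJ β g) (fun _ => 0) (fun x => (∑ i, v i * sp (x i)) ^ 2) =
      ∑ x : Cfg n, pw β g x * (∑ l, v l * sp (x l)) ^ 2 := rfl
  rw [e] at h1
  linarith only [h1]

lemma cov_gapC {β : ℝ} {g : Pairs n → ℝ} {γ : ℝ} (hγ : 0 < γ)
    (hg : γ ≤ gap (skJ β g) (fun _ => 0)) (w : Fin n → ℂ) :
    ∑ x : Cfg n, pw β g x * ‖∑ l, w l * (sp (x l) : ℂ)‖ ^ 2 ≤ γ⁻¹ * ∑ l, ‖w l‖ ^ 2 := by
  have h1 := cov_gap hγ hg (fun l => (w l).re)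
  have h2 := cov_gap hγ hg (fun l => (w l).im)
  have e1 : ∀ x : Cfg n, ‖∑ l, w l * (sp (x l) : ℂ)‖ ^ 2 =
      (∑ l, (w l).re * sp (x l)) ^ 2 + (∑ l, (w l).im * sp (x l)) ^ 2 := by
    intro x
    rw [Complex.sq_norm, Complex.normSq_apply, Complex.re_sum, Complex.im_sum, sq, sq]
    simp only [Complex.mul_re, Complex.mul_im, Complex.ofReal_re, Complex.ofReal_im, mul_zero,
      sub_zero, zero_add]
  have e2 : ∀ l, ‖w l‖ ^ 2 = (w l).re ^ 2 + (w l).im ^ 2 := by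
    intro l
    rw [Complex.sq_norm, Complex.normSq_apply]; ring
  simp only [e1, e2, mul_add, Finset.sum_add_distrib]
  exact add_le_add h1 h2

/-- a gap bounded below by `γ` gives `M ≤ γ⁻¹` on linear functions -/
lemma neg_im_aa_le (z : ℂ) (hz : 0 < z.im) {β : ℝ} {g : Pairs n → ℝ} {γ : ℝ} (hγ : 0 < γ)
    (hg : γ ≤ gap (skJ β g) (fun _ => 0)) : -(aa z β g).im ≤ γ⁻¹ * -(mm z g).im := by
  rw [neg_im_aa z hz, neg_im_mm z hz]
  have h1 : ∑ x : Cfg n, pw β g x * nsq (Gx z g x) ≤ γ⁻¹ * ∑ l, ∑ k, ‖Gm z g l k‖ ^ 2 := by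
    unfold nsq
    have e1 : ∑ x : Cfg n, pw β g x * ∑ i, ‖Gx z g x i‖ ^ 2 =
        ∑ i, ∑ x : Cfg n, pw β g x * ‖Gx z g x i‖ ^ 2 := by
      simp only [Finset.mul_sum]
      exact Finset.sum_comm
    rw [e1, Finset.mul_sum]
    exact Finset.sum_le_sum fun i _ => cov_gapC hγ hg (Gm z g i)
  calc z.im * ((n : ℝ)⁻¹ * ∑ x : Cfg n, pw β g x * nsq (Gx z g x))
      ≤ z.im * ((n : ℝ)⁻¹ * (γ⁻¹ * ∑ l, ∑ k, ‖Gm z g l k‖ ^ 2)) :=
        mul_le_mul_of_nonneg_left (mul_le_mul_of_nonneg_left h1 (by positivity)) hz.le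
    _ = _ := by ring

/-- If the gap is at least `γ`, the defect is bounded below. -/
theorem defect_lower (u z : ℂ) (hu : 0 < u.im) (hz : 0 < z.im) {β : ℝ} {g : Pairs n → ℝ} {γ : ℝ}
    (hγ : 0 < γ) (hg : γ ≤ gap (skJ β g) (fun _ => 0)) :
    ‖u - β‖ * (u.im / ‖u - β‖ ^ 2 - γ⁻¹ * (u.im / ‖u‖ ^ 2) - γ⁻¹ * ‖mm z g - u⁻¹‖) ≤
      ‖th u z β g‖ := by
  have him : (u - (β : ℂ)).im = u.im := by simp
  have hne : u - (β : ℂ) ≠ 0 := by
    intro h
    have := congrArg Complex.im h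
    rw [him] at this
    simp only [Complex.zero_im] at this
    exact hu.ne' this
  have hD : 0 < ‖u - (β : ℂ)‖ := norm_pos_iff.2 hne
  have h1 := neg_im_aa_le z hz hγ hg
  have h2 : -(mm z g).im ≤ u.im / ‖u‖ ^ 2 + ‖mm z g - u⁻¹‖ := by
    have h3 := Complex.abs_im_le_norm (mm z g - u⁻¹)
    have h4 := neg_abs_le (mm z g - u⁻¹).im
    have h5 : (u⁻¹).im = -(u.im / ‖u‖ ^ 2) := by
      rw [Complex.inv_im, Complex.sq_norm, neg_div]
    rw [Complex.sub_im, h5] at h4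
    rw [Complex.sub_im, h5] at h3
    linarith only [h3, h4]
  have h3 : u.im / ‖u - β‖ ^ 2 - ‖th u z β g‖ / ‖u - β‖ ≤ -(aa z β g).im := by
    have e1 : aa z β g = (u - (β : ℂ))⁻¹ + th u z β g * (u - (β : ℂ))⁻¹ := by
      unfold th
      field_simp
      ring
    have h5 : ((u - (β : ℂ))⁻¹).im = -(u.im / ‖u - β‖ ^ 2) := by
      rw [Complex.inv_im, Complex.sq_norm, neg_div, him]
    have h6 := Complex.abs_im_le_norm (th u z β g * (u - (β : ℂ))⁻¹)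
    have h8 : ‖th u z β g * (u - (β : ℂ))⁻¹‖ = ‖th u z β g‖ / ‖u - β‖ := by
      rw [norm_mul, norm_inv, div_eq_mul_inv]
    rw [h8] at h6
    have h7 := le_abs_self (th u z β g * (u - (β : ℂ))⁻¹).im
    have e2 : (aa z β g).im = -(u.im / ‖u - β‖ ^ 2) + (th u z β g * (u - (β : ℂ))⁻¹).im := by
      conv_lhs => rw [e1]
      rw [Complex.add_im, h5]
    rw [e2]
    linarith only [h6, h7]
  have h4 := mul_le_mul_of_nonneg_left h2 (inv_nonneg.2 hγ.le)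
  have h5 : u.im / ‖u - β‖ ^ 2 - γ⁻¹ * (u.im / ‖u‖ ^ 2) - γ⁻¹ * ‖mm z g - u⁻¹‖ ≤
      ‖th u z β g‖ / ‖u - β‖ := by
    linarith only [h1, h3, h4]
  rw [le_div_iff₀ hD] at h5
  linarith only [h5]

end Vale.Agent.P150.H185.Crit
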