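import Mathlib
import Vale.Agent.P150.H185.CritWard

/-! Local semicircle law in mean square: `E |m - u⁻¹|² ≤ 64 / (n Im z)²`. -/

open MeasureTheory ProbabilityTheory Filter Topology
open scoped Matrix

namespace Vale.Agent.P150.H185.Crit

open Vale.Agent.P150.Cav

variable {n : ℕ}

lemma norm_mm_sub_le (u : ℂ) (hu : 0 < u.im) (z : ℂ) (hzu : z = u + u⁻¹) (hz : 0 < z.im)
    (g : Pairs n → ℝ) : ‖mm z g - u⁻¹‖ * u.im ≤ ‖QQ z g‖ := by
  have hu0 : u ≠ 0 := by
    intro h; rw [h] at hu; simp at hu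
  have e1 : (mm z g - u⁻¹) * (mm z g - u) = -QQ z g := by
    unfold QQ
    rw [hzu]
    field_simp
    ring
  have e2 : u.im ≤ ‖mm z g - u‖ := by
    have h3 := Complex.abs_im_le_norm (mm z g - u)
    have h4 := mm_im_nonpos z hz g
    rw [Complex.sub_im] at h3
    have h5 := neg_abs_le ((mm z g).im - u.im)
    linarith only [h3, h4, h5]
  have e3 : ‖mm z g - u⁻¹‖ * ‖mm z g - u‖ = ‖QQ z g‖ := by
    rw [← norm_mul, e1, norm_neg]
  rw [← e3]
  exact mul_le_mul_of_nonneg_left e2 (norm_nonneg _)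

lemma neg_im_mm_le (u : ℂ) (hu : 0 < u.im) (hu1 : 1 ≤ ‖u‖) (z : ℂ) (hzu : z = u + u⁻¹)
    (hz : 0 < z.im) (g : Pairs n → ℝ) : -(mm z g).im ≤ u.im + ‖QQ z g‖ / u.im := by
  have h1 := norm_mm_sub_le u hu z hzu hz g
  rw [← le_div_iff₀ hu] at h1
  have h3 := Complex.abs_im_le_norm (mm z g - u⁻¹)
  have h4 := neg_abs_le (mm z g - u⁻¹).im
  have h5 : (u⁻¹).im = -(u.im / ‖u‖ ^ 2) := by
    rw [Complex.inv_im, Complex.sq_norm, neg_div]
  rw [Complex.sub_im, h5] at h4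
  rw [Complex.sub_im, h5] at h3
  have h6 : u.im / ‖u‖ ^ 2 ≤ u.im := div_le_self hu.le (one_le_pow₀ hu1)
  linarith only [h3, h4, h1, h6]

lemma norm_ee_zero_le (z : ℂ) (hz : 0 < z.im) (hn : 0 < n) (g : Pairs n → ℝ) :
    ‖ee z 0 g‖ ≤ 3 * ((z.im)⁻¹ * (n : ℝ)⁻¹) * -(mm z g).im := by
  have hn' : (0 : ℝ) < n := by exact_mod_cast hn
  have hF := frob_eq z hz hn g
  set F : ℝ := ∑ l, ∑ k, ‖Gm z g l k‖ ^ 2 with hFdef
  have h1 : ‖∑ x : Cfg n, (pw 0 g x : ℂ) * ∑ j, Gx z g x j ^ 2‖ ≤ F := by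
    have h2 : ‖∑ x : Cfg n, (pw 0 g x : ℂ) * ∑ j, Gx z g x j ^ 2‖ ≤
        ∑ x : Cfg n, pw 0 g x * nsq (Gx z g x) := by
      refine (norm_sum_le _ _).trans (Finset.sum_le_sum fun x _ => ?_)
      rw [norm_mul, norm_pw]
      refine mul_le_mul_of_nonneg_left ?_ (pw_pos 0 g x).le
      refine (norm_sum_le _ _).trans (le_of_eq ?_)
      unfold nsq
      exact Finset.sum_congr rfl fun j _ => norm_pow _ _
    refine h2.trans (le_of_eq ?_)
    have h3 := neg_im_aa z hz 0 g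
    rw [aa_zero] at h3
    rw [hF, h3]
    field_simp
  have h2 : ‖2 * ∑ i, Gm z g i i * hh z 0 g i i‖ ≤ 2 * F := by
    rw [norm_mul]
    simp only [Complex.norm_ofNat]
    refine mul_le_mul_of_nonneg_left ?_ (by norm_num)
    refine (norm_sum_le _ _).trans ?_
    rw [hFdef]
    refine Finset.sum_le_sum fun i _ => ?_
    rw [norm_mul, hh_zero, ← sq]
    exact Finset.single_le_sum (f := fun k => ‖Gm z g i k‖ ^ 2) (fun k _ => sq_nonneg _)
      (Finset.mem_univ i)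
  unfold ee
  rw [norm_mul]
  have h4 : ‖((n : ℂ)⁻¹) ^ 2‖ = ((n : ℝ)⁻¹) ^ 2 := by simp
  rw [h4]
  have h5 := (norm_sub_le (∑ x : Cfg n, (pw 0 g x : ℂ) * ∑ j, Gx z g x j ^ 2)
    (2 * ∑ i, Gm z g i i * hh z 0 g i i)).trans (add_le_add h1 h2)
  calc ((n : ℝ)⁻¹) ^ 2 * _ ≤ ((n : ℝ)⁻¹) ^ 2 * (F + 2 * F) :=
        mul_le_mul_of_nonneg_left h5 (by positivity)
    _ = _ := by rw [hF]; field_simp; ring

/-- the derivative term of the semicircle identity -/
lemma norm_sum_Dmm_le (z : ℂ) (hz : 0 < z.im) (hn : 0 < n) (g : Pairs n → ℝ) :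
    ∑ i, ∑ j, ‖Dmm z i j g‖ * ‖Gm z g j i‖ ≤
      ((n : ℝ) * Real.sqrt n)⁻¹ * (2 * ((z.im)⁻¹ * (n * ((z.im)⁻¹ * -(mm z g).im)))) := by
  have hn' : (0 : ℝ) < n := by exact_mod_cast hn
  set η : ℝ := (z.im)⁻¹ with hη
  have hη0 : 0 < η := by positivity
  set c : ℝ := ((n : ℝ) * Real.sqrt n)⁻¹ with hc
  have hc0 : 0 ≤ c := by positivity
  have hF := frob_eq z hz hn g
  set F : ℝ := ∑ l, ∑ k, ‖Gm z g l k‖ ^ 2 with hFdef
  rw [← hη] at hF
  rw [← hF]
  set H : Fin n → Fin n → ℂ := fun i j =>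
    (Gm z g).mulVec ((Gm z g).mulVec (Pi.single i 1)) j with hH
  have hHF : ∑ i, ∑ j, ‖H i j‖ ^ 2 ≤ η ^ 2 * F := by
    rw [hFdef, Finset.sum_comm (f := fun l k => ‖Gm z g l k‖ ^ 2), Finset.mul_sum]
    refine Finset.sum_le_sum fun i _ => ?_
    have h1 := (coer_im z g).nsq_inv_le hz ((Gm z g).mulVec (Pi.single i 1))
    refine h1.trans (le_of_eq ?_)
    congr 1
    unfold nsq
    refine Finset.sum_congr rfl fun k _ => ?_
    rw [Matrix.mulVec_single_one]
    rfl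
  have hpt : ∀ i j, ‖Dmm z i j g‖ * ‖Gm z g j i‖ ≤ c * ((η⁻¹ * ‖H i j‖ ^ 2 + η⁻¹ * ‖H j i‖ ^ 2) / 2
      + η * ‖Gm z g j i‖ ^ 2) := by
    intro i j
    have h1 : ‖Dmm z i j g‖ ≤ c * (‖H i j‖ + ‖H j i‖) := by
      rw [Dmm_eq, norm_mul, Complex.norm_real, Real.norm_eq_abs, abs_of_nonneg hc0]
      exact mul_le_mul_of_nonneg_left (norm_add_le _ _) hc0
    have h2 : ∀ a b : ℝ, a * b ≤ (η⁻¹ * a ^ 2 + η * b ^ 2) / 2 := by
      intro a b
      have h3 : 0 ≤ η⁻¹ * (a - η * b) ^ 2 := by positivity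
      have h4 : η⁻¹ * (a - η * b) ^ 2 = η⁻¹ * a ^ 2 - 2 * (a * b) + η * b ^ 2 := by
        field_simp
        ring
      linarith only [h3, h4]
    have h5 := h2 ‖H i j‖ ‖Gm z g j i‖
    have h6 := h2 ‖H j i‖ ‖Gm z g j i‖
    calc ‖Dmm z i j g‖ * ‖Gm z g j i‖ ≤ c * (‖H i j‖ + ‖H j i‖) * ‖Gm z g j i‖ :=
          mul_le_mul_of_nonneg_right h1 (norm_nonneg _)
      _ = c * (‖H i j‖ * ‖Gm z g j i‖ + ‖H j i‖ * ‖Gm z g j i‖) := by ring
      _ ≤ _ := mul_le_mul_of_nonneg_left (by linarith only [h5, h6]) hc0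
  refine (Finset.sum_le_sum fun i _ => Finset.sum_le_sum fun j _ => hpt i j).trans ?_
  have e1 : ∑ i, ∑ j, c * ((η⁻¹ * ‖H i j‖ ^ 2 + η⁻¹ * ‖H j i‖ ^ 2) / 2 + η * ‖Gm z g j i‖ ^ 2)
      = c * (η⁻¹ * ∑ i, ∑ j, ‖H i j‖ ^ 2 + η * F) := by
    have e2 : ∑ i, ∑ j, ‖H j i‖ ^ 2 = ∑ i, ∑ j, ‖H i j‖ ^ 2 := Finset.sum_comm
    have e3 : ∑ i, ∑ j, ‖Gm z g j i‖ ^ 2 = F := Finset.sum_comm
    have e4 : ∀ i j, c * ((η⁻¹ * ‖H i j‖ ^ 2 + η⁻¹ * ‖H j i‖ ^ 2) / 2 + η * ‖Gm z g j i‖ ^ 2)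
        = (c * η⁻¹ / 2) * ‖H i j‖ ^ 2 + (c * η⁻¹ / 2) * ‖H j i‖ ^ 2 +
          (c * η) * ‖Gm z g j i‖ ^ 2 := fun i j => by ring
    simp only [e4, Finset.sum_add_distrib, ← Finset.mul_sum]
    rw [e2, e3]
    ring
  rw [e1]
  refine mul_le_mul_of_nonneg_left ?_ hc0
  have h7 : η⁻¹ * ∑ i, ∑ j, ‖H i j‖ ^ 2 ≤ η * F := by
    calc η⁻¹ * ∑ i, ∑ j, ‖H i j‖ ^ 2 ≤ η⁻¹ * (η ^ 2 * F) :=
          mul_le_mul_of_nonneg_left hHF (by positivity)
      _ = η * F := by field_simp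
  linarith only [h7]

/-- Local semicircle law in mean square. -/
theorem local_law (u : ℂ) (hu : 0 < u.im) (hu1 : 1 ≤ ‖u‖) (hus : ‖u - u⁻¹‖ ≤ 4 * u.im) (z : ℂ)
    (hzu : z = u + u⁻¹) (hz : 0 < z.im) (hn : 0 < n)
    (hbig : 24 * ((z.im)⁻¹ * (n : ℝ)⁻¹) ≤ u.im) :
    ∫ g : Pairs n → ℝ, ‖mm z g - u⁻¹‖ ^ 2 ∂(disorder n) ≤
      64 * ((z.im)⁻¹ * (n : ℝ)⁻¹) ^ 2 := by
  set η := (z.im)⁻¹ with hη
  have hη0 : 0 < η := by positivity
  set t : ℝ := u.im with ht
  have hn' : (0 : ℝ) < n := by exact_mod_cast hn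
  set a : ℝ := η * (n : ℝ)⁻¹ with ha
  have ha0 : 0 < a := by positivity
  set CQ : ℝ := ‖z‖ * η + 1 + η ^ 2 with hCQ
  have hCQ0 : 0 ≤ CQ := by positivity
  have hcm := continuous_mm (n := n) z hz
  set DΨ : Fin n → Fin n → (Pairs n → ℝ) → ℂ := fun i j g =>
    (starRingEnd ℂ) ((z - 2 * mm z g) * Dmm z i j g) with hDΨ
  have hDmm_m : ∀ i j : Fin n, Measurable (Dmm z i j) := by
    intro i j
    have : Continuous (Dmm (n := n) z i j) := continuous_const.mul (continuous_finsetSum _ fun k _ =>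
      continuous_const.mul (((continuous_Gm z hz k i).mul (continuous_Gm z hz j k)).add
        ((continuous_Gm z hz k j).mul (continuous_Gm z hz i k))))
    exact this.measurable
  have hzm : ∀ g : Pairs n → ℝ, ‖z - 2 * mm z g‖ ≤ ‖z‖ + 2 * η := by
    intro g
    refine (norm_sub_le _ _).trans ?_
    rw [norm_mul]
    have := norm_mm_le z hz hn g
    simp only [Complex.norm_ofNat]
    linarith only [this]
  have hDb : ∀ i j g, ‖DΨ i j g‖ ≤ (‖z‖ + 2 * η) * (((n : ℝ) * Real.sqrt n)⁻¹ * (2 * η ^ 2)) := by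
    intro i j g
    simp only [hDΨ, RCLike.norm_conj, norm_mul]
    exact mul_le_mul (hzm g) (norm_Dmm_le z hz i j g) (norm_nonneg _) (by positivity)
  set CC : ℝ := CQ + (‖z‖ + 2 * η) * (((n : ℝ) * Real.sqrt n)⁻¹ * (2 * η ^ 2)) with hCC
  have hQc : Continuous (fun g : Pairs n → ℝ => QQ z g) := by
    unfold QQ; fun_prop
  have hmain := main_ibp z hz 0 hn (fun g => (starRingEnd ℂ) (QQ z g)) DΨ
    (Complex.continuous_conj.comp hQc).measurable
    (fun i j => (Complex.continuous_conj.measurable.comp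
      (((measurable_const.sub (measurable_const.mul hcm.measurable))).mul (hDmm_m i j))))
    CC
    (fun g => by
      rw [RCLike.norm_conj]
      have := norm_QQ_le z hz hn g
      have h2 : 0 ≤ (‖z‖ + 2 * η) * (((n : ℝ) * Real.sqrt n)⁻¹ * (2 * η ^ 2)) := by positivity
      rw [hCC]; linarith only [h2, this])
    (fun i j g => by have := hDb i j g; rw [hCC]; linarith only [this, hCQ0])
    (by
      intro i j h g
      have h1 := hasDerivAt_mm z hz g i j h
      have h2 : HasDerivAt (fun s => QQ z (Function.update g (pr i j h) s))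
          ((z - 2 * mm z g) * Dmm z i j g) (g (pr i j h)) := by
        unfold QQ
        have h3 := ((h1.const_mul z).sub_const 1).fun_sub (h1.fun_pow 2)
        refine h3.congr_deriv ?_
        simp only [Function.update_eq_self]
        push_cast
        ring
      exact h2.star_conj)
  -- bound of the error
  set c : ℝ := ((n : ℝ) * Real.sqrt n)⁻¹ with hc
  have hc0 : 0 ≤ c := by positivity
  have hcc : c * c * (n : ℝ) ^ 3 = 1 := by
    rw [hc]
    have : Real.sqrt n * Real.sqrt n = n := Real.mul_self_sqrt hn'.le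
    have hs0 : Real.sqrt n ≠ 0 := (Real.sqrt_pos.2 hn').ne'
    field_simp
    nlinarith [this]
  set Err : (Pairs n → ℝ) → ℂ := fun g => (starRingEnd ℂ) (QQ z g) * ee z 0 g +
    (c : ℂ) * ∑ i, ∑ j, (if i = j then 0 else DΨ i j g * hh z 0 g i j) with hErr
  have hErr1 : ∀ g, ‖Err g‖ ≤ ‖QQ z g‖ * (3 * a * -(mm z g).im) +
      ‖z - 2 * mm z g‖ * (2 * a ^ 2 * -(mm z g).im) := by
    intro g
    refine (norm_add_le _ _).trans (add_le_add ?_ ?_)
    · rw [norm_mul, RCLike.norm_conj]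
      exact mul_le_mul_of_nonneg_left (norm_ee_zero_le z hz hn g) (norm_nonneg _)
    · rw [norm_mul, Complex.norm_real, Real.norm_eq_abs, abs_of_nonneg hc0]
      have h1 : ‖∑ i, ∑ j, (if i = j then 0 else DΨ i j g * hh z 0 g i j)‖ ≤
          ‖z - 2 * mm z g‖ * ∑ i, ∑ j, ‖Dmm z i j g‖ * ‖Gm z g j i‖ := by
        refine (norm_sum_le _ _).trans ?_
        rw [Finset.mul_sum]
        refine Finset.sum_le_sum fun i _ => ?_
        refine (norm_sum_le _ _).trans ?_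
        rw [Finset.mul_sum]
        refine Finset.sum_le_sum fun j _ => ?_
        by_cases hij : i = j
        · simp only [hij, if_true, norm_zero]
          positivity
        · simp only [hij, if_false, hDΨ]
          rw [norm_mul, RCLike.norm_conj, norm_mul, hh_zero, mul_assoc]
      have h2 := norm_sum_Dmm_le z hz hn g
      rw [← hη, ← hc] at h2
      calc c * _ ≤ c * (‖z - 2 * mm z g‖ * (c * (2 * (η * (n * (η * -(mm z g).im)))))) := by
            refine mul_le_mul_of_nonneg_left (h1.trans ?_) hc0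
            exact mul_le_mul_of_nonneg_left h2 (norm_nonneg _)
        _ = (c * c * (n : ℝ) ^ 3) * (‖z - 2 * mm z g‖ * (2 * a ^ 2 * -(mm z g).im)) := by
            rw [ha]
            field_simp
        _ = _ := by rw [hcc, one_mul]
  have hErrb : ∀ g, ‖Err g‖ ≤ ‖QQ z g‖ ^ 2 / 2 + 32 * (a * t) ^ 2 := by
    intro g
    refine (hErr1 g).trans ?_
    set Q : ℝ := ‖QQ z g‖ with hQ
    have hQ0 : 0 ≤ Q := norm_nonneg _
    have hI := neg_im_mm_le u hu hu1 z hzu hz g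
    rw [← hQ, ← ht] at hI
    have hI0 : 0 ≤ -(mm z g).im := by
      have := mm_im_nonpos z hz g
      linarith only [this]
    have hm := norm_mm_sub_le u hu z hzu hz g
    rw [← hQ, ← ht, ← le_div_iff₀ hu] at hm
    have hz2 : ‖z - 2 * mm z g‖ ≤ 4 * t + 2 * (Q / t) := by
      have e : z - 2 * mm z g = (u - u⁻¹) - 2 * (mm z g - u⁻¹) := by
        rw [hzu]; ring
      rw [e]
      refine (norm_sub_le _ _).trans (add_le_add hus ?_)
      rw [norm_mul]
      simp only [Complex.norm_ofNat]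
      linarith only [hm]
    have hQt : 0 ≤ Q / t := div_nonneg hQ0 hu.le
    have h1 : Q * (3 * a * -(mm z g).im) ≤ Q * (3 * a * (t + Q / t)) :=
      mul_le_mul_of_nonneg_left (mul_le_mul_of_nonneg_left hI (by positivity)) hQ0
    have h2 : ‖z - 2 * mm z g‖ * (2 * a ^ 2 * -(mm z g).im) ≤
        (4 * t + 2 * (Q / t)) * (2 * a ^ 2 * (t + Q / t)) :=
      mul_le_mul hz2 (mul_le_mul_of_nonneg_left hI (by positivity))
        (mul_nonneg (by positivity) hI0) (by positivity)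
    refine (add_le_add h1 h2).trans ?_
    -- write `p = a / t ≤ 1 / 24`
    have hp : a / t ≤ 1 / 24 := by
      rw [div_le_iff₀ hu]; linarith only [hbig]
    have hp0 : 0 ≤ a / t := div_nonneg ha0.le hu.le
    have e1 : Q * (3 * a * (t + Q / t)) = 3 * (a * t) * Q + 3 * (a / t) * Q ^ 2 := by
      ring
    have e2 : (4 * t + 2 * (Q / t)) * (2 * a ^ 2 * (t + Q / t)) =
        8 * (a * t) ^ 2 + 12 * (a / t) * (a * t) * Q + 4 * (a / t) ^ 2 * Q ^ 2 := by
      field_simp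
      ring
    rw [e1, e2]
    set p : ℝ := a / t with hpdef
    set w : ℝ := a * t with hw
    have hw0 : 0 ≤ w := by positivity
    have hQ2 : 0 ≤ Q ^ 2 := sq_nonneg _
    have hwQ : 0 ≤ w * Q := mul_nonneg hw0 hQ0
    have k1 : p * Q ^ 2 ≤ 1 / 24 * Q ^ 2 := mul_le_mul_of_nonneg_right hp hQ2
    have k2 : p * (w * Q) ≤ 1 / 24 * (w * Q) := mul_le_mul_of_nonneg_right hp hwQ
    have k3 : p ^ 2 ≤ 1 / 576 := by
      calc p ^ 2 ≤ (1 / 24) ^ 2 := pow_le_pow_left₀ hp0 hp 2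
        _ = 1 / 576 := by norm_num
    have k4 : p ^ 2 * Q ^ 2 ≤ 1 / 576 * Q ^ 2 := mul_le_mul_of_nonneg_right k3 hQ2
    have k5 : w * Q ≤ Q ^ 2 / 16 + 4 * w ^ 2 := by
      linarith only [show 0 ≤ (Q / 4 - 2 * w) ^ 2 from sq_nonneg _,
        show (Q / 4 - 2 * w) ^ 2 = Q ^ 2 / 16 - w * Q + 4 * w ^ 2 by ring]
    have k6 : w * Q ≤ Q ^ 2 / 12 + 3 * w ^ 2 := by
      linarith only [show 0 ≤ 3 * (Q / 6 - w) ^ 2 by positivity,
        show 3 * (Q / 6 - w) ^ 2 = Q ^ 2 / 12 - w * Q + 3 * w ^ 2 by ring]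
    linarith only [k1, k2, k4, k5, k6, hQ2, sq_nonneg w]
  have heec : Continuous (fun g : Pairs n → ℝ => ee z 0 g) := continuous_ee z hz 0
  have hErrm : Measurable Err := by
    have hcj : Measurable (fun g : Pairs n → ℝ => (starRingEnd ℂ) (QQ z g)) :=
      (Complex.continuous_conj.comp hQc).measurable
    refine (hcj.mul heec.measurable).add (measurable_const.mul ?_)
    refine Finset.measurable_sum _ fun i _ => Finset.measurable_sum _ fun j _ => ?_
    by_cases hij : i = j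
    · simp only [hij, if_true]; exact measurable_const
    · simp only [hij, if_false]
      exact (Complex.continuous_conj.measurable.comp
        (((measurable_const.sub (measurable_const.mul hcm.measurable))).mul (hDmm_m i j))).mul
        (continuous_hh z hz 0 i j).measurable
  have hQbdd : ∀ g : Pairs n → ℝ, ‖QQ z g‖ ≤ CQ := fun g => norm_QQ_le z hz hn g
  have hIQ : Integrable (fun g : Pairs n → ℝ => ‖QQ z g‖ ^ 2) (disorder n) := by
    refine Integrable.of_bound (hQc.norm.pow 2).measurable.aestronglyMeasurable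
      (CQ ^ 2) (Eventually.of_forall fun g => ?_)
    rw [Real.norm_eq_abs, abs_of_nonneg (by positivity)]
    exact pow_le_pow_left₀ (norm_nonneg _) (hQbdd g) 2
  have hIR : Integrable (fun g : Pairs n → ℝ => ‖QQ z g‖ ^ 2 / 2 + 32 * (a * t) ^ 2)
      (disorder n) := (hIQ.div_const 2).add (integrable_const _)
  have hErrI : Integrable Err (disorder n) :=
    hIR.mono' hErrm.aestronglyMeasurable (Eventually.of_forall hErrb)
  have hcont1 : Continuous (fun g : Pairs n → ℝ => (starRingEnd ℂ) (QQ z g) * (z * mm z g - 1)) :=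
    (Complex.continuous_conj.comp hQc).mul ((continuous_const.mul hcm).sub continuous_const)
  have hI1 : Integrable (fun g : Pairs n → ℝ => (starRingEnd ℂ) (QQ z g) * (z * mm z g - 1))
      (disorder n) := by
    refine integrable_of_bdd hcont1.measurable (CQ * (‖z‖ * η + 1)) fun g => ?_
    rw [norm_mul, RCLike.norm_conj]
    refine mul_le_mul (hQbdd g) ?_ (norm_nonneg _) hCQ0
    refine (norm_sub_le _ _).trans (add_le_add ?_ (by simp))
    rw [norm_mul]
    exact mul_le_mul_of_nonneg_left (norm_mm_le z hz hn g) (norm_nonneg _)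
  have hcont2 : Continuous (fun g : Pairs n → ℝ => (starRingEnd ℂ) (QQ z g) * (mm z g * mm z g)) :=
    (Complex.continuous_conj.comp hQc).mul (hcm.mul hcm)
  have hI2 : Integrable (fun g : Pairs n → ℝ => (starRingEnd ℂ) (QQ z g) * (mm z g * mm z g))
      (disorder n) := by
    refine integrable_of_bdd hcont2.measurable (CQ * (η * η)) fun g => ?_
    rw [norm_mul, RCLike.norm_conj, norm_mul]
    refine mul_le_mul (hQbdd g) ?_ (by (clear * -; positivity)) hCQ0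
    have := norm_mm_le z hz hn g
    exact mul_le_mul this this (norm_nonneg _) hη0.le
  have e1 : ∫ g : Pairs n → ℝ, (starRingEnd ℂ) (QQ z g) * (z * mm z g - 1) ∂(disorder n) =
      ∫ g : Pairs n → ℝ, (starRingEnd ℂ) (QQ z g) * (mm z g * mm z g) ∂(disorder n) +
      ∫ g, Err g ∂(disorder n) := by
    rw [← integral_add hI2 hErrI]
    have : ∀ g : Pairs n → ℝ, (starRingEnd ℂ) (QQ z g) * (z * mm z g - 1) =
      (starRingEnd ℂ) (QQ z g) * (z * aa z 0 g - 1) := fun g => by rw [aa_zero]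
    simp only [this]
    rw [hmain]
    congr 1
    ext g
    rw [hErr, aa_zero]
    push_cast
    ring
  have e2 : ∫ g : Pairs n → ℝ, ((‖QQ z g‖ ^ 2 : ℝ) : ℂ) ∂(disorder n) =
      ∫ g, Err g ∂(disorder n) := by
    have h1 : ∀ g : Pairs n → ℝ, ((‖QQ z g‖ ^ 2 : ℝ) : ℂ) =
        (starRingEnd ℂ) (QQ z g) * (z * mm z g - 1) - (starRingEnd ℂ) (QQ z g) *
          (mm z g * mm z g) := by
      intro g
      push_cast
      rw [← Complex.conj_mul', ← mul_sub]
      congr 1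
      unfold QQ
      ring
    simp only [h1]
    rw [integral_sub hI1 hI2, e1]
    ring
  rw [integral_complex_ofReal] at e2
  have h3 : |∫ g : Pairs n → ℝ, ‖QQ z g‖ ^ 2 ∂(disorder n)| =
      ‖∫ g, Err g ∂(disorder n)‖ := by
    rw [← e2, Complex.norm_real, Real.norm_eq_abs]
  have h4 := norm_integral_le_of_norm_le hIR (Eventually.of_forall hErrb)
  rw [integral_add (hIQ.div_const 2) (integrable_const _), integral_div, integral_const] at h4
  simp only [probReal_univ, one_smul] at h4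
  have h5 := le_abs_self (∫ g : Pairs n → ℝ, ‖QQ z g‖ ^ 2 ∂(disorder n))
  rw [h3] at h5
  have h6 : ∫ g : Pairs n → ℝ, ‖QQ z g‖ ^ 2 ∂(disorder n) ≤ 64 * (a * t) ^ 2 := by
    linarith only [h4, h5]
  have h7 : ∀ g : Pairs n → ℝ, ‖mm z g - u⁻¹‖ ^ 2 ≤ (t ^ 2)⁻¹ * ‖QQ z g‖ ^ 2 := by
    intro g
    have hm := norm_mm_sub_le u hu z hzu hz g
    rw [← ht] at hm
    have h8 := pow_le_pow_left₀ (mul_nonneg (norm_nonneg _) hu.le) hm 2
    rw [inv_mul_eq_div, le_div_iff₀ (by positivity), ← mul_pow]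
    exact h8
  have hI3 : Integrable (fun g : Pairs n → ℝ => ‖mm z g - u⁻¹‖ ^ 2) (disorder n) := by
    refine (hIQ.const_mul ((t ^ 2)⁻¹)).mono' ((hcm.sub continuous_const).norm.pow
      2).measurable.aestronglyMeasurable (Eventually.of_forall fun g => ?_)
    rw [Real.norm_eq_abs, abs_of_nonneg (by positivity)]
    exact h7 g
  refine (integral_mono hI3 (hIQ.const_mul _) h7).trans ?_
  rw [integral_const_mul]
  calc (t ^ 2)⁻¹ * ∫ g : Pairs n → ℝ, ‖QQ z g‖ ^ 2 ∂(disorder n) ≤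
        (t ^ 2)⁻¹ * (64 * (a * t) ^ 2) := mul_le_mul_of_nonneg_left h6 (by positivity)
    _ = _ := by
        have : t ≠ 0 := hu.ne'
        field_simp

end Vale.Agent.P150.H185.Crit
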