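import Mathlib
import Vale.Agent.P150.Bdl.B39
import Vale.Agent.P150.H185.Tighten

/-! The modified logarithmic Sobolev inequality for the zero-field SK model, every `β < 1`. -/

open MeasureTheory ProbabilityTheory Filter Topology

namespace Vale.Agent.P150.H185

open Vale.Agent.P150.Semi

/-- tightening for the heat-bath dynamics -/
theorem mlsi_of_def {n : ℕ} {J : Fin n → Fin n → ℝ} (b : Fin n → ℝ) (hJ : ∀ i j, J i j = J j i)
    {γ K : ℝ} (hγ : 0 < γ) (hK : 0 < K) (hgap : γ ≤ gap J b)
    (hdef : ∀ f : Cfg n → ℝ, (∀ x, 0 < f x) → ex J b f = 1 →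
      ex J b (fun x => f x * Real.log (f x)) ≤ K * (dir J b f (fun x => Real.log (f x)) + 1))
    (f : Cfg n → ℝ) (hf : ∀ x, 0 < f x) :
    ex J b (fun x => f x * Real.log (f x)) - ex J b f * Real.log (ex J b f)
      ≤ (152 * K + (64 * K + 153) / γ) * dir J b f (fun x => Real.log (f x)) := by
  have hex0 : ∀ F : Cfg n → ℝ, (∀ x, 0 < F x) → 0 < ex J b F := by
    intro F hF
    unfold ex
    exact Finset.sum_pos (fun x _ => mul_pos (gibbs_pos J b x) (hF x)) Finset.univ_nonempty
  -- scaling
  have hscale : ∀ F : Cfg n → ℝ, (∀ x, 0 < F x) → ∀ m : ℝ, m = ex J b F →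
      ex J b (fun x => F x / m * Real.log (F x / m))
          = (ex J b (fun x => F x * Real.log (F x)) - m * Real.log m) / m ∧
      dir J b (fun x => F x / m) (fun x => Real.log (F x / m))
          = dir J b F (fun x => Real.log (F x)) / m ∧ ex J b (fun x => F x / m) = 1 := by
    intro F hF m hm
    have hm0 : 0 < m := hm ▸ hex0 F hF
    have hlog : ∀ x, Real.log (F x / m) = Real.log (F x) - Real.log m := fun x =>
      Real.log_div (hF x).ne' hm0.ne'
    refine ⟨?_, ?_, ?_⟩
    · rw [hm]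
      rw [hm] at hlog hm0
      unfold ex at *
      simp only [hlog]
      rw [eq_div_iff hm0.ne', Finset.sum_mul, Finset.sum_mul, ← Finset.sum_sub_distrib]
      apply Finset.sum_congr rfl
      intro x _
      field_simp
      try ring
    · rw [dir_eq hJ, dir_eq hJ, mul_div_assoc, Finset.sum_div]
      congr 1
      apply Finset.sum_congr rfl
      intro i _
      rw [Finset.sum_div]
      apply Finset.sum_congr rfl
      intro x _
      rw [hlog, hlog]
      ring
    · have h1 : ex J b (fun x => F x / m) = ex J b F / m := by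
        unfold ex
        rw [Finset.sum_div]
        exact Finset.sum_congr rfl fun x _ => by ring
      rw [h1, ← hm, div_self hm0.ne']
  obtain ⟨e1, e2, e3⟩ := hscale f hf (ex J b f) rfl
  set m := ex J b f with hm
  have hm0 : 0 < m := hex0 f hf
  have key := tighten (Ω := Cfg n) (ι := Fin n × Cfg n) (gibbs J b)
    (fun e => flip e.2 e.1) (fun e => e.2)
    (fun e => (1 / 2) * (gibbs J b e.2 * gibbs J b (flip e.2 e.1)
      / (gibbs J b e.2 + gibbs J b (flip e.2 e.1))))
    (fun x => (gibbs_pos J b x).le) (gibbs_sum J b)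
    (fun e => by
      have h1 := gibbs_pos J b e.2
      have h2 := gibbs_pos J b (flip e.2 e.1)
      positivity) hγ hK
    (by
      intro g
      have h1 := gap_mul_var_le b hJ g
      have h2 := Semi.var_nonneg (J := J) b g
      have h3 := (mul_le_mul_of_nonneg_right hgap h2).trans h1
      rw [Semi.var_eq, dir_eq hJ] at h3
      refine h3.trans (le_of_eq ?_)
      rw [Fintype.sum_prod_type, Finset.mul_sum]
      apply Finset.sum_congr rfl
      intro i _
      rw [Finset.mul_sum]
      apply Finset.sum_congr rfl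
      intro x _
      ring)
    (by
      intro F hF
      have hmF : 0 < ex J b F := hex0 F hF
      obtain ⟨f1, f2, f3⟩ := hscale F hF (ex J b F) rfl
      have h1 := hdef (fun x => F x / ex J b F) (fun x => div_pos (hF x) hmF) f3
      rw [f1, f2] at h1
      rw [div_le_iff₀ hmF] at h1
      have h2 : K * (dir J b F (fun x => Real.log (F x)) / ex J b F + 1) * ex J b F
          = K * (dir J b F (fun x => Real.log (F x)) + ex J b F) := by
        field_simp
      rw [h2] at h1
      refine h1.trans (le_of_eq ?_)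
      congr 1
      congr 1
      rw [dir_eq hJ, Fintype.sum_prod_type, Finset.mul_sum]
      apply Finset.sum_congr rfl
      intro i _
      rw [Finset.mul_sum]
      apply Finset.sum_congr rfl
      intro x _
      ring)
    (fun x => f x / m) (fun x => div_pos (hf x) hm0) e3
  have h2 : ∑ e : Fin n × Cfg n, (1 / 2) * (gibbs J b e.2 * gibbs J b (flip e.2 e.1)
      / (gibbs J b e.2 + gibbs J b (flip e.2 e.1)))
      * ((f (flip e.2 e.1) / m - f e.2 / m)
        * (Real.log (f (flip e.2 e.1) / m) - Real.log (f e.2 / m)))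
      = dir J b (fun x => f x / m) (fun x => Real.log (f x / m)) := by
    rw [dir_eq hJ, Fintype.sum_prod_type, Finset.mul_sum]
    apply Finset.sum_congr rfl
    intro i _
    rw [Finset.mul_sum]
    apply Finset.sum_congr rfl
    intro x _
    ring
  rw [h2, e2] at key
  have h3 : ∑ x, gibbs J b x * (f x / m * Real.log (f x / m))
      = (ex J b (fun x => f x * Real.log (f x)) - m * Real.log m) / m := e1
  rw [h3, div_le_iff₀ hm0] at key
  refine key.trans (le_of_eq ?_)
  field_simp

end Vale.Agent.P150.H185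

namespace Vale.Agent.P150.F

/-- the defective entropy inequality in filter form -/
theorem dmlsi_of (h3 : D3MStatement) (hR : D8RecStatement) (hB : D8BridgeStatement)
    (β : ℝ) (hβ0 : 0 ≤ β) (hβ1 : β < 1)
    {I : Type} (F : Filter I) (n : I → ℕ) (J : ∀ i, Mat (n i)) (hgood : Good β F n J) :
    ∃ K : ℝ, 0 ≤ K ∧ ∀ᶠ i in F,
      (∀ f : Cfg (n i) → ℝ, (∀ x, 0 < f x) → ex (fun a b => β * J i a b) (fun _ => 0) f = 1 →
        ex (fun a b => β * J i a b) (fun _ => 0) (fun x => f x * Real.log (f x))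
          ≤ K * (dir (fun a b => β * J i a b) (fun _ => 0) f (fun x => Real.log (f x)) + 1)) ∧
      ∀ x, - Real.log (gibbs (fun a b => β * J i a b) (fun _ => 0) x) ≤ 4 * n i := by
  obtain ⟨a, ha, C₁, hC₁, hrec⟩ := hR β hβ0 hβ1 F n J hgood
  obtain ⟨η, hη, hent⟩ := h3 β hβ0 hβ1 F n J hgood (a / 2) (by positivity)
  set K := 2 * C₁ + 2 * (1 + 4) / η + 4 * 4 / η with hK
  have hK0 : 0 ≤ K := by (clear * - hC₁ hη; positivity)
  refine ⟨K, hK0, ?_⟩
  have hop := hgood.op 1 one_pos
  have hn2 : ∀ᶠ i in F, 2 ≤ n i := hgood.hn.eventually_ge_atTop 2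
  filter_upwards [hrec, hent, hop, hn2] with i h2 h3 h4 h5
  have hop3 : OpLe (J i) 3 := by norm_num at h4; exact h4
  have hsymm : ∀ a b : Fin (n i), β * J i a b = β * J i b a := fun a b => by
    rw [hgood.symm i a b]
  have hge := hB.gibbs_eq (n i) (J i) β (hgood.symm i) (hgood.diag i)
  have hn0 : 0 < n i := by omega
  set μ := gM (β • J i) 0 with hμdef
  have hμ : ∀ x, 0 < μ x := fun x => div_pos (Real.exp_pos _)
    (Finset.sum_pos (fun _ _ => Real.exp_pos _) Finset.univ_nonempty)
  have hμ1 : ∑ x, μ x = 1 := by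
    rw [hμdef]; unfold gM
    rw [← Finset.sum_div]
    exact div_self (Finset.sum_pos (fun _ _ => Real.exp_pos _) Finset.univ_nonempty).ne'
  have hlog : ∀ x, - Real.log (μ x) ≤ 4 * n i :=
    hB.log_le (n i) (J i) β (hgood.symm i) hop3 hβ0 hβ1.le
  have h3' := D8T.ext_pos hμ hμ1 h3
  have htr := D8T.truncation hn0 hμ hμ1 ha hη (by norm_num : (0:ℝ) ≤ 4) hC₁ hlog h3' h2
  refine ⟨?_, ?_⟩
  · intro f hf hf1
    have hf1' : ∑ x, μ x * f x = 1 := by
      rw [← hf1]; unfold ex; rw [hge]
    have hp : IsProb (fun x => μ x * f x) :=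
      ⟨fun x => (mul_pos (hμ x) (hf x)).le, hf1'⟩
    have h6 := htr (fun x => μ x * f x) hp (fun x => mul_pos (hμ x) (hf x))
    have e1 : ∀ x, μ x * f x / μ x = f x := fun x => by
      have := (hμ x).ne'
      field_simp
    have e2 : KL (fun x => μ x * f x) μ
        = ex (fun a b => β * J i a b) (fun _ => 0) (fun x => f x * Real.log (f x)) := by
      unfold KL ex
      rw [hge]
      refine Finset.sum_congr rfl fun x _ => ?_
      rw [e1]; ring
    rw [← e2, hB.dir_eq (n i) _ _ hsymm, hge]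
    simpa only [e1] using h6
  · intro x
    rw [hge]
    exact hlog x

/-- the defective entropy inequality -/
theorem dmlsi (β : ℝ) (hβ0 : 0 ≤ β) (hβ1 : β < 1)
    {I : Type} (F : Filter I) (n : I → ℕ) (J : ∀ i, Mat (n i)) (hgood : Good β F n J) :
    ∃ K : ℝ, 0 ≤ K ∧ ∀ᶠ i in F,
      (∀ f : Cfg (n i) → ℝ, (∀ x, 0 < f x) → ex (fun a b => β * J i a b) (fun _ => 0) f = 1 →
        ex (fun a b => β * J i a b) (fun _ => 0) (fun x => f x * Real.log (f x))
          ≤ K * (dir (fun a b => β * J i a b) (fun _ => 0) f (fun x => Real.log (f x)) + 1)) ∧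
      ∀ x, - Real.log (gibbs (fun a b => β * J i a b) (fun _ => 0) x) ≤ 4 * n i :=
  dmlsi_of d3mStatement
    (d8rec_of (d6_of_core driftCore) thCH1 thCHG thCH4' thCH4'' thCH5 thCH6a d8end0 d8end1 d8end2)
    d8Bridge β hβ0 hβ1 F n J hgood

end Vale.Agent.P150.F

namespace Vale.Agent.P150.H185

open Vale.Agent.P150.Semi

/-- **Modified logarithmic Sobolev inequality** for the zero-field SK model, every `β < 1`. -/
theorem sk_mlsi (β : ℝ) (hβ0 : 0 ≤ β) (hβ1 : β < 1) :
    ∃ C : ℝ, 0 < C ∧ ∀ᶠ i in F.whpF,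
      (∀ f : Cfg i.1 → ℝ, (∀ x, 0 < f x) →
        ex (skJ β i.2) (fun _ => 0) (fun x => f x * Real.log (f x))
          - ex (skJ β i.2) (fun _ => 0) f * Real.log (ex (skJ β i.2) (fun _ => 0) f)
          ≤ C * dir (skJ β i.2) (fun _ => 0) f (fun x => Real.log (f x))) ∧
      ∀ x, - Real.log (gibbs (skJ β i.2) (fun _ => 0) x) ≤ 4 * i.1 := by
  have hgood := F.prob β hβ0 hβ1
  obtain ⟨γ, hγ, h1⟩ := F.gapStatement (F.d6_of_core F.driftCore) F.d3mStatement β hβ0 hβ1
    F.whpF (fun i => i.1) (fun i => F.skM i.2) hgood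
  obtain ⟨K, hK, h2⟩ := F.dmlsi β hβ0 hβ1 F.whpF (fun i => i.1) (fun i => F.skM i.2) hgood
  refine ⟨152 * (K + 1) + (64 * (K + 1) + 153) / γ, by positivity, ?_⟩
  filter_upwards [h1, h2] with i a1 a2
  have e : skJ β i.2 = fun a b => β * F.skM i.2 a b := F.skJ_eq β i.2
  have hs : ∀ a b, skJ β i.2 a b = skJ β i.2 b a := Asm.skJ_symm β i.2
  rw [← e] at a1 a2
  refine ⟨?_, a2.2⟩
  intro f hf
  refine mlsi_of_def _ hs hγ (by linarith : (0:ℝ) < K + 1) a1 ?_ f hf
  intro f hf hf1
  refine (a2.1 f hf hf1).trans (mul_le_mul_of_nonneg_right (by linarith) ?_)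
  have := F.D8M.dir_log_nonneg (J := skJ β i.2) (fun _ => 0) hs hf
  linarith

/-- lower bound for the worst-case total variation distance at every time -/
theorem exists_tv_ge {n : ℕ} (hn : 0 < n) {J : Fin n → Fin n → ℝ} (hJ : ∀ i j, J i j = J j i)
    (b : Fin n → ℝ) {a : ℝ} (ha : gap J b ≤ a) (t : ℝ) (ht : 0 ≤ t) :
    ∃ x, Real.exp (-(a * t)) / 2 ≤ tvDist J b t x := by
  obtain ⟨φ, h0, h1, _, h3, _, _⟩ := exists_eigen (J := J) b hJ hn
  obtain ⟨x, hx⟩ := Finite.exists_max (fun x => |φ x|)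
  have hxpos : 0 < |φ x| := by
    rcases (abs_nonneg (φ x)).eq_or_lt with h | h
    · exfalso
      have hz : ∀ y, φ y = 0 := by
        intro y
        have := hx y
        rw [← h] at this
        exact abs_eq_zero.1 (le_antisymm this (abs_nonneg _))
      have : ex J b (fun x => φ x ^ 2) = 0 := by
        simp only [hz]
        have := ex_const (J := J) b (0 : ℝ)
        simpa using this
      rw [h1] at this
      exact one_ne_zero this
    · exact h
  refine ⟨x, ?_⟩
  have h4 := kernel_eigen J b φ (-gap J b) h3 t x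
  have h5 : ∑ y, kernel J b t x y * φ y = ∑ y, (kernel J b t x y - gibbs J b y) * φ y := by
    unfold ex at h0
    simp only [sub_mul, Finset.sum_sub_distrib]
    rw [h0, sub_zero]
  have h6 : |∑ y, (kernel J b t x y - gibbs J b y) * φ y| ≤ 2 * tvDist J b t x * |φ x| := by
    refine (Finset.abs_sum_le_sum_abs _ _).trans ?_
    unfold tvDist
    have : 2 * (1 / 2 * ∑ y, |kernel J b t x y - gibbs J b y|) * |φ x|
        = ∑ y, |kernel J b t x y - gibbs J b y| * |φ x| := by
      rw [← Finset.sum_mul]; ring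
    rw [this]
    apply Finset.sum_le_sum
    intro y _
    rw [abs_mul]
    exact mul_le_mul_of_nonneg_left (hx y) (abs_nonneg _)
  rw [← h5, h4, abs_mul, abs_of_pos (Real.exp_pos _)] at h6
  have h8 : Real.exp (-gap J b * t) ≤ 2 * tvDist J b t x := le_of_mul_le_mul_right h6 hxpos
  have h9 : Real.exp (-(a * t)) ≤ Real.exp (-gap J b * t) := by
    apply Real.exp_le_exp.2
    have := mul_le_mul_of_nonneg_right ha ht
    linarith
  linarith

/-- exponential decay of the total variation distance from the modified logarithmic Sobolev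
inequality -/
theorem tv_decay {n : ℕ} {J : Fin n → Fin n → ℝ} (hJ : ∀ i j, J i j = J j i)
    (b : Fin n → ℝ) {C : ℝ} (hC : 0 < C)
    (hM : ∀ f : Cfg n → ℝ, (∀ x, 0 < f x) →
      ex J b (fun x => f x * Real.log (f x)) - ex J b f * Real.log (ex J b f)
        ≤ C * dir J b f (fun x => Real.log (f x)))
    (hmin : ∀ x, - Real.log (gibbs J b x) ≤ 4 * n) (t : ℝ) (ht : 0 ≤ t) (x : Cfg n) :
    tvDist J b t x ≤ 2 * √n * Real.exp (-(t / (2 * C))) := by
  have h1 := Unif.tv_le_of_mlsi_at (J := J) b hJ C (4 * n) hC hM x (by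
    have h2 := hmin x
    rw [← Real.exp_log (gibbs_pos J b x)]
    exact Real.exp_le_exp.2 (by linarith)) t ht
  have h2 : (2 * √n * Real.exp (-(t / (2 * C)))) ^ 2 = 4 * n * Real.exp (-(t / C)) := by
    rw [mul_pow, mul_pow, Real.sq_sqrt (Nat.cast_nonneg n), ← Real.exp_nat_mul]
    congr 1
    · norm_num
    · congr 1
      push_cast
      field_simp
  have h3 : tvDist J b t x ^ 2 ≤ (2 * √n * Real.exp (-(t / (2 * C)))) ^ 2 := by
    rw [h2]
    have h4 : 0 ≤ (n:ℝ) * Real.exp (-(t / C)) := by positivity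
    nlinarith
  exact abs_le_of_sq_le_sq' h3 (by positivity) |>.2

end Vale.Agent.P150.H185
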