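import Mathlib
import Vale.Agent.P150.Bdl.B39
import Vale.Agent.P150.H185.Mlsi

/-! The modified logarithmic Sobolev inequality and exponential mixing for `β < 1 / 2`, uniformly
over all external fields. -/

open MeasureTheory ProbabilityTheory Filter Topology

namespace Vale.Agent.P150.H185

open Vale.Agent.P150.Semi Vale.Agent.P150.Unif

variable {n : ℕ} {J : Fin n → Fin n → ℝ} (b : Fin n → ℝ)

open Classical in
/-- burn-in, with arbitrary accuracy -/
theorem tv_burn_gen {M R C : ℝ} (hJ : ∀ i j, J i j = J j i) (hC : 0 < C)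
    (hM : ∀ z : Cfg n, |energy J (fun _ => 0) z| ≤ M)
    (hR : ∀ (z : Cfg n) (i : Fin n), |locField J b z i - b i| ≤ R)
    (hml : ∀ f : Cfg n → ℝ, (∀ x, 0 < f x) →
      entg J b f ≤ C * dir J b f (fun x => Real.log (f x)))
    (t : ℝ) (ht : 0 ≤ t) (s : ℝ) (hs : 0 ≤ s) {A : ℝ} (hA0 : 0 ≤ A)
    (hA : 2 * M + n * (2 * R + t) ≤ A ^ 2) (x : Cfg n) :
    tvDist J b (t + s) x ≤ A * Real.exp (-(s / (2 * C))) + 4 * n * Real.exp (-t) := by
  refine (tvDist_add b ht x).trans ?_
  set E := Real.exp (-(s / (2 * C))) with hE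
  have hE0 : 0 < E := Real.exp_pos _
  have hE2 : Real.exp (-(s / C)) = E ^ 2 := by
    rw [hE, ← Real.exp_nat_mul]
    congr 1
    push_cast
    field_simp
  have key : ∀ z : Cfg n, tvDist J b s z
      ≤ A * E + (if Good b R (Real.exp (-t)) z then (0:ℝ) else 1) := by
    intro z
    split_ifs with hg
    · have h1 := gibbs_ge_good (J := J) b hM (Real.exp_pos (-t)) z hg
      rw [Real.log_exp] at h1
      have h2 := tv_le_of_mlsi_at b hJ C (2 * M + n * (2 * R - -t)) hC hml z h1 s hs
      rw [sub_neg_eq_add, hE2] at h2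
      have h3 : 2 * (E ^ 2 * (2 * M + n * (2 * R + t))) ≤ 2 * (E ^ 2 * A ^ 2) :=
        mul_le_mul_of_nonneg_left (mul_le_mul_of_nonneg_left hA (sq_nonneg E)) (by norm_num)
      have h4 : (2 * tvDist J b s z) ^ 2 ≤ (2 * (A * E)) ^ 2 := by
        refine (h2.trans h3).trans ?_
        have : 0 ≤ E ^ 2 * A ^ 2 := by positivity
        calc 2 * (E ^ 2 * A ^ 2) ≤ 4 * (E ^ 2 * A ^ 2) := by linarith only [this]
          _ = (2 * (A * E)) ^ 2 := by ring
      have h5 := abs_le_of_sq_le_sq' h4 (by positivity)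
      linarith only [h5.2]
    · have := tvDist_le_one (J := J) b hs z
      have h2 : 0 ≤ A * E := by positivity
      linarith only [this, h2]
  calc ∑ z, kernel J b t x z * tvDist J b s z
      ≤ ∑ z, kernel J b t x z * (A * E + (if Good b R (Real.exp (-t)) z then (0:ℝ) else 1)) := by
        apply Finset.sum_le_sum
        intro z _
        exact mul_le_mul_of_nonneg_left (key z) (kernel_nonneg (J := J) b ht x z)
    _ = A * E + ∑ z, kernel J b t x z * (if Good b R (Real.exp (-t)) z then (0:ℝ) else 1) := by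
        simp only [mul_add, Finset.sum_add_distrib]
        rw [← Finset.sum_mul, kernel_row, one_mul]
    _ ≤ A * E + 4 * n * Real.exp (-t) := by
        have := bad_mass (J := J) b hR t ht rfl x
        linarith only [this]

/-- modified logarithmic Sobolev inequality, deterministic couplings, all fields -/
theorem det_unif_mlsi {n : ℕ} (hn : 0 < n)
    (J : Fin n → Fin n → ℝ) (hJs : ∀ i j, J i j = J j i) (hJ0 : ∀ i, J i i = 0)
    (lam r eta gam : ℝ)
    (hlam : ∀ v : Fin n → ℝ, |∑ i, ∑ j, J i j * v i * v j| ≤ lam * ∑ i, v i ^ 2)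
    (hr : ∀ i, ∑ j, J i j ^ 2 ≤ r) (h2r : 2 * r ≤ lam) (heta : ∀ i j, |J i j| ≤ eta)
    (heta1 : eta ≤ 1 / 2000) (hgam : 0 < gam) (hgam1 : gam ≤ 1 - lam - 100000 * eta * r)
    (b : Fin n → ℝ) :
    ∀ f : Cfg n → ℝ, (∀ x, 0 < f x) →
      ex J b (fun x => f x * Real.log (f x)) - ex J b f * Real.log (ex J b f)
        ≤ Real.exp (gam⁻¹ * (2 * lam)) * dir J b f (fun x => Real.log (f x)) := by
  have hr0 : 0 ≤ r := le_trans (Finset.sum_nonneg fun j _ => sq_nonneg _) (hr ⟨0, hn⟩)
  have hlam0 : 0 ≤ lam := by linarith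
  have heta0 : 0 ≤ eta := le_trans (abs_nonneg _) (heta ⟨0, hn⟩ ⟨0, hn⟩)
  -- Bochner for all `t * J`, all fields
  have key : ∀ t ∈ Set.Icc (0:ℝ) 1, ∀ (b : Fin n → ℝ) (f : Cfg n → ℝ),
      gam * dir (fun i j => t * J i j) b f f
        ≤ ex (fun i j => t * J i j) b (fun x => (gen (fun i j => t * J i j) b f x) ^ 2) := by
    intro t ht b f
    have h := bochnerHyp (fun i j => t * J i j) (fun i j => by rw [hJs]) (fun i => by rw [hJ0, mul_zero])
      lam r eta
      (by
        intro v
        have h1 : ∑ i, ∑ j, t * J i j * v i * v j = t * ∑ i, ∑ j, J i j * v i * v j := by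
          rw [Finset.mul_sum]; apply Finset.sum_congr rfl; intro i _
          rw [Finset.mul_sum]; apply Finset.sum_congr rfl; intro j _
          ring
        rw [h1]
        have h2 := (abs_le.mp (hlam v)).2
        have h3 : 0 ≤ lam * ∑ i, v i ^ 2 :=
          mul_nonneg hlam0 (Finset.sum_nonneg fun _ _ => sq_nonneg _)
        calc t * ∑ i, ∑ j, J i j * v i * v j ≤ t * (lam * ∑ i, v i ^ 2) :=
              mul_le_mul_of_nonneg_left h2 ht.1
          _ ≤ 1 * (lam * ∑ i, v i ^ 2) := mul_le_mul_of_nonneg_right ht.2 h3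
          _ = _ := one_mul _)
      (by
        intro i
        have h1 : ∑ j, (t * J i j) ^ 2 = t ^ 2 * ∑ j, J i j ^ 2 := by
          rw [Finset.mul_sum]; apply Finset.sum_congr rfl; intro j _; ring
        rw [h1]
        have h2 : t ^ 2 ≤ 1 := by linarith only [mul_nonneg (sub_nonneg.2 ht.1) (sub_nonneg.2 ht.2), mul_nonneg (sub_nonneg.2 ht.2) (sub_nonneg.2 ht.2)]
        have h3 : 0 ≤ ∑ j, J i j ^ 2 := Finset.sum_nonneg fun _ _ => sq_nonneg _
        calc t ^ 2 * ∑ j, J i j ^ 2 ≤ 1 * ∑ j, J i j ^ 2 := mul_le_mul_of_nonneg_right h2 h3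
          _ ≤ r := by rw [one_mul]; exact hr i)
      h2r
      (by
        intro i j
        rw [abs_mul, abs_of_nonneg ht.1]
        calc t * |J i j| ≤ 1 * |J i j| := mul_le_mul_of_nonneg_right ht.2 (abs_nonneg _)
          _ ≤ eta := by rw [one_mul]; exact heta i j)
      heta1 b f
    refine le_trans (mul_le_mul_of_nonneg_right hgam1 ?_) h
    exact Poinc.dir_self_nonneg _ b (fun i j => by rw [hJs]) f
  have poin : ∀ t ∈ Set.Icc (0:ℝ) 1, ∀ (b : Fin n → ℝ) (f : Cfg n → ℝ),
      gam * var (fun i j => t * J i j) b f ≤ dir (fun i j => t * J i j) b f f := by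
    intro t ht b f
    exact poincare_of_bochner (fun i j => by rw [hJs]) hgam (key t ht b) f
  have e1 : (fun i j => (1:ℝ) * J i j) = J := by ext i j; rw [one_mul]
  have poin1 : ∀ (b : Fin n → ℝ) (f : Cfg n → ℝ), gam * var J b f ≤ dir J b f f := by
    intro b f
    have := poin 1 (by simp) b f
    rwa [e1] at this
  -- the square root
  obtain ⟨B, hBB⟩ := Asm.exists_sqrt (fun i j => J i j + if i = j then lam else 0)
    (by intro i j; rw [hJs i j]; simp [eq_comm])
    (by
      intro v
      have h1 : ∑ i, ∑ j, (J i j + if i = j then lam else 0) * v i * v j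
          = ∑ i, ∑ j, J i j * v i * v j + lam * ∑ i, v i ^ 2 := by
        rw [Finset.mul_sum, ← Finset.sum_add_distrib]
        apply Finset.sum_congr rfl; intro i _
        simp only [add_mul, Finset.sum_add_distrib]
        congr 1
        simp; ring
      rw [h1]
      have h2 := (abs_le.mp (hlam v)).1
      linarith only [h2])
  have hBa : ∀ v : Fin n → ℝ, ∑ k, (∑ i, B i k * v i) ^ 2 ≤ (2 * lam) * ∑ i, v i ^ 2 := by
    intro v
    have h1 : ∑ k, (∑ i, B i k * v i) ^ 2
        = ∑ i, ∑ j, (J i j + if i = j then lam else 0) * v i * v j := by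
      have : ∀ k, (∑ i, B i k * v i) ^ 2 = ∑ i, ∑ j, (B i k * B j k) * (v i * v j) := by
        intro k
        rw [sq, Finset.sum_mul_sum]
        apply Finset.sum_congr rfl; intro i _
        apply Finset.sum_congr rfl; intro j _
        ring
      rw [Finset.sum_congr rfl (fun k _ => this k), Finset.sum_comm]
      apply Finset.sum_congr rfl; intro i _
      rw [Finset.sum_comm]
      apply Finset.sum_congr rfl; intro j _
      rw [← Finset.sum_mul, hBB]; ring
    have h2 : ∑ i, ∑ j, (J i j + if i = j then lam else 0) * v i * v j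
        = ∑ i, ∑ j, J i j * v i * v j + lam * ∑ i, v i ^ 2 := by
      rw [Finset.mul_sum, ← Finset.sum_add_distrib]
      apply Finset.sum_congr rfl; intro i _
      simp only [add_mul, Finset.sum_add_distrib]
      congr 1
      simp; ring
    rw [h1, h2]
    have h3 := (abs_le.mp (hlam v)).2
    linarith
  exact mlsiHyp J hJs B (by
      intro i j hij
      rw [hBB]; simp [hij]) (2 * lam) gam⁻¹ (by linarith only [hlam0]) (inv_pos.mpr hgam) hBa
      (by
        intro t ht b' v
        exact cov_le (fun i j => by rw [hJs]) hgam (poin t ht b') v)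
      b

/-- exponential decay of the total variation distance, deterministic couplings, all fields -/
theorem det_tv {n : ℕ} (hn : 1 ≤ n)
    (J : Fin n → Fin n → ℝ) (hJs : ∀ i j, J i j = J j i) (hJ0 : ∀ i, J i i = 0)
    (lam eta K : ℝ)
    (hlam : ∀ v : Fin n → ℝ, |∑ i, ∑ j, J i j * v i * v j| ≤ lam * ∑ i, v i ^ 2)
    (heta0 : 0 ≤ eta) (heta : ∀ i j, |J i j| ≤ eta) (heta1 : eta ≤ 1 / 2) (hlam2 : lam ≤ 2)
    (hK : 1 ≤ K) (b : Fin n → ℝ)
    (hml : ∀ f : Cfg n → ℝ, (∀ x, 0 < f x) →
      ex J b (fun x => f x * Real.log (f x)) - ex J b f * Real.log (ex J b f)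
        ≤ K * dir J b f (fun x => Real.log (f x))) (T : ℝ) (hT : 0 ≤ T) (x : Cfg n) :
    tvDist J b T x ≤ (6 + 8 * K) * n * Real.exp (-(T / (6 + 8 * K))) := by
  have hnr : (1:ℝ) ≤ n := by exact_mod_cast hn
  have hK0 : 0 < K := by linarith
  have hR : ∀ (z : Cfg n) (i : Fin n), |locField J b z i - b i| ≤ n * eta := by
    intro z i
    unfold locField
    rw [add_sub_cancel_left]
    refine (Finset.abs_sum_le_sum_abs _ _).trans ?_
    calc ∑ j, |if j = i then 0 else J i j * sp (z j)| ≤ ∑ _j : Fin n, eta := by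
          apply Finset.sum_le_sum
          intro j _
          split_ifs
          · simpa using heta0
          · rw [abs_mul]
            have h1 : |sp (z j)| = 1 := by unfold sp; split_ifs <;> simp
            rw [h1, mul_one]
            exact heta i j
      _ = n * eta := by simp
  have h1 := tv_burn_gen (J := J) b (M := lam * n / 2) (R := n * eta) hJs hK0
    (fun z => Asm.abs_energy_le hJs hJ0 hlam z) hR hml (T / 2) (by linarith) (T / 2) (by linarith)
    (A := n * (2 + T / 2)) (by positivity) (by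
      have a1 : lam * n ≤ 2 * n := mul_le_mul_of_nonneg_right hlam2 (by linarith)
      have a2 : (n:ℝ) * (n * eta) ≤ n * (n * (1 / 2)) :=
        mul_le_mul_of_nonneg_left (mul_le_mul_of_nonneg_left heta1 (by linarith)) (by linarith)
      have a3 : (n:ℝ) ≤ n ^ 2 := by nlinarith
      have a4 : (n:ℝ) * (T / 2) ≤ n ^ 2 * (T / 2) := mul_le_mul_of_nonneg_right a3 (by linarith)
      have a5 : 0 ≤ (n:ℝ) ^ 2 * (T / 2) := by positivity
      have a6 : 0 ≤ (n:ℝ) ^ 2 * (T / 2) ^ 2 := by positivity
      calc 2 * (lam * n / 2) + n * (2 * (n * eta) + T / 2)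
          = lam * n + 2 * (n * (n * eta)) + n * (T / 2) := by ring
        _ ≤ 2 * n ^ 2 + 2 * (n * (n * (1 / 2))) + n ^ 2 * (T / 2) := by linarith
        _ ≤ (n * (2 + T / 2)) ^ 2 := by nlinarith) x
  have e : T / 2 + T / 2 = T := by ring
  rw [e] at h1
  refine h1.trans ?_
  set C := 6 + 8 * K with hC
  have hCpos : 0 < C := by positivity
  set y := T / (8 * K) with hy
  have hy0 : 0 ≤ y := by positivity
  have hyC : T / C ≤ y := div_le_div_of_nonneg_left hT (by positivity) (by linarith)
  have hTy : T / 2 = 4 * K * y := by rw [hy]; field_simp; ring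
  have h2 : Real.exp (-(T / 2 / (2 * K))) = Real.exp (-(2 * y)) := by
    congr 1
    rw [hy]; field_simp; ring
  have h3 : (2 + T / 2) * Real.exp (-(2 * y)) ≤ (2 + 4 * K) * Real.exp (-y) := by
    have h4 : 2 + T / 2 ≤ (2 + 4 * K) * Real.exp y := by
      have h5 := Real.add_one_le_exp y
      have h6 := mul_le_mul_of_nonneg_left h5 (show 0 ≤ 2 + 4 * K by positivity)
      rw [hTy]
      nlinarith
    have h7 := mul_le_mul_of_nonneg_right h4 (Real.exp_pos (-(2 * y))).le
    rw [mul_assoc (2 + 4 * K), ← Real.exp_add] at h7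
    rw [show y + -(2 * y) = -y by ring] at h7
    exact h7
  have h4 : Real.exp (-(T / 2)) ≤ Real.exp (-y) := by
    apply Real.exp_le_exp.2
    rw [hTy]
    nlinarith
  have h5 : Real.exp (-y) ≤ Real.exp (-(T / C)) := Real.exp_le_exp.2 (by linarith)
  rw [h2]
  have h6 : n * (2 + T / 2) * Real.exp (-(2 * y)) ≤ n * ((2 + 4 * K) * Real.exp (-y)) := by
    rw [mul_assoc]
    exact mul_le_mul_of_nonneg_left h3 (by linarith)
  have h7 : 4 * n * Real.exp (-(T / 2)) ≤ 4 * n * Real.exp (-y) :=
    mul_le_mul_of_nonneg_left h4 (by linarith)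
  have h8 : n * ((2 + 4 * K) * Real.exp (-y)) + 4 * n * Real.exp (-y)
      = (6 + 4 * K) * n * Real.exp (-y) := by ring
  have h9 : (6 + 4 * K) * n * Real.exp (-y) ≤ C * n * Real.exp (-(T / C)) := by
    apply mul_le_mul _ h5 (Real.exp_pos _).le (by positivity)
    exact mul_le_mul_of_nonneg_right (by linarith) (by linarith)
  linarith

/-- **High temperature, all external fields**: modified logarithmic Sobolev inequality and
exponential decay of the total variation distance -/
theorem high_field (β : ℝ) (hβ0 : 0 ≤ β) (hβ : β < 1 / 2) :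
    ∃ C : ℝ, 0 < C ∧ WHP (fun n => {g | ∀ b : Fin n → ℝ,
      (∀ f : Cfg n → ℝ, (∀ x, 0 < f x) →
        ex (skJ β g) b (fun x => f x * Real.log (f x))
          - ex (skJ β g) b f * Real.log (ex (skJ β g) b f)
          ≤ C * dir (skJ β g) b f (fun x => Real.log (f x))) ∧
      ∀ t, 0 ≤ t → ∀ x, tvDist (skJ β g) b t x ≤ C * n * Real.exp (-(t / C))}) := by
  set K : ℝ := Real.exp (((1 - 2 * β) / 2)⁻¹ * 4) with hK
  have hKpos : 0 < K := Real.exp_pos _
  have hK1 : 1 ≤ K := by
    rw [hK, Real.one_le_exp_iff]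
    have : 0 < (1 - 2 * β) / 2 := by linarith
    positivity
  refine ⟨6 + 8 * K, by positivity, ?_⟩
  set e : ℝ := (1 - 2 * β) / 2 with he
  have he0 : 0 < e := by linarith only [hβ, he]
  have heβ : e ≤ (1 - 2 * β) / 2 := le_rfl
  have he1 : e ≤ 1 / 2 := by linarith only [heβ, hβ0]
  unfold WHP
  refine Asm.tendsto_zero_of_inter (A := fun n => {g | ∀ v : Fin n → ℝ,
      |∑ i, ∑ j, gsym g i j * v i * v j| ≤ (2 + e) * √n * ∑ i, v i ^ 2})
    (B := fun n => {g | ∀ i : Fin n, ∑ j, gsym g i j ^ 2 ≤ (1 + 1) * n})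
    (C := fun n => {g | ∀ i j : Fin n, |gsym g i j| ≤ (e / 100000) * √n}) ?_ ?_ ?_
    (goe_norm he0) (goe_rows one_pos) (goe_max (by (clear * - he0; positivity))) ?_
  · intro n
    apply IsClosed.measurableSet
    simp only [Set.ofPred_forall]
    refine isClosed_iInter fun v => isClosed_le ?_ continuous_const
    refine (continuous_finsetSum _ fun i _ => continuous_finsetSum _ fun j _ => ?_).abs
    exact ((Asm.continuous_gsym i j).mul continuous_const).mul continuous_const
  · intro n
    apply IsClosed.measurableSet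
    simp only [Set.ofPred_forall]
    refine isClosed_iInter fun i => isClosed_le ?_ continuous_const
    exact continuous_finsetSum _ fun j _ => (Asm.continuous_gsym i j).pow 2
  · intro n
    apply IsClosed.measurableSet
    simp only [Set.ofPred_forall]
    refine isClosed_iInter fun i => isClosed_iInter fun j => isClosed_le ?_ continuous_const
    exact (Asm.continuous_gsym i j).abs
  filter_upwards [eventually_ge_atTop 100] with n hn
  rintro g ⟨⟨hA, hB'⟩, hC⟩
  simp only [Set.mem_ofPred_eq] at hA hB' hC ⊢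
  intro b
  have hn0 : 0 < n := by omega
  have hn1 : (100:ℝ) ≤ n := by exact_mod_cast hn
  have hsq : 0 < √(n:ℝ) := Real.sqrt_pos.mpr (by positivity)
  have hsq2 : √(n:ℝ) ^ 2 = n := Real.sq_sqrt (by positivity)
  have hb0 : 0 ≤ β / √n := div_nonneg hβ0 hsq.le
  have hβe : β * e ≤ 1 / 4 := by
    have h1 : β * e ≤ 1 / 2 * (1 / 2) := mul_le_mul hβ.le he1 he0.le (by norm_num)
    linarith only [h1]
  have hβe0 : 0 ≤ β * e := mul_nonneg hβ0 he0.le
  have hβ2 : β ^ 2 ≤ 1 / 4 := by
    have h1 : β * β ≤ 1 / 2 * (1 / 2) := mul_le_mul hβ.le hβ.le hβ0 (by norm_num)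
    linarith only [h1]
  have hq1 : ∀ v : Fin n → ℝ, |∑ i, ∑ j, skJ β g i j * v i * v j|
      ≤ β * (2 + e) * ∑ i, v i ^ 2 := by
    intro v
    rw [Asm.skJ_form, abs_mul, abs_of_nonneg hb0]
    calc β / √n * |∑ i, ∑ j, gsym g i j * v i * v j|
        ≤ β / √n * ((2 + e) * √n * ∑ i, v i ^ 2) := mul_le_mul_of_nonneg_left (hA v) hb0
      _ = β * (2 + e) * ∑ i, v i ^ 2 := by field_simp
  have hq2 : ∀ i j, |skJ β g i j| ≤ β * (e / 100000) := by
    intro i j
    unfold skJ
    rw [abs_mul, abs_of_nonneg hb0]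
    calc β / √n * |gsym g i j| ≤ β / √n * (e / 100000 * √n) :=
          mul_le_mul_of_nonneg_left (hC i j) hb0
      _ = β * (e / 100000) := by field_simp
  have hml := det_unif_mlsi hn0 (skJ β g) (Asm.skJ_symm β g) (Asm.skJ_diag β g)
    (β * (2 + e)) (β ^ 2 * 2) (β * (e / 100000)) (1 - 2 * β - e) hq1
    (by
      intro i
      have h1 : ∑ j, skJ β g i j ^ 2 = β ^ 2 / n * ∑ j, gsym g i j ^ 2 := by
        unfold skJ
        rw [Finset.mul_sum]; apply Finset.sum_congr rfl; intro j _
        rw [mul_pow, div_pow, hsq2]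
      rw [h1]
      calc β ^ 2 / n * ∑ j, gsym g i j ^ 2 ≤ β ^ 2 / n * ((1 + 1) * n) :=
            mul_le_mul_of_nonneg_left (hB' i) (by (clear * - hn; positivity))
        _ = β ^ 2 * 2 := by field_simp; ring)
    (by
      have h1 : β * β ≤ β * (1 / 2) := mul_le_mul_of_nonneg_left hβ.le hβ0
      linarith only [h1, hβe0, hβ0])
    hq2
    (by linarith only [hβe])
    (by linarith only [heβ, he0])
    (by
      have h4 : 100000 * (β * (e / 100000)) * (β ^ 2 * 2) = (β * e) * (2 * β ^ 2) := by ring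
      rw [h4]
      have h5 : (β * e) * (2 * β ^ 2) ≤ (β * e) * (1 / 2) :=
        mul_le_mul_of_nonneg_left (by linarith only [hβ2]) hβe0
      have h6 : β * e ≤ 1 / 2 * e := mul_le_mul_of_nonneg_right hβ.le he0.le
      linarith only [h5, h6, he0])
    b
  have hE : Real.exp ((1 - 2 * β - e)⁻¹ * (2 * (β * (2 + e)))) ≤ K := by
    rw [hK]
    apply Real.exp_le_exp.2
    have h1 : 1 - 2 * β - e = (1 - 2 * β) / 2 := by rw [he]; ring
    rw [h1]
    apply mul_le_mul_of_nonneg_left _ (by rw [← he]; positivity)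
    linarith only [hβe, hβ]
  have hmlK : ∀ f : Cfg n → ℝ, (∀ x, 0 < f x) →
      ex (skJ β g) b (fun x => f x * Real.log (f x))
        - ex (skJ β g) b f * Real.log (ex (skJ β g) b f)
        ≤ K * dir (skJ β g) b f (fun x => Real.log (f x)) := by
    intro f hf
    refine (hml f hf).trans (mul_le_mul_of_nonneg_right hE ?_)
    exact F.D8M.dir_log_nonneg b (Asm.skJ_symm β g) hf
  refine ⟨?_, ?_⟩
  · intro f hf
    refine (hmlK f hf).trans (mul_le_mul_of_nonneg_right (by linarith only [hK1]) ?_)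
    exact F.D8M.dir_log_nonneg b (Asm.skJ_symm β g) hf
  · intro t ht x
    exact det_tv (by omega) (skJ β g) (Asm.skJ_symm β g) (Asm.skJ_diag β g) (β * (2 + e))
      (β * (e / 100000)) K hq1 (by positivity) hq2 (by linarith only [hβe, hβe0])
      (by linarith only [hβe, hβ]) hK1 b hmlK t ht x

end Vale.Agent.P150.H185
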