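import Mathlib
import Vale.Agent.P150.Bdl.B39
import Vale.Agent.P150.H185.Field

/-! Assembly of the strengthened theorem. -/

open MeasureTheory ProbabilityTheory Filter Topology

namespace Vale.Agent.P150.H185

/-- every `β < 1`, zero field -/
theorem high_zero (β : ℝ) (hβ0 : 0 ≤ β) (hβ : β < 1) :
    ∃ c C : ℝ, 0 < c ∧ 0 < C ∧ WHP (fun n => {g |
      c ≤ gap (skJ β g) (fun _ => 0) ∧ gap (skJ β g) (fun _ => 0) ≤ 1 ∧
      c * Real.log n ≤ tmix (skJ β g) (fun _ => 0) ∧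
      tmix (skJ β g) (fun _ => 0) ≤ C * Real.log n ∧
      (∀ t, C * Real.log n ≤ t → ∀ x, tvDist (skJ β g) (fun _ => 0) t x ≤ 1 / 4) ∧
      (∀ f : Cfg n → ℝ, (∀ x, 0 < f x) →
        ex (skJ β g) (fun _ => 0) (fun x => f x * Real.log (f x))
          - ex (skJ β g) (fun _ => 0) f * Real.log (ex (skJ β g) (fun _ => 0) f)
          ≤ C * dir (skJ β g) (fun _ => 0) f (fun x => Real.log (f x))) ∧
      (∀ t, 0 ≤ t → ∀ x,
        tvDist (skJ β g) (fun _ => 0) t x ≤ C * √n * Real.exp (-(c * t))) ∧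
      ∀ t, 0 ≤ t → ∃ x, Real.exp (-t) / 2 ≤ tvDist (skJ β g) (fun _ => 0) t x}) := by
  obtain ⟨c1, C1, hc1, hC1, h1⟩ := F.main_full.1 β hβ0 hβ
  obtain ⟨C2, hC2, h2⟩ := sk_mlsi β hβ0 hβ
  have h2' : WHP (fun n => {g | (∀ f : Cfg n → ℝ, (∀ x, 0 < f x) →
        ex (skJ β g) (fun _ => 0) (fun x => f x * Real.log (f x))
          - ex (skJ β g) (fun _ => 0) f * Real.log (ex (skJ β g) (fun _ => 0) f)
          ≤ C2 * dir (skJ β g) (fun _ => 0) f (fun x => Real.log (f x))) ∧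
      ∀ x, - Real.log (gibbs (skJ β g) (fun _ => 0) x) ≤ 4 * n}) := h2
  refine ⟨min c1 (1 / (2 * C2)), max (max C1 C2) 2, lt_min hc1 (by positivity), by positivity, ?_⟩
  refine MainThm.whp_mono (MainThm.whp_inter h1 h2') ?_
  filter_upwards [eventually_ge_atTop 1] with n hn
  rintro g ⟨⟨a1, a2, a3, a4, a5⟩, b1, b2⟩
  have hlog : 0 ≤ Real.log n := Real.log_natCast_nonneg n
  have hCC : C1 * Real.log n ≤ max (max C1 C2) 2 * Real.log n :=
    mul_le_mul_of_nonneg_right ((le_max_left C1 C2).trans (le_max_left _ _)) hlog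
  have hs : ∀ a b, skJ β g a b = skJ β g b a := Asm.skJ_symm β g
  refine ⟨(min_le_left _ _).trans a1, a2, ?_, a4.trans hCC, fun t ht => a5 t (hCC.trans ht),
    ?_, ?_, ?_⟩
  · exact (mul_le_mul_of_nonneg_right (min_le_left _ _) hlog).trans a3
  · intro f hf
    refine (b1 f hf).trans (mul_le_mul_of_nonneg_right
      ((le_max_right C1 C2).trans (le_max_left _ _)) ?_)
    exact F.D8M.dir_log_nonneg (J := skJ β g) (fun _ => 0) hs hf
  · intro t ht x
    refine (tv_decay hs (fun _ => 0) hC2 b1 b2 t ht x).trans ?_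
    apply mul_le_mul _ _ (Real.exp_pos _).le (by positivity)
    · exact mul_le_mul_of_nonneg_right (le_max_right _ _) (Real.sqrt_nonneg _)
    · apply Real.exp_le_exp.2
      have h3 : min c1 (1 / (2 * C2)) * t ≤ 1 / (2 * C2) * t :=
        mul_le_mul_of_nonneg_right (min_le_right _ _) ht
      have h4 : 1 / (2 * C2) * t = t / (2 * C2) := by ring
      linarith
  · intro t ht
    obtain ⟨x, hx⟩ := exists_tv_ge (by omega) hs (fun _ => 0) a2 t ht
    exact ⟨x, by rwa [one_mul] at hx⟩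

/-- every `β < 1 / 2`, all fields -/
theorem high_all (β : ℝ) (hβ0 : 0 ≤ β) (hβ : β < 1 / 2) :
    ∃ C : ℝ, 0 < C ∧ ∀ ε : ℝ, 0 < ε → WHP (fun n => {g | ∀ b : Fin n → ℝ,
      1 - 2 * β - ε ≤ gap (skJ β g) b ∧ gap (skJ β g) b ≤ 1 ∧
      tmix (skJ β g) b ≤ C * Real.log n ∧
      (∀ t, C * Real.log n ≤ t → ∀ x, tvDist (skJ β g) b t x ≤ 1 / 4) ∧
      (∀ f : Cfg n → ℝ, (∀ x, 0 < f x) →
        ex (skJ β g) b (fun x => f x * Real.log (f x))
          - ex (skJ β g) b f * Real.log (ex (skJ β g) b f)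
          ≤ C * dir (skJ β g) b f (fun x => Real.log (f x))) ∧
      ∀ t, 0 ≤ t → ∀ x, tvDist (skJ β g) b t x ≤ C * n * Real.exp (-(t / C))}) := by
  obtain ⟨C1, hC1, h1⟩ := Unif.high_temp_unif β hβ0 hβ
  obtain ⟨C2, hC2, h2⟩ := high_field β hβ0 hβ
  refine ⟨max C1 C2, lt_max_of_lt_left hC1, fun ε hε => ?_⟩
  refine MainThm.whp_mono (MainThm.whp_inter (h1 ε hε) h2) ?_
  filter_upwards [eventually_ge_atTop 1] with n hn
  rintro g ⟨a, d⟩
  intro b
  obtain ⟨a1, a2, a3, a4⟩ := a b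
  obtain ⟨d1, d2⟩ := d b
  have hlog : 0 ≤ Real.log n := Real.log_natCast_nonneg n
  have hCC : C1 * Real.log n ≤ max C1 C2 * Real.log n :=
    mul_le_mul_of_nonneg_right (le_max_left C1 C2) hlog
  refine ⟨a1, a2, a3.trans hCC, fun t ht => a4 t (hCC.trans ht), ?_, ?_⟩
  · intro f hf
    refine (d1 f hf).trans (mul_le_mul_of_nonneg_right (le_max_right C1 C2) ?_)
    exact F.D8M.dir_log_nonneg b (Asm.skJ_symm β g) hf
  · intro t ht x
    refine (d2 t ht x).trans ?_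
    apply mul_le_mul _ _ (Real.exp_pos _).le (by positivity)
    · exact mul_le_mul_of_nonneg_right (le_max_right _ _) (Nat.cast_nonneg n)
    · apply Real.exp_le_exp.2
      have : t / max C1 C2 ≤ t / C2 := div_le_div_of_nonneg_left ht hC2 (le_max_right _ _)
      linarith

/-- low temperature -/
theorem low (β : ℝ) (hβ : 1 < β) (a : ℕ → ℝ) (ha : Tendsto a atTop atTop) : WHP (fun n => {g |
      gap (skJ β g) (fun _ => 0) ≤ a n / n ∧
      Real.log 2 * (n / a n) ≤ tmix (skJ β g) (fun _ => 0) ∧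
      ∀ t, 0 ≤ t → ∃ x,
        Real.exp (-(a n / n * t)) / 2 ≤ tvDist (skJ β g) (fun _ => 0) t x}) := by
  refine MainThm.whp_mono (F.main_full.2.2 β hβ a ha) ?_
  filter_upwards [eventually_ge_atTop 1] with n hn
  rintro g ⟨a1, a2⟩
  exact ⟨a1, a2, fun t ht => exists_tv_ge (by omega) (Asm.skJ_symm β g) (fun _ => 0) a1 t ht⟩

end Vale.Agent.P150.H185
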