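import Mathlib
import Vale.Agent.P150.H185.CritDet
import Vale.Agent.P150.H185.CritSemi
import Vale.Agent.P150.Bdl.B39
import Vale.Agent.P150.H185.Main

/-! The spectral gap of the SK heat-bath dynamics is at most `(1-β)² + o(1)`; at the critical point
`β = 1` it is at most `a n / n ^ (1/3)` for every `a n → ∞`. -/

open MeasureTheory ProbabilityTheory Filter Topology

namespace Vale.Agent.P150.H185.Crit

open Vale.Agent.P150.Cav

/-- inequality at fixed `n` -/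
theorem prob_gap_ge_le {β γ : ℝ} {u z : ℂ} (hu : 0 < u.im) (hzu : z = u + u⁻¹) (hz : 0 < z.im)
    (hγ : 0 < γ) {r L : ℝ} (hr : r ≤ u.im / ‖u - β‖ ^ 2 - γ⁻¹ * (u.im / ‖u‖ ^ 2)) (hr0 : 0 < r)
    {n : ℕ} (hn : 0 < n)
    (hL : ∫ g : Pairs n → ℝ, ‖mm z g - u⁻¹‖ ^ 2 ∂(disorder n) ≤ L) :
    (disorder n).real {g | γ ≤ gap (skJ β g) (fun _ => 0)} ≤
      ((γ * r / 2) ^ 2)⁻¹ * L + ((‖u - β‖ * r / 2) ^ 2)⁻¹ * (2 * (
      3 * ((7 * |β| * (z.im)⁻¹ + 2 * (z.im)⁻¹ ^ 2 * (n : ℝ)⁻¹) ^ 2 * (γ * n)⁻¹ +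
        9 * (z.im)⁻¹ ^ 4 * (n : ℝ)⁻¹ ^ 2 + (z.im)⁻¹ ^ 2 * L) +
      2 * (2 * |β| * (z.im)⁻¹ + 2 * (z.im)⁻¹ ^ 2 * (n : ℝ)⁻¹) * √((γ * n)⁻¹))) := by
  have hn' : (0 : ℝ) < n := by exact_mod_cast hn
  have him : (u - (β : ℂ)).im = u.im := by simp
  have hne : u - (β : ℂ) ≠ 0 := by
    intro h
    have := congrArg Complex.im h
    rw [him] at this
    simp only [Complex.zero_im] at this
    exact hu.ne' this
  have hD : 0 < ‖u - (β : ℂ)‖ := norm_pos_iff.2 hne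
  set D : ℝ := ‖u - (β : ℂ)‖ with hDdef
  set A : ℝ := (z.im)⁻¹ with hA
  have hA0 : 0 < A := by positivity
  set κ : ℝ := γ * r / 2 with hκ
  have hκ0 : 0 < κ := by positivity
  set c0 : ℝ := D * r / 2 with hc0
  have hc00 : 0 < c0 := by positivity
  set ε : ℝ := (γ * n)⁻¹ with hεdef
  have hε : 0 < ε := by positivity
  set I : ℝ := ∫ g : Pairs n → ℝ, ‖mm z g - u⁻¹‖ ^ 2 ∂(disorder n) with hI
  have hS := second_moment (n := n) hε u z hzu hz β hn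
  set E2 : ℝ := ∫ g : Pairs n → ℝ, Ph ε 1 β g * ‖th u z β g‖ ^ 2 ∂(disorder n) with hE2
  have hmc := continuous_mm (n := n) z hz
  have hImm : Integrable (fun g : Pairs n → ℝ => ‖mm z g - u⁻¹‖ ^ 2) (disorder n) := by
    refine Integrable.of_bound ((hmc.sub continuous_const).norm.pow
      2).measurable.aestronglyMeasurable
      ((A + ‖u⁻¹‖) ^ 2) (Eventually.of_forall fun g => ?_)
    rw [Real.norm_eq_abs, abs_of_nonneg (by positivity)]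
    exact pow_le_pow_left₀ (norm_nonneg _)
      ((norm_sub_le _ _).trans (add_le_add (norm_mm_le z hz hn g) le_rfl)) 2
  have hIth : Integrable (fun g : Pairs n → ℝ => Ph ε 1 β g * ‖th u z β g‖ ^ 2)
      (disorder n) := by
    refine Integrable.of_bound ((continuous_Ph hε 1 β).mul
      ((continuous_th u z hz β).norm.pow 2)).measurable.aestronglyMeasurable
      (ε⁻¹ * (D * A + 1) ^ 2) (Eventually.of_forall fun g => ?_)
    rw [Real.norm_eq_abs, abs_of_nonneg (mul_nonneg (Ph_pos hε 1 β g).le (sq_nonneg _))]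
    exact mul_le_mul (Ph_one_bounds hε β g).1
      (pow_le_pow_left₀ (norm_nonneg _) (norm_th_le u z hz β hn g) 2) (sq_nonneg _)
      (by positivity)
  -- Markov
  have hM1 := mul_meas_ge_le_integral_of_nonneg (μ := disorder n)
    (Eventually.of_forall fun g : Pairs n → ℝ => sq_nonneg ‖mm z g - u⁻¹‖) hImm (κ ^ 2)
  have hM2 := mul_meas_ge_le_integral_of_nonneg (μ := disorder n)
    (Eventually.of_forall fun g : Pairs n → ℝ =>
      mul_nonneg (Ph_pos hε 1 β g).le (sq_nonneg ‖th u z β g‖)) hIth ((2 * ε)⁻¹ * c0 ^ 2)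
  have hsub : {g : Pairs n → ℝ | γ ≤ gap (skJ β g) (fun _ => 0)} ⊆
      {g | κ ^ 2 ≤ ‖mm z g - u⁻¹‖ ^ 2} ∪
      {g | (2 * ε)⁻¹ * c0 ^ 2 ≤ Ph ε 1 β g * ‖th u z β g‖ ^ 2} := by
    intro g hg
    have hg' : γ ≤ gap (skJ β g) (fun _ => 0) := hg
    by_cases hm : κ ≤ ‖mm z g - u⁻¹‖
    · exact Or.inl (pow_le_pow_left₀ hκ0.le hm 2)
    · refine Or.inr ?_
      have hm' : ‖mm z g - u⁻¹‖ ≤ κ := (not_le.1 hm).le
      have h1 := defect_lower u z hu hz hγ hg'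
      rw [← hDdef] at h1
      have h2 : γ⁻¹ * ‖mm z g - u⁻¹‖ ≤ r / 2 := by
        calc γ⁻¹ * ‖mm z g - u⁻¹‖ ≤ γ⁻¹ * κ := mul_le_mul_of_nonneg_left hm' (by positivity)
          _ = r / 2 := by rw [hκ]; field_simp
      have h3 : c0 ≤ ‖th u z β g‖ := by
        refine le_trans ?_ h1
        calc c0 = D * (r - r / 2) := by rw [hc0]; ring
          _ ≤ _ := mul_le_mul_of_nonneg_left (by linarith only [h2, hr]) hD.le
      have h4 : c0 ^ 2 ≤ ‖th u z β g‖ ^ 2 := pow_le_pow_left₀ hc00.le h3 2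
      have hY := YY_nonneg β g
      have h5 : YY β g ≤ ε := by
        have h6 := gap_mul_YY_le hn β g
        have h7 : γ * (n * YY β g) ≤ 1 :=
          (mul_le_mul_of_nonneg_right hg' (mul_nonneg hn'.le hY)).trans h6
        rw [hεdef, ← one_div, le_div_iff₀ (by positivity)]
        linarith only [h7]
      have h6 : (2 * ε)⁻¹ ≤ Ph ε 1 β g := by
        rw [Ph_one]
        exact inv_anti₀ (by linarith only [hε, hY]) (by linarith only [h5])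
      exact mul_le_mul h6 h4 (sq_nonneg _) (Ph_pos hε 1 β g).le
  have h1 : (disorder n).real {g | γ ≤ gap (skJ β g) (fun _ => 0)} ≤
      (disorder n).real {g : Pairs n → ℝ | κ ^ 2 ≤ ‖mm z g - u⁻¹‖ ^ 2} +
      (disorder n).real {g : Pairs n → ℝ | (2 * ε)⁻¹ * c0 ^ 2 ≤
        Ph ε 1 β g * ‖th u z β g‖ ^ 2} :=
    (measureReal_mono hsub).trans (measureReal_union_le _ _)
  have h2 : (disorder n).real {g : Pairs n → ℝ | κ ^ 2 ≤ ‖mm z g - u⁻¹‖ ^ 2} ≤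
      (κ ^ 2)⁻¹ * L := by
    rw [inv_mul_eq_div, le_div_iff₀ (by positivity), mul_comm]
    exact hM1.trans hL
  have h3 : (disorder n).real {g : Pairs n → ℝ | (2 * ε)⁻¹ * c0 ^ 2 ≤
        Ph ε 1 β g * ‖th u z β g‖ ^ 2} ≤ (c0 ^ 2)⁻¹ * (2 * (ε * E2)) := by
    set p : ℝ := (disorder n).real {g : Pairs n → ℝ | (2 * ε)⁻¹ * c0 ^ 2 ≤
        Ph ε 1 β g * ‖th u z β g‖ ^ 2} with hp
    have e1 : p = (c0 ^ 2)⁻¹ * (2 * (ε * ((2 * ε)⁻¹ * c0 ^ 2 * p))) := by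
      field_simp
    rw [e1]
    refine mul_le_mul_of_nonneg_left ?_ (by positivity)
    refine mul_le_mul_of_nonneg_left ?_ (by norm_num)
    exact mul_le_mul_of_nonneg_left hM2 hε.le
  have h4 : A ^ 2 * I ≤ A ^ 2 * L := mul_le_mul_of_nonneg_left hL (by positivity)
  have h5 : (c0 ^ 2)⁻¹ * (2 * (ε * E2)) ≤ (c0 ^ 2)⁻¹ * (2 * (
      3 * ((7 * |β| * A + 2 * A ^ 2 * (n : ℝ)⁻¹) ^ 2 * ε +
        9 * A ^ 4 * (n : ℝ)⁻¹ ^ 2 + A ^ 2 * L) +
      2 * (2 * |β| * A + 2 * A ^ 2 * (n : ℝ)⁻¹) * √ε)) :=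
    mul_le_mul_of_nonneg_left (by linarith only [h4, hS]) (by positivity)
  linarith only [h1, h2, h3, h5]

/-- the spectral parameter -/
lemma param {τ : ℝ} (hτ : 0 < τ) (hτ1 : τ ≤ 1 / 4) (β : ℝ) :
    ∃ u : ℂ, u.im = τ ∧ ‖u‖ ^ 2 = (1 + τ) ^ 2 + τ ^ 2 ∧
      ‖u - β‖ ^ 2 = (1 + τ - β) ^ 2 + τ ^ 2 ∧ 1 ≤ ‖u‖ ∧ ‖u - u⁻¹‖ ≤ 4 * u.im ∧
      τ ^ 2 ≤ (u + u⁻¹).im := by
  set u : ℂ := ⟨1 + τ, τ⟩ with hu
  have hure : u.re = 1 + τ := rfl
  have huim : u.im = τ := rfl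
  have hns : Complex.normSq u = (1 + τ) ^ 2 + τ ^ 2 := by
    rw [Complex.normSq_apply]; simp only [hure, huim]; ring
  have hnu : ‖u‖ ^ 2 = (1 + τ) ^ 2 + τ ^ 2 := by rw [Complex.sq_norm, hns]
  have hnd : ‖u - (β : ℂ)‖ ^ 2 = (1 + τ - β) ^ 2 + τ ^ 2 := by
    rw [Complex.sq_norm, Complex.normSq_apply]
    simp only [Complex.sub_re, Complex.sub_im, Complex.ofReal_re, Complex.ofReal_im, hure, huim]
    ring
  have hN : 1 ≤ (1 + τ) ^ 2 + τ ^ 2 := by nlinarith only [hτ]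
  have hN0 : 0 < (1 + τ) ^ 2 + τ ^ 2 := by linarith only [hN]
  have hu1 : 1 ≤ ‖u‖ := by
    rw [← hnu] at hN
    exact (one_le_sq_iff₀ (norm_nonneg _)).1 hN
  have hu0 : u ≠ 0 := by
    intro h; rw [h] at huim; simp only [Complex.zero_im] at huim; exact hτ.ne huim
  refine ⟨u, rfl, hnu, hnd, hu1, ?_, ?_⟩
  · have e1 : (u - u⁻¹) * u = (u - 1) * (u + 1) := by
      field_simp
      ring
    have h1 : ‖u - u⁻¹‖ * ‖u‖ = ‖u - 1‖ * ‖u + 1‖ := by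
      rw [← norm_mul, e1, norm_mul]
    have h2 : ‖u - u⁻¹‖ ≤ ‖u - 1‖ * ‖u + 1‖ := by
      rw [← h1]
      exact le_mul_of_one_le_right (norm_nonneg _) hu1
    have h3 : (‖u - 1‖ * ‖u + 1‖) ^ 2 ≤ (4 * τ) ^ 2 := by
      rw [mul_pow, Complex.sq_norm, Complex.sq_norm, Complex.normSq_apply, Complex.normSq_apply]
      simp only [Complex.sub_re, Complex.sub_im, Complex.add_re, Complex.add_im, Complex.one_re,
        Complex.one_im, hure, huim]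
      have e2 : ((1 + τ - 1) * (1 + τ - 1) + (τ - 0) * (τ - 0)) *
          ((1 + τ + 1) * (1 + τ + 1) + (τ + 0) * (τ + 0)) =
          τ ^ 2 * (8 + 8 * τ + 4 * τ ^ 2) := by ring
      rw [e2]
      have h4 : 8 + 8 * τ + 4 * τ ^ 2 ≤ 16 := by nlinarith only [hτ, hτ1]
      calc τ ^ 2 * (8 + 8 * τ + 4 * τ ^ 2) ≤ τ ^ 2 * 16 :=
            mul_le_mul_of_nonneg_left h4 (sq_nonneg _)
        _ = (4 * τ) ^ 2 := by ring
    rw [huim]
    exact h2.trans (abs_le_of_sq_le_sq' h3 (by positivity)).2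
  · rw [Complex.add_im, Complex.inv_im, hns, huim]
    have h5 : τ ^ 2 ≤ τ - τ / ((1 + τ) ^ 2 + τ ^ 2) := by
      rw [le_sub_iff_add_le, add_comm, ← le_sub_iff_add_le, div_le_iff₀ hN0]
      nlinarith only [hτ, hτ1, mul_pos hτ hτ, mul_pos (mul_pos hτ hτ) hτ,
        mul_pos (mul_pos hτ hτ) (mul_pos hτ hτ)]
    have e : τ + -τ / ((1 + τ) ^ 2 + τ ^ 2) = τ - τ / ((1 + τ) ^ 2 + τ ^ 2) := by ring
    rw [e]
    exact h5

/-- The probability of a gap at least `γ` tends to zero. -/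
theorem tendsto_gap_ge (β γ τ : ℝ) (hτ : 0 < τ) (hτ1 : τ ≤ 1 / 4)
    (hr : (1 + τ - β) ^ 2 + τ ^ 2 < γ * ((1 + τ) ^ 2 + τ ^ 2)) :
    Tendsto (fun n : ℕ => (disorder n).real {g | γ ≤ gap (skJ β g) (fun _ => 0)}) atTop
      (𝓝 0) := by
  obtain ⟨u, huim, hnu, hnd, hu1, hus, hzim⟩ := param hτ hτ1 β
  have hN0 : 0 < (1 + τ) ^ 2 + τ ^ 2 := by positivity
  have hd0 : 0 < (1 + τ - β) ^ 2 + τ ^ 2 := by positivity
  have hγ : 0 < γ := by
    by_contra h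
    have h1 : γ * ((1 + τ) ^ 2 + τ ^ 2) ≤ 0 :=
      mul_nonpos_of_nonpos_of_nonneg (not_lt.1 h) hN0.le
    linarith only [h1, hr, hd0]
  set z : ℂ := u + u⁻¹ with hz
  have hzim0 : 0 < z.im := lt_of_lt_of_le (by positivity) hzim
  have hu0 : 0 < u.im := by rw [huim]; exact hτ
  set r : ℝ := u.im / ‖u - (β : ℂ)‖ ^ 2 - γ⁻¹ * (u.im / ‖u‖ ^ 2) with hrdef
  have hr0 : 0 < r := by
    rw [hrdef, hnu, hnd, huim, sub_pos]
    have e1 : γ⁻¹ * (τ / ((1 + τ) ^ 2 + τ ^ 2)) = τ / (γ * ((1 + τ) ^ 2 + τ ^ 2)) := by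
      field_simp
    rw [e1]
    exact div_lt_div_of_pos_left hτ hd0 hr
  set A : ℝ := (z.im)⁻¹ with hA
  set F : ℝ → ℝ := fun s => ((γ * r / 2) ^ 2)⁻¹ * (64 * (A * s) ^ 2) +
    ((‖u - β‖ * r / 2) ^ 2)⁻¹ * (2 * (
      3 * ((7 * |β| * A + 2 * A ^ 2 * s) ^ 2 * (γ⁻¹ * s) +
        9 * A ^ 4 * s ^ 2 + A ^ 2 * (64 * (A * s) ^ 2)) +
      2 * (2 * |β| * A + 2 * A ^ 2 * s) * √(γ⁻¹ * s))) with hF
  have hFc : Continuous F := by
    rw [hF]; fun_prop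
  have hF0 : F 0 = 0 := by
    simp [hF]
  have hn0 : Tendsto (fun n : ℕ => ((n : ℝ))⁻¹) atTop (𝓝 0) :=
    tendsto_inv_atTop_zero.comp tendsto_natCast_atTop_atTop
  have hlim : Tendsto (fun n : ℕ => F ((n : ℝ)⁻¹)) atTop (𝓝 0) := by
    have := (hFc.tendsto 0).comp hn0
    rwa [hF0] at this
  have hA24 : Tendsto (fun n : ℕ => 24 * (A * (n : ℝ)⁻¹)) atTop (𝓝 0) := by
    have := (hn0.const_mul A).const_mul 24
    simpa using this
  refine tendsto_of_tendsto_of_tendsto_of_le_of_le' tendsto_const_nhds hlim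
    (Eventually.of_forall fun n => measureReal_nonneg) ?_
  filter_upwards [eventually_gt_atTop 0, hA24.eventually_le_const hu0] with n hn h24
  have hL := local_law (n := n) u hu0 hu1 hus z hz hzim0 hn h24
  have h1 := prob_gap_ge_le (β := β) hu0 hz hzim0 hγ hrdef.le hr0 hn hL
  refine h1.trans (le_of_eq ?_)
  simp only [hF]
  rw [mul_inv γ (n : ℝ)]

/-- For every `β` the gap is at most `(1-β)² + ε` with high probability. -/
theorem gap_upper (β ε : ℝ) (hε : 0 < ε) :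
    WHP (fun n => {g | gap (skJ β g) (fun _ => 0) ≤ (1 - β) ^ 2 + ε}) := by
  -- choice of τ
  have hex : ∃ τ : ℝ, 0 < τ ∧ τ ≤ 1 / 4 ∧
      (1 + τ - β) ^ 2 + τ ^ 2 < ((1 - β) ^ 2 + ε) * ((1 + τ) ^ 2 + τ ^ 2) := by
    have h1 : Tendsto (fun τ : ℝ => ((1 - β) ^ 2 + ε) * ((1 + τ) ^ 2 + τ ^ 2) -
        ((1 + τ - β) ^ 2 + τ ^ 2)) (𝓝[>] 0) (𝓝 ε) := by
      have hc : Continuous (fun τ : ℝ => ((1 - β) ^ 2 + ε) * ((1 + τ) ^ 2 + τ ^ 2) -
        ((1 + τ - β) ^ 2 + τ ^ 2)) := by fun_prop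
      have h2 := hc.tendsto 0
      have e1 : ((1 - β) ^ 2 + ε) * ((1 + (0 : ℝ)) ^ 2 + 0 ^ 2) -
        ((1 + 0 - β) ^ 2 + 0 ^ 2) = ε := by ring
      simp only [e1] at h2
      exact h2.mono_left nhdsWithin_le_nhds
    have h2 := h1.eventually_const_lt hε
    have h5 : ∀ᶠ τ : ℝ in 𝓝[>] 0, τ < 1 / 4 := by
      have : ∀ᶠ τ : ℝ in 𝓝 0, τ < 1 / 4 := gt_mem_nhds (by norm_num)
      exact nhdsWithin_le_nhds this
    obtain ⟨τ, ⟨h3, h6⟩, h4⟩ := ((h2.and h5).and self_mem_nhdsWithin).exists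
    exact ⟨τ, h4, h6.le, by linarith only [h3]⟩
  obtain ⟨τ, hτ, hτ1, hr⟩ := hex
  have h := ENNReal.tendsto_ofReal (tendsto_gap_ge β ((1 - β) ^ 2 + ε) τ hτ hτ1 hr)
  rw [ENNReal.ofReal_zero] at h
  have hbad : WHP (fun n => {g : Pairs n → ℝ |
      (1 - β) ^ 2 + ε ≤ gap (skJ β g) (fun _ => 0)}ᶜ) := by
    unfold WHP
    simp only [compl_compl]
    refine h.congr fun n => ?_
    have : IsProbabilityMeasure (disorder n) := by unfold disorder; infer_instance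
    exact ENNReal.ofReal_toReal (measure_ne_top _ _)
  refine MainThm.whp_mono hbad (Eventually.of_forall fun _ g hg => ?_)
  have hg' : ¬ ((1 - β) ^ 2 + ε ≤ gap (skJ β g) (fun _ => 0)) := hg
  exact (not_le.1 hg').le

/-- explicit bound at the critical point -/
theorem crit_prob {τ : ℝ} (hτ : 0 < τ) (hτ1 : τ ≤ 1 / 4) {n : ℕ} (hn : 0 < n)
    (hbig : 24 ≤ n * τ ^ 3) :
    (disorder n).real {g | 4 * τ ^ 2 ≤ gap (skJ 1 g) (fun _ => 0)} ≤ 5000 * (τ ^ 3 * √n)⁻¹ := by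
  have hn' : (0 : ℝ) < n := by exact_mod_cast hn
  have hn1 : (1 : ℝ) ≤ n := by exact_mod_cast hn
  have hs0 : 0 < √(n : ℝ) := Real.sqrt_pos.2 hn'
  have hss : √(n : ℝ) * √n = n := Real.mul_self_sqrt hn'.le
  set w : ℝ := (τ ^ 3 * √n)⁻¹ with hw
  have hw0 : 0 < w := by positivity
  have hprob : (disorder n).real {g | 4 * τ ^ 2 ≤ gap (skJ 1 g) (fun _ => 0)} ≤ 1 :=
    measureReal_le_one
  rcases le_or_gt w 1 with hw1 | hw1
  swap
  · linarith only [hprob, hw1]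
  obtain ⟨u, huim, hnu, hnd, hu1, hus, hzim⟩ := param hτ hτ1 1
  set z : ℂ := u + u⁻¹ with hz
  have hτ2 : 0 < τ ^ 2 := by positivity
  have hzim0 : 0 < z.im := lt_of_lt_of_le hτ2 hzim
  have hu0 : 0 < u.im := by rw [huim]; exact hτ
  set A : ℝ := (z.im)⁻¹ with hA
  have hA0 : 0 < A := by positivity
  set y : ℝ := τ⁻¹ with hy
  have hy0 : 0 < y := by positivity
  have hyτ : y * τ = 1 := inv_mul_cancel₀ hτ.ne'
  have hy1 : 1 ≤ y := by
    rw [hy, one_le_inv₀ hτ]; linarith only [hτ1]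
  have hAy : A ≤ y ^ 2 := by
    rw [hA, hy, inv_pow]
    exact inv_anti₀ hτ2 hzim
  set s : ℝ := (√(n : ℝ))⁻¹ with hs
  have hsp : 0 < s := by positivity
  have hs2 : (n : ℝ)⁻¹ = s ^ 2 := by
    rw [hs, inv_pow, sq, hss]
  have hs1 : s ≤ 1 := by
    rw [hs]
    exact inv_le_one_of_one_le₀ (Real.one_le_sqrt.2 hn1)
  have hwy : w = y ^ 3 * s := by
    rw [hw, hy, hs, mul_inv, inv_pow]
  have hbig' : y ^ 3 * s ^ 2 ≤ 1 / 24 := by
    rw [← hs2, hy, inv_pow, ← mul_inv, mul_comm (τ ^ 3) (n : ℝ), one_div]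
    exact inv_anti₀ (by norm_num) hbig
  have hys2 : y ^ 2 * s ^ 2 ≤ 1 / 24 := by
    refine le_trans ?_ hbig'
    exact mul_le_mul_of_nonneg_right (pow_le_pow_right₀ hy1 (by norm_num)) (sq_nonneg _)
  have hγ : 0 < 4 * τ ^ 2 := by positivity
  have h24 : 24 * (A * (n : ℝ)⁻¹) ≤ u.im := by
    rw [huim, hs2]
    have h1 : A * s ^ 2 ≤ y ^ 2 * s ^ 2 := mul_le_mul_of_nonneg_right hAy (sq_nonneg _)
    have h2 : y ^ 2 * s ^ 2 = (y ^ 3 * s ^ 2) * τ := by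
      calc y ^ 2 * s ^ 2 = y ^ 2 * s ^ 2 * (y * τ) := by rw [hyτ, mul_one]
        _ = _ := by ring
    have h3 : (y ^ 3 * s ^ 2) * τ ≤ 1 / 24 * τ := mul_le_mul_of_nonneg_right hbig' hτ.le
    linarith only [h1, h2, h3]
  have hL := local_law (n := n) u hu0 hu1 hus z hz hzim0 hn h24
  rw [← hA] at hL
  have hnd' : ‖u - ((1 : ℝ) : ℂ)‖ ^ 2 = 2 * τ ^ 2 := by
    rw [hnd]; ring
  set r : ℝ := y / 4 with hr
  have hr0 : 0 < r := by positivity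
  have hrle : r ≤ u.im / ‖u - ((1 : ℝ) : ℂ)‖ ^ 2 - (4 * τ ^ 2)⁻¹ * (u.im / ‖u‖ ^ 2) := by
    have h1 : u.im / ‖u‖ ^ 2 ≤ τ := by
      rw [huim]
      exact div_le_self hτ.le (one_le_pow₀ hu1)
    have h2 : (4 * τ ^ 2)⁻¹ * (u.im / ‖u‖ ^ 2) ≤ (4 * τ ^ 2)⁻¹ * τ :=
      mul_le_mul_of_nonneg_left h1 (by positivity)
    have h3 : (4 * τ ^ 2)⁻¹ * τ = y / 4 := by
      rw [hy]; field_simp
    have h4 : u.im / ‖u - ((1 : ℝ) : ℂ)‖ ^ 2 = y / 2 := by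
      rw [hnd', huim, hy]; field_simp
    rw [h4, hr]
    linarith only [h2, h3]
  have h1 := prob_gap_ge_le (β := 1) hu0 hz hzim0 hγ hrle hr0 hn hL
  rw [← hA, hs2] at h1
  have e1 : ((4 * τ ^ 2 * r / 2) ^ 2)⁻¹ = 4 * y ^ 2 := by
    rw [hr, hy]; field_simp; norm_num
  have e2 : ((‖u - ((1 : ℝ) : ℂ)‖ * r / 2) ^ 2)⁻¹ = 32 := by
    have : (‖u - ((1 : ℝ) : ℂ)‖ * r / 2) ^ 2 = ‖u - ((1 : ℝ) : ℂ)‖ ^ 2 * r ^ 2 / 4 := by ring
    rw [this, hnd', hr, hy]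
    field_simp
    norm_num
  have e3 : (4 * τ ^ 2 * (n : ℝ))⁻¹ = (y * s / 2) ^ 2 := by
    rw [mul_inv, hs2, hy]
    field_simp
    norm_num
  have e4 : √((4 * τ ^ 2 * (n : ℝ))⁻¹) = y * s / 2 := by
    rw [e3]; exact Real.sqrt_sq (by positivity)
  rw [e1, e2, e4, e3, abs_one] at h1
  refine h1.trans ?_
  -- the five terms
  have hA2 : A ^ 2 ≤ y ^ 4 := by
    calc A ^ 2 ≤ (y ^ 2) ^ 2 := pow_le_pow_left₀ hA0.le hAy 2
      _ = y ^ 4 := by ring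
  have hA4 : A ^ 4 ≤ y ^ 8 := by
    calc A ^ 4 ≤ (y ^ 2) ^ 4 := pow_le_pow_left₀ hA0.le hAy 4
      _ = y ^ 8 := by ring
  have hAs : A ^ 2 * s ^ 2 ≤ 1 / 24 * y ^ 2 := by
    calc A ^ 2 * s ^ 2 ≤ y ^ 4 * s ^ 2 := mul_le_mul_of_nonneg_right hA2 (sq_nonneg _)
      _ = (y ^ 2 * s ^ 2) * y ^ 2 := by ring
      _ ≤ 1 / 24 * y ^ 2 := mul_le_mul_of_nonneg_right hys2 (sq_nonneg _)
  have hw2 : w ^ 2 = y ^ 6 * s ^ 2 := by rw [hwy]; ring
  have hw2w : w ^ 2 ≤ w := by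
    rw [sq]; exact mul_le_of_le_one_left hw0.le hw1
  have hw20 : 0 ≤ w ^ 2 := sq_nonneg _
  have t1 : 4 * y ^ 2 * (64 * (A * s ^ 2) ^ 2) ≤ 11 * w ^ 2 := by
    have h2 : (A * s ^ 2) ^ 2 ≤ y ^ 4 * s ^ 4 := by
      calc (A * s ^ 2) ^ 2 = A ^ 2 * s ^ 4 := by ring
        _ ≤ _ := mul_le_mul_of_nonneg_right hA2 (by positivity)
    calc 4 * y ^ 2 * (64 * (A * s ^ 2) ^ 2) ≤ 4 * y ^ 2 * (64 * (y ^ 4 * s ^ 4)) := by
          refine mul_le_mul_of_nonneg_left ?_ (by positivity)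
          exact mul_le_mul_of_nonneg_left h2 (by norm_num)
      _ = 256 * (y ^ 6 * s ^ 2) * s ^ 2 := by ring
      _ = 256 * w ^ 2 * s ^ 2 := by rw [hw2]
      _ ≤ 256 * w ^ 2 * (1 / 24) := by
          refine mul_le_mul_of_nonneg_left ?_ (by positivity)
          refine le_trans ?_ hys2
          exact le_mul_of_one_le_left (sq_nonneg _) (one_le_pow₀ hy1)
      _ ≤ 11 * w ^ 2 := by linarith only [hw20]
  have t2 : (7 * 1 * A + 2 * A ^ 2 * s ^ 2) ^ 2 * (y * s / 2) ^ 2 ≤ 16 * w ^ 2 := by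
    have h2 : 7 * 1 * A + 2 * A ^ 2 * s ^ 2 ≤ 8 * y ^ 2 := by
      linarith only [hAy, hAs, sq_nonneg y]
    have h3 : (7 * 1 * A + 2 * A ^ 2 * s ^ 2) ^ 2 ≤ (8 * y ^ 2) ^ 2 :=
      pow_le_pow_left₀ (by positivity) h2 2
    calc _ ≤ (8 * y ^ 2) ^ 2 * (y * s / 2) ^ 2 := mul_le_mul_of_nonneg_right h3 (sq_nonneg _)
      _ = 16 * (y ^ 6 * s ^ 2) := by ring
      _ = _ := by rw [hw2]
  have hy8 : y ^ 8 * s ^ 4 ≤ 1 / 24 * w ^ 2 := by
    calc y ^ 8 * s ^ 4 = (y ^ 2 * s ^ 2) * (y ^ 6 * s ^ 2) := by ring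
      _ = (y ^ 2 * s ^ 2) * w ^ 2 := by rw [hw2]
      _ ≤ _ := mul_le_mul_of_nonneg_right hys2 hw20
  have hA4s : A ^ 4 * s ^ 4 ≤ y ^ 8 * s ^ 4 := mul_le_mul_of_nonneg_right hA4 (by positivity)
  have t3 : 9 * A ^ 4 * (s ^ 2) ^ 2 ≤ w ^ 2 := by
    calc 9 * A ^ 4 * (s ^ 2) ^ 2 = 9 * (A ^ 4 * s ^ 4) := by ring
      _ ≤ w ^ 2 := by linarith only [hA4s, hy8, hw20]
  have t4 : A ^ 2 * (64 * (A * s ^ 2) ^ 2) ≤ 3 * w ^ 2 := by
    calc A ^ 2 * (64 * (A * s ^ 2) ^ 2) = 64 * (A ^ 4 * s ^ 4) := by ring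
      _ ≤ 3 * w ^ 2 := by linarith only [hA4s, hy8, hw20]
  have t5 : 2 * (2 * 1 * A + 2 * A ^ 2 * s ^ 2) * (y * s / 2) ≤ 3 * w := by
    have h2 : 2 * 1 * A + 2 * A ^ 2 * s ^ 2 ≤ 3 * y ^ 2 := by
      linarith only [hAy, hAs, sq_nonneg y]
    calc _ ≤ 2 * (3 * y ^ 2) * (y * s / 2) := by
          refine mul_le_mul_of_nonneg_right ?_ (by positivity)
          linarith only [h2]
      _ = 3 * (y ^ 3 * s) := by ring
      _ = _ := by rw [hwy]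
  linarith only [t1, t2, t3, t4, t5, hw2w, hw20, hw0]

/-- The gap at the critical point is at most `a n / n ^ (1/3)` with high probability. -/
theorem gap_crit (a : ℕ → ℝ) (ha : Tendsto a atTop atTop) :
    WHP (fun n => {g | gap (skJ 1 g) (fun _ => 0) ≤ a n / (n : ℝ) ^ (1 / 3 : ℝ)}) := by
  have hreal : Tendsto (fun n : ℕ => (disorder n).real
      {g | gap (skJ 1 g) (fun _ => 0) ≤ a n / (n : ℝ) ^ (1 / 3 : ℝ)}ᶜ) atTop (𝓝 0) := by
    rw [Metric.tendsto_atTop]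
    intro e he
    set k : ℝ := 5000 / e + 1 with hk
    have hk1 : 1 ≤ k := by
      have : 0 < 5000 / e := by positivity
      linarith only [this, hk]
    have hk0 : 0 < k := by linarith only [hk1]
    have hke : 5000 * (k ^ 3)⁻¹ < e := by
      have h1 : 5000 < e * k := by
        have : e * k = 5000 + e := by rw [hk]; field_simp
        linarith only [this, he]
      have h2 : k ≤ k ^ 3 := le_self_pow₀ hk1 (by norm_num)
      have h3 : 5000 < e * k ^ 3 :=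
        lt_of_lt_of_le h1 (mul_le_mul_of_nonneg_left h2 he.le)
      rw [← div_eq_mul_inv, div_lt_iff₀ (by positivity)]
      exact h3
    have hq : Tendsto (fun n : ℕ => (n : ℝ) ^ (1 / 6 : ℝ)) atTop atTop :=
      (tendsto_rpow_atTop (by norm_num)).comp tendsto_natCast_atTop_atTop
    have hev := ((eventually_gt_atTop 0).and (hq.eventually_ge_atTop (4 * k + 24))).and
      (ha.eventually_ge_atTop (4 * k ^ 2))
    obtain ⟨N, hN⟩ := eventually_atTop.1 hev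
    refine ⟨N, fun n hn => ?_⟩
    obtain ⟨⟨hn0, hn1⟩, hn2⟩ := hN n hn
    have hn' : (0 : ℝ) < n := by exact_mod_cast hn0
    rw [Real.dist_eq, sub_zero, abs_of_nonneg measureReal_nonneg]
    set q : ℝ := (n : ℝ) ^ (1 / 6 : ℝ) with hqdef
    have hq0 : 0 < q := Real.rpow_pos_of_pos hn' _
    have hq2 : q ^ 2 = (n : ℝ) ^ (1 / 3 : ℝ) := by
      rw [hqdef, ← Real.rpow_natCast, ← Real.rpow_mul hn'.le]
      norm_num
    have hq3 : q ^ 3 = √n := by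
      rw [hqdef, ← Real.rpow_natCast, ← Real.rpow_mul hn'.le, Real.sqrt_eq_rpow]
      norm_num
    have hq6 : q ^ 6 = n := by
      rw [hqdef, ← Real.rpow_natCast, ← Real.rpow_mul hn'.le]
      norm_num
    set τ : ℝ := k / q with hτ
    have hτ0 : 0 < τ := by positivity
    have hτ1 : τ ≤ 1 / 4 := by
      rw [hτ, div_le_iff₀ hq0]
      linarith only [hn1]
    have hτ3 : τ ^ 3 * √n = k ^ 3 := by
      rw [← hq3, hτ]; field_simp
    have hq24 : 24 ≤ q := by linarith only [hn1, hk0]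
    have hbig : 24 ≤ n * τ ^ 3 := by
      have e1 : n * τ ^ 3 = q ^ 3 * k ^ 3 := by
        rw [← hq6, hτ]; field_simp
      rw [e1]
      have h1 : 1 ≤ k ^ 3 := one_le_pow₀ hk1
      have h2 : q ≤ q ^ 3 := le_self_pow₀ (by linarith only [hq24]) (by norm_num)
      calc (24 : ℝ) ≤ q ^ 3 * 1 := by linarith only [h2, hq24]
        _ ≤ q ^ 3 * k ^ 3 := mul_le_mul_of_nonneg_left h1 (by positivity)
    have h1 := crit_prob hτ0 hτ1 hn0 hbig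
    rw [hτ3] at h1
    refine lt_of_le_of_lt (measureReal_mono ?_) (lt_of_le_of_lt h1 hke)
    intro g hg
    have hg' : ¬ (gap (skJ 1 g) (fun _ => 0) ≤ a n / (n : ℝ) ^ (1 / 3 : ℝ)) := hg
    have h2 : 4 * τ ^ 2 ≤ a n / (n : ℝ) ^ (1 / 3 : ℝ) := by
      rw [← hq2, hτ, div_pow, ← mul_div_assoc]
      exact div_le_div_of_nonneg_right hn2 (by positivity)
    exact h2.trans (not_le.1 hg').le
  have h := ENNReal.tendsto_ofReal hreal
  rw [ENNReal.ofReal_zero] at h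
  unfold WHP
  refine h.congr fun n => ?_
  have : IsProbabilityMeasure (disorder n) := by unfold disorder; infer_instance
  exact ENNReal.ofReal_toReal (measure_ne_top _ _)

/-- Slow mixing at the critical point. -/
theorem crit (a : ℕ → ℝ) (ha : Tendsto a atTop atTop) : WHP (fun n => {g |
      gap (skJ 1 g) (fun _ => 0) ≤ a n / (n : ℝ) ^ (1 / 3 : ℝ) ∧
      Real.log 2 * ((n : ℝ) ^ (1 / 3 : ℝ) / a n) ≤ tmix (skJ 1 g) (fun _ => 0) ∧
      ∀ t, 0 ≤ t → ∃ x, Real.exp (-(a n / (n : ℝ) ^ (1 / 3 : ℝ) * t)) / 2 ≤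
        tvDist (skJ 1 g) (fun _ => 0) t x}) := by
  refine MainThm.whp_mono (gap_crit a ha) ?_
  filter_upwards [eventually_gt_atTop 0, ha.eventually_gt_atTop 0] with n hn han
  intro g hg
  have hn' : (0 : ℝ) < n := by exact_mod_cast hn
  have hg' : gap (skJ 1 g) (fun _ => 0) ≤ a n / (n : ℝ) ^ (1 / 3 : ℝ) := hg
  have hp : 0 < (n : ℝ) ^ (1 / 3 : ℝ) := Real.rpow_pos_of_pos hn' _
  refine ⟨hg', ?_, fun t ht => exists_tv_ge hn (Asm.skJ_symm 1 g) (fun _ => 0) hg' t ht⟩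
  have h5 := tmix_ge hn (skJ_symm 1 g) (fun _ => 0) (a := a n / (n : ℝ) ^ (1 / 3 : ℝ))
    (by positivity) hg'
  refine le_trans (le_of_eq ?_) h5
  field_simp

end Vale.Agent.P150.H185.Crit
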