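import Mathlib
import Vale.Agent.P150.Bdl.B39
import Vale.Agent.P150.H185.Field
import Vale.Agent.P150.H185.AT

/-! Approximate tensorization of entropy and the logarithmic Sobolev inequality for `β < 1 / 2`,
uniformly over all external fields. -/

open MeasureTheory ProbabilityTheory Filter Topology

namespace Vale.Agent.P150.H185

open Vale.Agent.P150.Semi Vale.Agent.P150.Unif Vale.Agent.P150.Chan

open Classical in
/-- a linear functional as a diagonal quadratic form -/
noncomputable def diagA {n : ℕ} (G : Cfg n → ℝ) (x x' : Cfg n) : ℝ :=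
  if x' = x then 2 * G x else 0

lemma dirU_diag {n : ℕ} (J : Fin n → Fin n → ℝ) (hJ : ∀ i j, J i j = J j i)
    (B : Fin n → Fin n → ℝ) (hB : ∀ i j, i ≠ j → ∑ k, B i k * B j k = J i j) (b : Fin n → ℝ)
    (G : Cfg n → ℝ) (s : ℝ) (y : Fin n → ℝ) :
    dirU (xiB B) (cB b) (diagA G) s y = Vale.Agent.P150.Chan.lin (xiB B) (cB b) (fun _ => 1) s y
      * ex (fun i j => s * J i j) (bB B b y) G := by
  rw [← lin_eq J hJ B hB b G]
  unfold dirU diagA Vale.Agent.P150.Chan.lin
  apply Finset.sum_congr rfl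
  intro x _
  rw [Finset.sum_eq_single x]
  · rw [if_pos rfl]
    have := wt_pos (xiB B) (cB b) (fun x => Real.exp_pos _) s y x
    field_simp
    ring
  · intro x' _ hx'
    rw [if_neg hx', zero_mul]
  · simp

/-- entropy below the mean of a nonnegative function, from a uniform covariance bound along
`t * J`, given the product case -/
theorem ent_le_of_prod {n : ℕ} (f : Cfg n → ℝ) (hf : ∀ x, 0 < f x) (G : Cfg n → ℝ)
    (hG : ∀ x, 0 ≤ G x)
    (hprod : ∀ b : Fin n → ℝ, entG (fun _ _ => 0) b f ≤ ex (fun _ _ => 0) b G)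
    (J : Fin n → Fin n → ℝ) (hJ : ∀ i j, J i j = J j i)
    (B : Fin n → Fin n → ℝ) (hB : ∀ i j, i ≠ j → ∑ k, B i k * B j k = J i j) (α K : ℝ)
    (hα : 0 ≤ α) (hK0 : 0 < K)
    (hBa : ∀ v : Fin n → ℝ, ∑ k, (∑ i, B i k * v i) ^ 2 ≤ α * ∑ i, v i ^ 2)
    (hK : ∀ t ∈ Set.Icc (0:ℝ) 1, ∀ b' v : Fin n → ℝ,
      var (fun i j => t * J i j) b' (fun x => ∑ i, v i * sp (x i)) ≤ K * ∑ i, v i ^ 2)
    (b : Fin n → ℝ) :
    entG J b f ≤ Real.exp (K * α) * ex J b G := by
  have hZ : ∀ s y, 0 < Vale.Agent.P150.Chan.lin (xiB B) (cB b) (fun _ => 1) s y := fun s y =>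
    lin_pos _ _ (fun x => Real.exp_pos _) _ (fun _ => one_pos) _ _
  have hmain := super (xiB B) (cB b) (fun x => Real.exp_pos _) (diagA G)
    (fun x x' => by
      unfold diagA
      split_ifs
      · have := hG x; linarith
      · exact le_rfl) f hf (K * α) (mul_nonneg hK0.le hα) ?_ ?_ 1 (by simp) 0
  · rw [entU_eq J hJ B hB b f hf, dirU_diag J hJ B hB] at hmain
    have h1 : (fun i j => 1 * J i j) = J := by funext i j; rw [one_mul]
    have h2 : bB B b 0 = b := by funext i; unfold bB; simp
    rw [h1, h2, mul_one] at hmain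
    have := hZ 1 0
    rw [mul_left_comm] at hmain
    exact le_of_mul_le_mul_left hmain this
  · intro y
    rw [entU_eq J hJ B hB b f hf, dirU_diag J hJ B hB]
    apply mul_le_mul_of_nonneg_left _ (hZ 0 y).le
    have h1 : (fun i j => 0 * J i j) = fun _ _ => 0 := by funext i j; rw [zero_mul]
    rw [h1]
    exact hprod _
  · intro s hs y
    set J' : Fin n → Fin n → ℝ := fun i j => s * J i j with hJ'
    set b' := bB B b y with hb'
    have hexf : 0 < ex J' b' f :=
      Finset.sum_pos (fun x _ => mul_pos (gibbs_pos _ _ x) (hf x)) Finset.univ_nonempty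
    have hZs := hZ s y
    rw [entU_eq J hJ B hB b f hf]
    have hmean := mean_shift_le J' b' K hK0 (fun b'' v => hK s hs b'' v) f hf
    have hsum : ∑ k, (Vale.Agent.P150.Chan.lin (xiB B) (cB b) (fun x => f x * xiB B x k) s y / Vale.Agent.P150.Chan.lin (xiB B) (cB b) f s y
        - Vale.Agent.P150.Chan.lin (xiB B) (cB b) (fun x => 1 * xiB B x k) s y
          / Vale.Agent.P150.Chan.lin (xiB B) (cB b) (fun _ => 1) s y) ^ 2
        ≤ α * ∑ i, (ex J' b' (fun x => f x * sp (x i)) / ex J' b' f
          - ex J' b' (fun x => sp (x i))) ^ 2 := by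
      refine le_trans (le_of_eq ?_) (hBa _)
      apply Finset.sum_congr rfl; intro k _
      congr 1
      rw [lin_eq J hJ B hB b (fun x => f x * xiB B x k), lin_eq J hJ B hB b f,
        lin_eq J hJ B hB b (fun x => 1 * xiB B x k), mul_div_mul_left _ _ hZs.ne',
        mul_div_cancel_left₀ _ hZs.ne']
      have e1 : ex J' b' (fun x => f x * xiB B x k)
          = ∑ i, B i k * ex J' b' (fun x => f x * sp (x i)) := by
        unfold ex xiB
        simp only [Finset.mul_sum]
        rw [Finset.sum_comm]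
        apply Finset.sum_congr rfl; intro i _
        apply Finset.sum_congr rfl; intro x _; ring
      have e2 : ex J' b' (fun x => 1 * xiB B x k)
          = ∑ i, B i k * ex J' b' (fun x => sp (x i)) := by
        unfold ex xiB
        simp only [Finset.mul_sum]
        rw [Finset.sum_comm]
        apply Finset.sum_congr rfl; intro i _
        apply Finset.sum_congr rfl; intro x _; ring
      rw [e1, e2, Finset.sum_div, ← Finset.sum_sub_distrib]
      apply Finset.sum_congr rfl; intro i _
      ring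
    rw [lin_eq J hJ B hB b f]
    have hU0 : 0 < Vale.Agent.P150.Chan.lin (xiB B) (cB b) (fun _ => 1) s y * ex J' b' f := mul_pos hZs hexf
    calc _ ≤ Vale.Agent.P150.Chan.lin (xiB B) (cB b) (fun _ => 1) s y * ex J' b' f
          * (α * ∑ i, (ex J' b' (fun x => f x * sp (x i)) / ex J' b' f
          - ex J' b' (fun x => sp (x i))) ^ 2) := by
          rw [lin_eq J hJ B hB b f] at hsum
          exact mul_le_mul_of_nonneg_left hsum hU0.le
      _ = Vale.Agent.P150.Chan.lin (xiB B) (cB b) (fun _ => 1) s y * α * (ex J' b' f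
          * ∑ i, (ex J' b' (fun x => f x * sp (x i)) / ex J' b' f
          - ex J' b' (fun x => sp (x i))) ^ 2) := by ring
      _ ≤ Vale.Agent.P150.Chan.lin (xiB B) (cB b) (fun _ => 1) s y * α * (2 * K * entG J' b' f) :=
          mul_le_mul_of_nonneg_left hmean (mul_nonneg hZs.le hα)
      _ = _ := by ring

/-- **Approximate tensorization of entropy** from a uniform covariance bound along `t * J`. -/
theorem at_of_prod {n : ℕ} (J : Fin n → Fin n → ℝ) (hJ : ∀ i j, J i j = J j i)
    (B : Fin n → Fin n → ℝ) (hB : ∀ i j, i ≠ j → ∑ k, B i k * B j k = J i j) (α K : ℝ)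
    (hα : 0 ≤ α) (hK0 : 0 < K)
    (hBa : ∀ v : Fin n → ℝ, ∑ k, (∑ i, B i k * v i) ^ 2 ≤ α * ∑ i, v i ^ 2)
    (hK : ∀ t ∈ Set.Icc (0:ℝ) 1, ∀ b' v : Fin n → ℝ,
      var (fun i j => t * J i j) b' (fun x => ∑ i, v i * sp (x i)) ≤ K * ∑ i, v i ^ 2)
    (b : Fin n → ℝ) (f : Cfg n → ℝ) (hf : ∀ x, 0 < f x) :
    ex J b (fun x => f x * Real.log (f x)) - ex J b f * Real.log (ex J b f)
      ≤ Real.exp (K * α) * ∑ k, (ex J b (fun x => f x * Real.log (f x))
          - ex J b (fun x => resample J b k f x * Real.log (resample J b k f x))) := by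
  have h := ent_le_of_prod f hf (fun x => ∑ k, Dv (f x) (resample J b k f x))
    (fun x => Finset.sum_nonneg fun k _ => Dv_nonneg (hf x) (resample_pos b hJ k hf x))
    (by
      intro b'
      have h1 := entX_le b' f hf (fun k x => resample J b k f x)
        (fun k x => resample_pos b hJ k hf x) (fun k x => resample_flip b hJ k f x)
      have h2 : F.gM (0 : F.Mat n) b' = gibbs (fun _ _ => 0) b' := by
        funext x
        unfold F.gM gibbs energy
        simp only [F.D8E.qf_zero, zero_div, zero_add]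
        simp [F.ip, F.sv]
      rw [h2] at h1
      exact h1)
    J hJ B hB α K hα hK0 hBa hK b
  have h3 := ex_Dv (J := J) b hJ hf
  have h4 : ex J b (fun x => ∑ k, Dv (f x) (resample J b k f x))
      = ∑ k, (ex J b (fun x => f x * Real.log (f x))
          - ex J b (fun x => resample J b k f x * Real.log (resample J b k f x))) := h3
  rw [h4] at h
  exact h

lemma at_sum_nonneg {n : ℕ} {J : Fin n → Fin n → ℝ} (b : Fin n → ℝ) (hJ : ∀ i j, J i j = J j i)
    {f : Cfg n → ℝ} (hf : ∀ x, 0 < f x) :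
    0 ≤ ∑ k, (ex J b (fun x => f x * Real.log (f x))
          - ex J b (fun x => resample J b k f x * Real.log (resample J b k f x))) := by
  rw [← ex_Dv b hJ hf]
  exact Finset.sum_nonneg fun x _ => mul_nonneg (gibbs_pos _ _ x).le
    (Finset.sum_nonneg fun k _ => Dv_nonneg (hf x) (resample_pos _ hJ k hf x))

/-- approximate tensorization of entropy, deterministic couplings, all fields -/
theorem det_unif_at {n : ℕ} (hn : 0 < n)
    (J : Fin n → Fin n → ℝ) (hJs : ∀ i j, J i j = J j i) (hJ0 : ∀ i, J i i = 0)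
    (lam r eta gam : ℝ)
    (hlam : ∀ v : Fin n → ℝ, |∑ i, ∑ j, J i j * v i * v j| ≤ lam * ∑ i, v i ^ 2)
    (hr : ∀ i, ∑ j, J i j ^ 2 ≤ r) (h2r : 2 * r ≤ lam) (heta : ∀ i j, |J i j| ≤ eta)
    (heta1 : eta ≤ 1 / 2000) (hgam : 0 < gam) (hgam1 : gam ≤ 1 - lam - 100000 * eta * r)
    (b : Fin n → ℝ) :
    ∀ f : Cfg n → ℝ, (∀ x, 0 < f x) →
      ex J b (fun x => f x * Real.log (f x)) - ex J b f * Real.log (ex J b f)
        ≤ Real.exp (gam⁻¹ * (2 * lam)) * ∑ k, (ex J b (fun x => f x * Real.log (f x))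
          - ex J b (fun x => resample J b k f x * Real.log (resample J b k f x))) := by
  have hr0 : 0 ≤ r := le_trans (Finset.sum_nonneg fun j _ => sq_nonneg _) (hr ⟨0, hn⟩)
  have hlam0 : 0 ≤ lam := by linarith
  have heta0 : 0 ≤ eta := le_trans (abs_nonneg _) (heta ⟨0, hn⟩ ⟨0, hn⟩)
  -- Bochner for all `t * J`, all fields
  have key : ∀ t ∈ Set.Icc (0:ℝ) 1, ∀ (b : Fin n → ℝ) (f : Cfg n → ℝ),
      gam * dir (fun i j => t * J i j) b f f
        ≤ ex (fun i j => t * J i j) b (fun x => (gen (fun i j => t * J i j) b f x) ^ 2) := by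
    intro t ht b f
    have h := bochnerHyp (fun i j => t * J i j) (fun i j => by rw [hJs]) (fun i => by rw [hJ0, mul_zero])
      lam r eta
      (by
        intro v
        have h1 : ∑ i, ∑ j, t * J i j * v i * v j = t * ∑ i, ∑ j, J i j * v i * v j := by
          rw [Finset.mul_sum]; apply Finset.sum_congr rfl; intro i _
          rw [Finset.mul_sum]; apply Finset.sum_congr rfl; intro j _
          ring
        rw [h1]
        have h2 := (abs_le.mp (hlam v)).2
        have h3 : 0 ≤ lam * ∑ i, v i ^ 2 :=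
          mul_nonneg hlam0 (Finset.sum_nonneg fun _ _ => sq_nonneg _)
        calc t * ∑ i, ∑ j, J i j * v i * v j ≤ t * (lam * ∑ i, v i ^ 2) :=
              mul_le_mul_of_nonneg_left h2 ht.1
          _ ≤ 1 * (lam * ∑ i, v i ^ 2) := mul_le_mul_of_nonneg_right ht.2 h3
          _ = _ := one_mul _)
      (by
        intro i
        have h1 : ∑ j, (t * J i j) ^ 2 = t ^ 2 * ∑ j, J i j ^ 2 := by
          rw [Finset.mul_sum]; apply Finset.sum_congr rfl; intro j _; ring
        rw [h1]
        have h2 : t ^ 2 ≤ 1 := by linarith only [mul_nonneg (sub_nonneg.2 ht.1) (sub_nonneg.2 ht.2), mul_nonneg (sub_nonneg.2 ht.2) (sub_nonneg.2 ht.2)]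
        have h3 : 0 ≤ ∑ j, J i j ^ 2 := Finset.sum_nonneg fun _ _ => sq_nonneg _
        calc t ^ 2 * ∑ j, J i j ^ 2 ≤ 1 * ∑ j, J i j ^ 2 := mul_le_mul_of_nonneg_right h2 h3
          _ ≤ r := by rw [one_mul]; exact hr i)
      h2r
      (by
        intro i j
        rw [abs_mul, abs_of_nonneg ht.1]
        calc t * |J i j| ≤ 1 * |J i j| := mul_le_mul_of_nonneg_right ht.2 (abs_nonneg _)
          _ ≤ eta := by rw [one_mul]; exact heta i j)
      heta1 b f
    refine le_trans (mul_le_mul_of_nonneg_right hgam1 ?_) h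
    exact Poinc.dir_self_nonneg _ b (fun i j => by rw [hJs]) f
  have poin : ∀ t ∈ Set.Icc (0:ℝ) 1, ∀ (b : Fin n → ℝ) (f : Cfg n → ℝ),
      gam * var (fun i j => t * J i j) b f ≤ dir (fun i j => t * J i j) b f f := by
    intro t ht b f
    exact poincare_of_bochner (fun i j => by rw [hJs]) hgam (key t ht b) f
  have e1 : (fun i j => (1:ℝ) * J i j) = J := by ext i j; rw [one_mul]
  have poin1 : ∀ (b : Fin n → ℝ) (f : Cfg n → ℝ), gam * var J b f ≤ dir J b f f := by
    intro b f
    have := poin 1 (by simp) b f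
    rwa [e1] at this
  -- the square root
  obtain ⟨B, hBB⟩ := Asm.exists_sqrt (fun i j => J i j + if i = j then lam else 0)
    (by intro i j; rw [hJs i j]; simp [eq_comm])
    (by
      intro v
      have h1 : ∑ i, ∑ j, (J i j + if i = j then lam else 0) * v i * v j
          = ∑ i, ∑ j, J i j * v i * v j + lam * ∑ i, v i ^ 2 := by
        rw [Finset.mul_sum, ← Finset.sum_add_distrib]
        apply Finset.sum_congr rfl; intro i _
        simp only [add_mul, Finset.sum_add_distrib]
        congr 1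
        simp; ring
      rw [h1]
      have h2 := (abs_le.mp (hlam v)).1
      linarith only [h2])
  have hBa : ∀ v : Fin n → ℝ, ∑ k, (∑ i, B i k * v i) ^ 2 ≤ (2 * lam) * ∑ i, v i ^ 2 := by
    intro v
    have h1 : ∑ k, (∑ i, B i k * v i) ^ 2
        = ∑ i, ∑ j, (J i j + if i = j then lam else 0) * v i * v j := by
      have : ∀ k, (∑ i, B i k * v i) ^ 2 = ∑ i, ∑ j, (B i k * B j k) * (v i * v j) := by
        intro k
        rw [sq, Finset.sum_mul_sum]
        apply Finset.sum_congr rfl; intro i _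
        apply Finset.sum_congr rfl; intro j _
        ring
      rw [Finset.sum_congr rfl (fun k _ => this k), Finset.sum_comm]
      apply Finset.sum_congr rfl; intro i _
      rw [Finset.sum_comm]
      apply Finset.sum_congr rfl; intro j _
      rw [← Finset.sum_mul, hBB]; ring
    have h2 : ∑ i, ∑ j, (J i j + if i = j then lam else 0) * v i * v j
        = ∑ i, ∑ j, J i j * v i * v j + lam * ∑ i, v i ^ 2 := by
      rw [Finset.mul_sum, ← Finset.sum_add_distrib]
      apply Finset.sum_congr rfl; intro i _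
      simp only [add_mul, Finset.sum_add_distrib]
      congr 1
      simp; ring
    rw [h1, h2]
    have h3 := (abs_le.mp (hlam v)).2
    linarith
  intro f hf
  exact at_of_prod J hJs B (by
      intro i j hij
      rw [hBB]; simp [hij]) (2 * lam) gam⁻¹ (by linarith only [hlam0]) (inv_pos.mpr hgam) hBa
      (by
        intro t ht b' v
        exact cov_le (fun i j => by rw [hJs]) hgam (poin t ht b') v)
      b f hf

/-- **High temperature, all external fields**: approximate tensorization of entropy and the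
logarithmic Sobolev inequality -/
theorem high_field_at (β : ℝ) (hβ0 : 0 ≤ β) (hβ : β < 1 / 2) :
    ∃ C : ℝ, 0 < C ∧ WHP (fun n => {g | ∀ b : Fin n → ℝ,
      (∀ f : Cfg n → ℝ, (∀ x, 0 ≤ f x) →
        ex (skJ β g) b (fun x => f x * Real.log (f x))
          - ex (skJ β g) b f * Real.log (ex (skJ β g) b f)
          ≤ C * ∑ i, (ex (skJ β g) b (fun x => f x * Real.log (f x))
            - ex (skJ β g) b (fun x => resample (skJ β g) b i f x
              * Real.log (resample (skJ β g) b i f x)))) ∧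
      ∀ f : Cfg n → ℝ,
        ex (skJ β g) b (fun x => f x ^ 2 * Real.log (f x ^ 2))
          - ex (skJ β g) b (fun x => f x ^ 2) * Real.log (ex (skJ β g) b (fun x => f x ^ 2))
          ≤ C * ∑ i, ex (skJ β g) b (fun x => (f (Function.update x i (!x i)) - f x) ^ 2)}) := by
  set K : ℝ := Real.exp (((1 - 2 * β) / 2)⁻¹ * 4) with hK
  have hKpos : 0 < K := Real.exp_pos _
  have hK1 : 1 ≤ K := by
    rw [hK, Real.one_le_exp_iff]
    have : 0 < (1 - 2 * β) / 2 := by linarith
    positivity
  refine ⟨K, by positivity, ?_⟩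
  set e : ℝ := (1 - 2 * β) / 2 with he
  have he0 : 0 < e := by linarith only [hβ, he]
  have heβ : e ≤ (1 - 2 * β) / 2 := le_rfl
  have he1 : e ≤ 1 / 2 := by linarith only [heβ, hβ0]
  unfold WHP
  refine Asm.tendsto_zero_of_inter (A := fun n => {g | ∀ v : Fin n → ℝ,
      |∑ i, ∑ j, gsym g i j * v i * v j| ≤ (2 + e) * √n * ∑ i, v i ^ 2})
    (B := fun n => {g | ∀ i : Fin n, ∑ j, gsym g i j ^ 2 ≤ (1 + 1) * n})
    (C := fun n => {g | ∀ i j : Fin n, |gsym g i j| ≤ (e / 100000) * √n}) ?_ ?_ ?_
    (goe_norm he0) (goe_rows one_pos) (goe_max (by (clear * - he0; positivity))) ?_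
  · intro n
    apply IsClosed.measurableSet
    simp only [Set.ofPred_forall]
    refine isClosed_iInter fun v => isClosed_le ?_ continuous_const
    refine (continuous_finsetSum _ fun i _ => continuous_finsetSum _ fun j _ => ?_).abs
    exact ((Asm.continuous_gsym i j).mul continuous_const).mul continuous_const
  · intro n
    apply IsClosed.measurableSet
    simp only [Set.ofPred_forall]
    refine isClosed_iInter fun i => isClosed_le ?_ continuous_const
    exact continuous_finsetSum _ fun j _ => (Asm.continuous_gsym i j).pow 2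
  · intro n
    apply IsClosed.measurableSet
    simp only [Set.ofPred_forall]
    refine isClosed_iInter fun i => isClosed_iInter fun j => isClosed_le ?_ continuous_const
    exact (Asm.continuous_gsym i j).abs
  filter_upwards [eventually_ge_atTop 100] with n hn
  rintro g ⟨⟨hA, hB'⟩, hC⟩
  simp only [Set.mem_ofPred_eq] at hA hB' hC ⊢
  intro b
  have hn0 : 0 < n := by omega
  have hn1 : (100:ℝ) ≤ n := by exact_mod_cast hn
  have hsq : 0 < √(n:ℝ) := Real.sqrt_pos.mpr (by positivity)
  have hsq2 : √(n:ℝ) ^ 2 = n := Real.sq_sqrt (by positivity)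
  have hb0 : 0 ≤ β / √n := div_nonneg hβ0 hsq.le
  have hβe : β * e ≤ 1 / 4 := by
    have h1 : β * e ≤ 1 / 2 * (1 / 2) := mul_le_mul hβ.le he1 he0.le (by norm_num)
    linarith only [h1]
  have hβe0 : 0 ≤ β * e := mul_nonneg hβ0 he0.le
  have hβ2 : β ^ 2 ≤ 1 / 4 := by
    have h1 : β * β ≤ 1 / 2 * (1 / 2) := mul_le_mul hβ.le hβ.le hβ0 (by norm_num)
    linarith only [h1]
  have hq1 : ∀ v : Fin n → ℝ, |∑ i, ∑ j, skJ β g i j * v i * v j|
      ≤ β * (2 + e) * ∑ i, v i ^ 2 := by
    intro v
    rw [Asm.skJ_form, abs_mul, abs_of_nonneg hb0]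
    calc β / √n * |∑ i, ∑ j, gsym g i j * v i * v j|
        ≤ β / √n * ((2 + e) * √n * ∑ i, v i ^ 2) := mul_le_mul_of_nonneg_left (hA v) hb0
      _ = β * (2 + e) * ∑ i, v i ^ 2 := by field_simp
  have hq2 : ∀ i j, |skJ β g i j| ≤ β * (e / 100000) := by
    intro i j
    unfold skJ
    rw [abs_mul, abs_of_nonneg hb0]
    calc β / √n * |gsym g i j| ≤ β / √n * (e / 100000 * √n) :=
          mul_le_mul_of_nonneg_left (hC i j) hb0
      _ = β * (e / 100000) := by field_simp
  have hml := det_unif_at hn0 (skJ β g) (Asm.skJ_symm β g) (Asm.skJ_diag β g)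
    (β * (2 + e)) (β ^ 2 * 2) (β * (e / 100000)) (1 - 2 * β - e) hq1
    (by
      intro i
      have h1 : ∑ j, skJ β g i j ^ 2 = β ^ 2 / n * ∑ j, gsym g i j ^ 2 := by
        unfold skJ
        rw [Finset.mul_sum]; apply Finset.sum_congr rfl; intro j _
        rw [mul_pow, div_pow, hsq2]
      rw [h1]
      calc β ^ 2 / n * ∑ j, gsym g i j ^ 2 ≤ β ^ 2 / n * ((1 + 1) * n) :=
            mul_le_mul_of_nonneg_left (hB' i) (by (clear * - hn; positivity))
        _ = β ^ 2 * 2 := by field_simp; ring)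
    (by
      have h1 : β * β ≤ β * (1 / 2) := mul_le_mul_of_nonneg_left hβ.le hβ0
      linarith only [h1, hβe0, hβ0])
    hq2
    (by linarith only [hβe])
    (by linarith only [heβ, he0])
    (by
      have h4 : 100000 * (β * (e / 100000)) * (β ^ 2 * 2) = (β * e) * (2 * β ^ 2) := by ring
      rw [h4]
      have h5 : (β * e) * (2 * β ^ 2) ≤ (β * e) * (1 / 2) :=
        mul_le_mul_of_nonneg_left (by linarith only [hβ2]) hβe0
      have h6 : β * e ≤ 1 / 2 * e := mul_le_mul_of_nonneg_right hβ.le he0.le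
      linarith only [h5, h6, he0])
    b
  have hE : Real.exp ((1 - 2 * β - e)⁻¹ * (2 * (β * (2 + e)))) ≤ K := by
    rw [hK]
    apply Real.exp_le_exp.2
    have h1 : 1 - 2 * β - e = (1 - 2 * β) / 2 := by rw [he]; ring
    rw [h1]
    apply mul_le_mul_of_nonneg_left _ (by rw [← he]; positivity)
    linarith only [hβe, hβ]
  have hmlK : ∀ f : Cfg n → ℝ, (∀ x, 0 < f x) →
      ex (skJ β g) b (fun x => f x * Real.log (f x))
        - ex (skJ β g) b f * Real.log (ex (skJ β g) b f)
        ≤ K * ∑ i, (ex (skJ β g) b (fun x => f x * Real.log (f x))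
            - ex (skJ β g) b (fun x => resample (skJ β g) b i f x
              * Real.log (resample (skJ β g) b i f x))) := by
    intro f hf
    exact (hml f hf).trans (mul_le_mul_of_nonneg_right hE
      (at_sum_nonneg b (Asm.skJ_symm β g) hf))
  exact ⟨at_nonneg b hmlK, lsi_of_at b (Asm.skJ_symm β g) hKpos.le hmlK⟩

end Vale.Agent.P150.H185
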