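import Mathlib
import Vale.Agent.P150.Bdl.B39
import Vale.Agent.P150.H185.Main
import Vale.Agent.P150.H185.AT
import Vale.Agent.P150.H185.FieldAT

/-! Assembly of the theorem with approximate tensorization of entropy. -/

open MeasureTheory ProbabilityTheory Filter Topology

namespace Vale.Agent.P150.H185

lemma sq_sum_nonneg {n : ℕ} (J : Fin n → Fin n → ℝ) (b : Fin n → ℝ) (f : Cfg n → ℝ) :
    0 ≤ ∑ i, ex J b (fun x => (f (Function.update x i (!x i)) - f x) ^ 2) :=
  Finset.sum_nonneg fun i _ => Finset.sum_nonneg fun x _ =>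
    mul_nonneg (gibbs_pos J b x).le (sq_nonneg _)

/-- enlarging the constant -/
lemma at_mono {n : ℕ} {J : Fin n → Fin n → ℝ} (b : Fin n → ℝ) (hJ : ∀ i j, J i j = J j i)
    {C C' : ℝ} (hC : C ≤ C')
    (h : ∀ f : Cfg n → ℝ, (∀ x, 0 ≤ f x) →
      ex J b (fun x => f x * Real.log (f x)) - ex J b f * Real.log (ex J b f)
      ≤ C * ∑ i, (ex J b (fun x => f x * Real.log (f x))
          - ex J b (fun x => resample J b i f x * Real.log (resample J b i f x)))) :
    ∀ f : Cfg n → ℝ, (∀ x, 0 ≤ f x) →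
      ex J b (fun x => f x * Real.log (f x)) - ex J b f * Real.log (ex J b f)
      ≤ C' * ∑ i, (ex J b (fun x => f x * Real.log (f x))
          - ex J b (fun x => resample J b i f x * Real.log (resample J b i f x))) :=
  at_nonneg b fun f hf => (h f fun x => (hf x).le).trans
    (mul_le_mul_of_nonneg_right hC (at_sum_nonneg b hJ hf))

/-- every `β < 1`, zero field -/
theorem high_zero_at (β : ℝ) (hβ0 : 0 ≤ β) (hβ : β < 1) :
    ∃ c C : ℝ, 0 < c ∧ 0 < C ∧ WHP (fun n => {g |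
      c ≤ gap (skJ β g) (fun _ => 0) ∧ gap (skJ β g) (fun _ => 0) ≤ 1 ∧
      c * Real.log n ≤ tmix (skJ β g) (fun _ => 0) ∧
      tmix (skJ β g) (fun _ => 0) ≤ C * Real.log n ∧
      (∀ t, C * Real.log n ≤ t → ∀ x, tvDist (skJ β g) (fun _ => 0) t x ≤ 1 / 4) ∧
      (∀ f : Cfg n → ℝ, (∀ x, 0 ≤ f x) →
        ex (skJ β g) (fun _ => 0) (fun x => f x * Real.log (f x))
          - ex (skJ β g) (fun _ => 0) f * Real.log (ex (skJ β g) (fun _ => 0) f)
          ≤ C * ∑ i, (ex (skJ β g) (fun _ => 0) (fun x => f x * Real.log (f x))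
            - ex (skJ β g) (fun _ => 0) (fun x => resample (skJ β g) (fun _ => 0) i f x
              * Real.log (resample (skJ β g) (fun _ => 0) i f x)))) ∧
      (∀ f : Cfg n → ℝ, (∀ x, 0 < f x) →
        ex (skJ β g) (fun _ => 0) (fun x => f x * Real.log (f x))
          - ex (skJ β g) (fun _ => 0) f * Real.log (ex (skJ β g) (fun _ => 0) f)
          ≤ C * dir (skJ β g) (fun _ => 0) f (fun x => Real.log (f x))) ∧
      (∀ f : Cfg n → ℝ,
        ex (skJ β g) (fun _ => 0) (fun x => f x ^ 2 * Real.log (f x ^ 2))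
          - ex (skJ β g) (fun _ => 0) (fun x => f x ^ 2)
            * Real.log (ex (skJ β g) (fun _ => 0) (fun x => f x ^ 2))
          ≤ C * ∑ i, ex (skJ β g) (fun _ => 0)
            (fun x => (f (Function.update x i (!x i)) - f x) ^ 2)) ∧
      (∀ t, 0 ≤ t → ∀ x,
        tvDist (skJ β g) (fun _ => 0) t x ≤ C * √n * Real.exp (-(c * t))) ∧
      ∀ t, 0 ≤ t → ∃ x, Real.exp (-t) / 2 ≤ tvDist (skJ β g) (fun _ => 0) t x}) := by
  obtain ⟨c1, C1, hc1, hC1, h1⟩ := high_zero β hβ0 hβ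
  obtain ⟨C2, hC2, h2⟩ := sk_at β hβ0 hβ
  have h2' : WHP (fun n => {g | (∀ f : Cfg n → ℝ, (∀ x, 0 ≤ f x) →
        ex (skJ β g) (fun _ => 0) (fun x => f x * Real.log (f x))
          - ex (skJ β g) (fun _ => 0) f * Real.log (ex (skJ β g) (fun _ => 0) f)
          ≤ C2 * ∑ i, (ex (skJ β g) (fun _ => 0) (fun x => f x * Real.log (f x))
            - ex (skJ β g) (fun _ => 0) (fun x => resample (skJ β g) (fun _ => 0) i f x
              * Real.log (resample (skJ β g) (fun _ => 0) i f x)))) ∧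
      ∀ f : Cfg n → ℝ,
        ex (skJ β g) (fun _ => 0) (fun x => f x ^ 2 * Real.log (f x ^ 2))
          - ex (skJ β g) (fun _ => 0) (fun x => f x ^ 2)
            * Real.log (ex (skJ β g) (fun _ => 0) (fun x => f x ^ 2))
          ≤ C2 * ∑ i, ex (skJ β g) (fun _ => 0)
            (fun x => (f (Function.update x i (!x i)) - f x) ^ 2)}) := h2
  refine ⟨c1, max C1 C2, hc1, lt_max_of_lt_left hC1, ?_⟩
  refine MainThm.whp_mono (MainThm.whp_inter h1 h2') ?_
  filter_upwards with n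
  rintro g ⟨⟨a1, a2, a3, a4, a5, a6, a7, a8⟩, b1, b2⟩
  have hlog : 0 ≤ Real.log n := Real.log_natCast_nonneg n
  have hCC : C1 * Real.log n ≤ max C1 C2 * Real.log n :=
    mul_le_mul_of_nonneg_right (le_max_left C1 C2) hlog
  have hs : ∀ a b, skJ β g a b = skJ β g b a := Asm.skJ_symm β g
  refine ⟨a1, a2, a3, a4.trans hCC, fun t ht => a5 t (hCC.trans ht),
    at_mono _ hs (le_max_right C1 C2) b1, ?_, ?_, ?_, a8⟩
  · intro f hf
    exact (a6 f hf).trans (mul_le_mul_of_nonneg_right (le_max_left C1 C2)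
      (F.D8M.dir_log_nonneg (J := skJ β g) (fun _ => 0) hs hf))
  · intro f
    exact (b2 f).trans (mul_le_mul_of_nonneg_right (le_max_right C1 C2)
      (sq_sum_nonneg _ _ f))
  · intro t ht x
    refine (a7 t ht x).trans (mul_le_mul_of_nonneg_right ?_ (Real.exp_pos _).le)
    exact mul_le_mul_of_nonneg_right (le_max_left _ _) (Real.sqrt_nonneg _)

/-- every `β < 1 / 2`, all fields -/
theorem high_all_at (β : ℝ) (hβ0 : 0 ≤ β) (hβ : β < 1 / 2) :
    ∃ C : ℝ, 0 < C ∧ ∀ ε : ℝ, 0 < ε → WHP (fun n => {g | ∀ b : Fin n → ℝ,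
      1 - 2 * β - ε ≤ gap (skJ β g) b ∧ gap (skJ β g) b ≤ 1 ∧
      tmix (skJ β g) b ≤ C * Real.log n ∧
      (∀ t, C * Real.log n ≤ t → ∀ x, tvDist (skJ β g) b t x ≤ 1 / 4) ∧
      (∀ f : Cfg n → ℝ, (∀ x, 0 ≤ f x) →
        ex (skJ β g) b (fun x => f x * Real.log (f x))
          - ex (skJ β g) b f * Real.log (ex (skJ β g) b f)
          ≤ C * ∑ i, (ex (skJ β g) b (fun x => f x * Real.log (f x))
            - ex (skJ β g) b (fun x => resample (skJ β g) b i f x
              * Real.log (resample (skJ β g) b i f x)))) ∧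
      (∀ f : Cfg n → ℝ, (∀ x, 0 < f x) →
        ex (skJ β g) b (fun x => f x * Real.log (f x))
          - ex (skJ β g) b f * Real.log (ex (skJ β g) b f)
          ≤ C * dir (skJ β g) b f (fun x => Real.log (f x))) ∧
      (∀ f : Cfg n → ℝ,
        ex (skJ β g) b (fun x => f x ^ 2 * Real.log (f x ^ 2))
          - ex (skJ β g) b (fun x => f x ^ 2) * Real.log (ex (skJ β g) b (fun x => f x ^ 2))
          ≤ C * ∑ i, ex (skJ β g) b (fun x => (f (Function.update x i (!x i)) - f x) ^ 2)) ∧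
      ∀ t, 0 ≤ t → ∀ x, tvDist (skJ β g) b t x ≤ C * n * Real.exp (-(t / C))}) := by
  obtain ⟨C1, hC1, h1⟩ := high_all β hβ0 hβ
  obtain ⟨C2, hC2, h2⟩ := high_field_at β hβ0 hβ
  refine ⟨max C1 C2, lt_max_of_lt_left hC1, fun ε hε => ?_⟩
  refine MainThm.whp_mono (MainThm.whp_inter (h1 ε hε) h2) ?_
  filter_upwards with n
  rintro g ⟨a, d⟩
  intro b
  obtain ⟨a1, a2, a3, a4, a5, a6⟩ := a b
  obtain ⟨d1, d2⟩ := d b
  have hs : ∀ a b, skJ β g a b = skJ β g b a := Asm.skJ_symm β g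
  have hlog : 0 ≤ Real.log n := Real.log_natCast_nonneg n
  have hCC : C1 * Real.log n ≤ max C1 C2 * Real.log n :=
    mul_le_mul_of_nonneg_right (le_max_left C1 C2) hlog
  refine ⟨a1, a2, a3.trans hCC, fun t ht => a4 t (hCC.trans ht),
    at_mono b hs (le_max_right C1 C2) d1, ?_, ?_, ?_⟩
  · intro f hf
    exact (a5 f hf).trans (mul_le_mul_of_nonneg_right (le_max_left C1 C2)
      (F.D8M.dir_log_nonneg b hs hf))
  · intro f
    exact (d2 f).trans (mul_le_mul_of_nonneg_right (le_max_right C1 C2) (sq_sum_nonneg _ _ f))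
  · intro t ht x
    refine (a6 t ht x).trans ?_
    apply mul_le_mul _ _ (Real.exp_pos _).le (by positivity)
    · exact mul_le_mul_of_nonneg_right (le_max_left _ _) (Nat.cast_nonneg n)
    · apply Real.exp_le_exp.2
      have h3 : t / max C1 C2 ≤ t / C1 := div_le_div_of_nonneg_left ht hC1 (le_max_left _ _)
      linarith

end Vale.Agent.P150.H185
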