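import Mathlib
import Vale.Agent.P150.H185.CritMain
import Vale.Agent.P150.H185.MainAT

/-! The sharp threshold: fast mixing of the SK heat-bath dynamics holds exactly for `β < 1`. -/

open MeasureTheory ProbabilityTheory Filter Topology

namespace Vale.Agent.P150.H185.Crit

open Vale.Agent.P150.Cav

/-- an event of probability tending to one is eventually nonempty -/
lemma whp_nonempty {A : (n : ℕ) → Set (Pairs n → ℝ)} (hA : WHP A) :
    ∀ᶠ n in atTop, (A n).Nonempty := by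
  unfold WHP at hA
  have h1 := hA.eventually_lt_const (show (0 : ENNReal) < 1 by norm_num)
  filter_upwards [h1] with n hn
  by_contra h
  rw [Set.not_nonempty_iff_eq_empty.1 h, Set.compl_empty] at hn
  have : IsProbabilityMeasure (disorder n) := by unfold disorder; infer_instance
  rw [measure_univ] at hn
  exact lt_irrefl _ hn

/-- slow mixing for every `β ≥ 1` -/
theorem slow_one_le (β : ℝ) (hβ : 1 ≤ β) (a : ℕ → ℝ) (ha : Tendsto a atTop atTop) :
    WHP (fun n => {g | gap (skJ β g) (fun _ => 0) ≤ a n / (n : ℝ) ^ (1 / 3 : ℝ) ∧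
      Real.log 2 * ((n : ℝ) ^ (1 / 3 : ℝ) / a n) ≤ tmix (skJ β g) (fun _ => 0)}) := by
  rcases hβ.eq_or_lt with h | h
  · subst h
    exact MainThm.whp_mono (crit a ha) (Eventually.of_forall fun _ g hg => ⟨hg.1, hg.2.1⟩)
  · refine MainThm.whp_mono (MainThm.low_slow β h a ha) ?_
    filter_upwards [eventually_ge_atTop 1, ha.eventually_gt_atTop 0] with n hn han
    rintro g ⟨h1, h2⟩
    have hn1 : (1 : ℝ) ≤ n := by exact_mod_cast hn
    have hp : 0 < (n : ℝ) ^ (1 / 3 : ℝ) := Real.rpow_pos_of_pos (by linarith only [hn1]) _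
    have hle : (n : ℝ) ^ (1 / 3 : ℝ) ≤ n := by
      calc (n : ℝ) ^ (1 / 3 : ℝ) ≤ (n : ℝ) ^ (1 : ℝ) :=
            Real.rpow_le_rpow_of_exponent_le hn1 (by norm_num)
        _ = n := Real.rpow_one _
    refine ⟨h1.trans (div_le_div_of_nonneg_left han.le hp hle), le_trans ?_ h2⟩
    have hl : 0 ≤ Real.log 2 := Real.log_nonneg (by norm_num)
    exact mul_le_mul_of_nonneg_left (div_le_div_of_nonneg_right hle han.le) hl

/-- The gap is bounded below with high probability exactly when `β < 1`. -/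
theorem gap_iff (β : ℝ) (hβ : 0 ≤ β) :
    (∃ c : ℝ, 0 < c ∧ WHP (fun n => {g | c ≤ gap (skJ β g) (fun _ => 0)})) ↔ β < 1 := by
  constructor
  · rintro ⟨c, hc, h⟩
    by_contra hb
    have hb' : 1 ≤ β := not_lt.1 hb
    have ha : Tendsto (fun n : ℕ => (n : ℝ) ^ (1 / 6 : ℝ)) atTop atTop :=
      (tendsto_rpow_atTop (by norm_num)).comp tendsto_natCast_atTop_atTop
    have h1 := whp_nonempty (MainThm.whp_inter h (slow_one_le β hb' _ ha))
    have h2 : Tendsto (fun n : ℕ => ((n : ℝ) ^ (1 / 6 : ℝ))⁻¹) atTop (𝓝 0) :=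
      tendsto_inv_atTop_zero.comp ha
    obtain ⟨n, ⟨hn1, hn2⟩, hn3⟩ := ((h1.and (h2.eventually_lt_const hc)).and
      (eventually_gt_atTop 0)).exists
    obtain ⟨g, hg1, hg2⟩ := hn1
    have hn' : (0 : ℝ) < n := by exact_mod_cast hn3
    have hg1' : c ≤ gap (skJ β g) (fun _ => 0) := hg1
    have hg2' := hg2.1
    have e : (n : ℝ) ^ (1 / 6 : ℝ) / (n : ℝ) ^ (1 / 3 : ℝ) = ((n : ℝ) ^ (1 / 6 : ℝ))⁻¹ := by
      rw [← Real.rpow_sub hn', ← Real.rpow_neg hn'.le]
      norm_num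
    rw [e] at hg2'
    linarith only [hn2, hg1', hg2']
  · intro hb
    obtain ⟨c, C, hc, _, h⟩ := high_zero_at β hβ hb
    exact ⟨c, hc, MainThm.whp_mono h (Eventually.of_forall fun _ g hg => hg.1)⟩

/-- Mixing in time `O(log n)` with high probability holds exactly when `β < 1`. -/
theorem tmix_iff (β : ℝ) (hβ : 0 ≤ β) :
    (∃ C : ℝ, WHP (fun n => {g | tmix (skJ β g) (fun _ => 0) ≤ C * Real.log n})) ↔ β < 1 := by
  constructor
  · rintro ⟨C, h⟩
    by_contra hb
    have hb' : 1 ≤ β := not_lt.1 hb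
    have ha : Tendsto (fun n : ℕ => (n : ℝ) ^ (1 / 6 : ℝ)) atTop atTop :=
      (tendsto_rpow_atTop (by norm_num)).comp tendsto_natCast_atTop_atTop
    have h1 := whp_nonempty (MainThm.whp_inter h (slow_one_le β hb' _ ha))
    have h2 : Tendsto (fun n : ℕ => Real.log n / (n : ℝ) ^ (1 / 6 : ℝ)) atTop (𝓝 0) :=
      ((isLittleO_log_rpow_atTop (show (0 : ℝ) < 1 / 6 by norm_num)).tendsto_div_nhds_zero).comp
        tendsto_natCast_atTop_atTop
    have h3 : Tendsto (fun n : ℕ => C * (Real.log n / (n : ℝ) ^ (1 / 6 : ℝ))) atTop (𝓝 0) := by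
      have := h2.const_mul C
      rwa [mul_zero] at this
    have hl2 : 0 < Real.log 2 := Real.log_pos (by norm_num)
    obtain ⟨n, ⟨hn1, hn2⟩, hn3⟩ := ((h1.and (h3.eventually_lt_const hl2)).and
      (eventually_gt_atTop 0)).exists
    obtain ⟨g, hg1, hg2⟩ := hn1
    have hn' : (0 : ℝ) < n := by exact_mod_cast hn3
    have hg1' : tmix (skJ β g) (fun _ => 0) ≤ C * Real.log n := hg1
    have hg2' := hg2.2
    have hq : 0 < (n : ℝ) ^ (1 / 6 : ℝ) := Real.rpow_pos_of_pos hn' _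
    have e : (n : ℝ) ^ (1 / 3 : ℝ) / (n : ℝ) ^ (1 / 6 : ℝ) = (n : ℝ) ^ (1 / 6 : ℝ) := by
      rw [← Real.rpow_sub hn']
      norm_num
    rw [e] at hg2'
    have h4 := hg2'.trans hg1'
    rw [← mul_div_assoc, div_lt_iff₀ hq] at hn2
    linarith only [hn2, h4]
  · intro hb
    obtain ⟨c, C, _, _, h⟩ := high_zero_at β hβ hb
    exact ⟨C, MainThm.whp_mono h (Eventually.of_forall fun _ g hg => hg.2.2.2.1)⟩

end Vale.Agent.P150.H185.Crit
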