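import Mathlib
import Vale.Agent.P150.H185.CritWard

/-! Powers of the covariance matrix of the SK Gibbs measure: trace, derivative, bounds. -/

open MeasureTheory ProbabilityTheory Filter Topology
open scoped Matrix

namespace Vale.Agent.P150.H185.Crit

open Vale.Agent.P150.Cav

variable {n : ℕ}

/-- the covariance matrix -/
noncomputable def Mt (β : ℝ) (g : Pairs n → ℝ) : Matrix (Fin n) (Fin n) ℝ :=
  Matrix.of fun i j => Mm β g i j

lemma Mt_apply (β : ℝ) (g : Pairs n → ℝ) (i j : Fin n) : Mt β g i j = Mm β g i j := rfl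

lemma Mt_transpose (β : ℝ) (g : Pairs n → ℝ) : (Mt β g)ᵀ = Mt β g := by
  ext i j
  rw [Matrix.transpose_apply, Mt_apply, Mt_apply]
  exact Mm_symm β g j i

lemma Mt_pow_transpose (β : ℝ) (g : Pairs n → ℝ) (k : ℕ) : (Mt β g ^ k)ᵀ = Mt β g ^ k := by
  rw [Matrix.transpose_pow, Mt_transpose]

lemma Mt_pow_symm (β : ℝ) (g : Pairs n → ℝ) (k : ℕ) (i j : Fin n) :
    (Mt β g ^ k) i j = (Mt β g ^ k) j i := by
  conv_lhs => rw [← Mt_pow_transpose]
  rfl

/-- the quadratic form of `M` -/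
lemma quad_Mt (β : ℝ) (g : Pairs n → ℝ) (v : Fin n → ℝ) :
    v ⬝ᵥ (Mt β g *ᵥ v) = ∑ x : Cfg n, pw β g x * (∑ l, v l * sp (x l)) ^ 2 := by
  have e1 : ∀ x : Cfg n, pw β g x * (∑ l, v l * sp (x l)) ^ 2 =
      ∑ i, ∑ j, v i * (pw β g x * (sp (x i) * sp (x j))) * v j := by
    intro x
    rw [sq, Finset.sum_mul_sum, Finset.mul_sum]
    refine Finset.sum_congr rfl fun i _ => ?_
    rw [Finset.mul_sum]
    exact Finset.sum_congr rfl fun j _ => by ring
  rw [Finset.sum_congr rfl fun x _ => e1 x, Finset.sum_comm]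
  simp only [dotProduct, Matrix.mulVec]
  refine Finset.sum_congr rfl fun i _ => ?_
  rw [Finset.sum_comm, Finset.mul_sum]
  refine Finset.sum_congr rfl fun j _ => ?_
  rw [Mt_apply, Mm_eq, Finset.sum_mul, Finset.mul_sum]
  exact Finset.sum_congr rfl fun x _ => by ring

lemma quad_Mt_nonneg (β : ℝ) (g : Pairs n → ℝ) (v : Fin n → ℝ) : 0 ≤ v ⬝ᵥ (Mt β g *ᵥ v) := by
  rw [quad_Mt]
  exact Finset.sum_nonneg fun x _ => mul_nonneg (pw_pos β g x).le (sq_nonneg _)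

/-- spins as a vector -/
noncomputable def sv (x : Cfg n) : Fin n → ℝ := fun i => sp (x i)

lemma sv_dot (x : Cfg n) : sv x ⬝ᵥ sv x = n := by
  simp only [dotProduct, sv, Cav.sp_mul_self]
  simp

lemma dot_symm_pow (β : ℝ) (g : Pairs n → ℝ) (k : ℕ) (u v : Fin n → ℝ) :
    u ⬝ᵥ ((Mt β g ^ k) *ᵥ v) = ((Mt β g ^ k) *ᵥ u) ⬝ᵥ v := by
  rw [Matrix.dotProduct_mulVec, ← Matrix.mulVec_transpose, Mt_pow_transpose]

/-- Cauchy-Schwarz -/
lemma dot_sq_le (u v : Fin n → ℝ) : (u ⬝ᵥ v) ^ 2 ≤ (u ⬝ᵥ u) * (v ⬝ᵥ v) := by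
  have h := Finset.sum_mul_sq_le_sq_mul_sq Finset.univ u v
  simp only [dotProduct]
  refine h.trans (le_of_eq ?_)
  simp only [sq]

lemma dot_self_nonneg (v : Fin n → ℝ) : 0 ≤ v ⬝ᵥ v :=
  Finset.sum_nonneg fun i _ => mul_self_nonneg (v i)

/-- `|M^k x|² ≤ n tr M^(2k)` -/
lemma pow_mulVec_le (β : ℝ) (g : Pairs n → ℝ) (k : ℕ) (v : Fin n → ℝ) :
    ((Mt β g ^ k) *ᵥ v) ⬝ᵥ ((Mt β g ^ k) *ᵥ v) ≤ (Mt β g ^ (2 * k)).trace * (v ⬝ᵥ v) := by
  have e1 : (Mt β g ^ (2 * k)).trace = ∑ i, ∑ j, (Mt β g ^ k) i j ^ 2 := by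
    rw [two_mul, pow_add]
    simp only [Matrix.trace, Matrix.diag, Matrix.mul_apply]
    refine Finset.sum_congr rfl fun i _ => Finset.sum_congr rfl fun j _ => ?_
    rw [Mt_pow_symm β g k j i, sq]
  rw [e1, Finset.sum_mul]
  simp only [dotProduct]
  refine Finset.sum_le_sum fun i _ => ?_
  rw [← sq]
  simp only [Matrix.mulVec, dotProduct]
  have h := Finset.sum_mul_sq_le_sq_mul_sq Finset.univ (fun j => (Mt β g ^ k) i j) v
  refine h.trans (le_of_eq ?_)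
  simp only [sq]

/-- iterated Cauchy-Schwarz -/
lemma iter_cs (β : ℝ) (g : Pairs n → ℝ) (x : Cfg n) (j : ℕ) :
    ((Mt β g *ᵥ sv x) ⬝ᵥ (Mt β g *ᵥ sv x)) ^ (2 ^ j) * n ≤ (n : ℝ) ^ (2 ^ j) *
      (((Mt β g ^ (2 ^ j)) *ᵥ sv x) ⬝ᵥ ((Mt β g ^ (2 ^ j)) *ᵥ sv x)) := by
  induction j with
  | zero => simp [mul_comm]
  | succ j ih =>
    set a : ℝ := (Mt β g *ᵥ sv x) ⬝ᵥ (Mt β g *ᵥ sv x) with ha
    set m : ℕ := 2 ^ j with hm
    set b : ℝ := ((Mt β g ^ m) *ᵥ sv x) ⬝ᵥ ((Mt β g ^ m) *ᵥ sv x) with hb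
    set c : ℝ := ((Mt β g ^ (2 * m)) *ᵥ sv x) ⬝ᵥ ((Mt β g ^ (2 * m)) *ᵥ sv x) with hc
    have e0 : (2 : ℕ) ^ (j + 1) = 2 * m := by rw [hm, pow_succ, mul_comm]
    rw [e0]
    have ha0 : 0 ≤ a := dot_self_nonneg _
    have hb0 : 0 ≤ b := dot_self_nonneg _
    have hn0 : (0 : ℝ) ≤ n := Nat.cast_nonneg n
    have h1 : b ^ 2 ≤ n * c := by
      have e1 : b = sv x ⬝ᵥ ((Mt β g ^ (2 * m)) *ᵥ sv x) := by
        rw [hb, ← dot_symm_pow, Matrix.mulVec_mulVec, ← pow_add, two_mul]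
      rw [e1]
      have h2 := dot_sq_le (sv x) ((Mt β g ^ (2 * m)) *ᵥ sv x)
      rw [sv_dot] at h2
      exact h2
    -- square the induction hypothesis
    have h3 : (a ^ m * n) ^ 2 ≤ ((n : ℝ) ^ m * b) ^ 2 :=
      pow_le_pow_left₀ (mul_nonneg (pow_nonneg ha0 _) hn0) ih 2
    rcases hn0.eq_or_lt with h0 | h0
    · rw [← h0]
      simp only [mul_zero]
      have hc0 : 0 ≤ c := dot_self_nonneg _
      exact mul_nonneg (pow_nonneg le_rfl _) hc0
    · have h4 : (a ^ (2 * m) * n) * n ≤ ((n : ℝ) ^ (2 * m) * c) * n := by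
        calc (a ^ (2 * m) * n) * n = (a ^ m * n) ^ 2 := by rw [mul_comm 2 m, pow_mul]; ring
          _ ≤ ((n : ℝ) ^ m * b) ^ 2 := h3
          _ = (n : ℝ) ^ (2 * m) * b ^ 2 := by rw [mul_comm 2 m, pow_mul]; ring
          _ ≤ (n : ℝ) ^ (2 * m) * (n * c) := mul_le_mul_of_nonneg_left h1 (by positivity)
          _ = _ := by ring
      exact le_of_mul_le_mul_right h4 h0

/-- `|M x|² ^ (2^j) ≤ n ^ (2^j) tr M ^ (2^(j+1))` -/
lemma mulVec_pow_le (β : ℝ) (hn : 0 < n) (g : Pairs n → ℝ) (x : Cfg n) (j : ℕ) :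
    ((Mt β g *ᵥ sv x) ⬝ᵥ (Mt β g *ᵥ sv x)) ^ (2 ^ j) ≤
      (n : ℝ) ^ (2 ^ j) * (Mt β g ^ (2 * 2 ^ j)).trace := by
  have hn' : (0 : ℝ) < n := by exact_mod_cast hn
  have h1 := iter_cs β g x j
  have h2 := pow_mulVec_le β g (2 ^ j) (sv x)
  rw [sv_dot] at h2
  have h3 : ((Mt β g *ᵥ sv x) ⬝ᵥ (Mt β g *ᵥ sv x)) ^ (2 ^ j) * n ≤
      ((n : ℝ) ^ (2 ^ j) * (Mt β g ^ (2 * 2 ^ j)).trace) * n := by
    refine h1.trans ((mul_le_mul_of_nonneg_left h2 (by positivity)).trans (le_of_eq ?_))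
    ring
  exact le_of_mul_le_mul_right h3 hn'

/-- if `M ≤ L` then `tr M^(2m+2) ≤ L^(2m+1) n` -/
lemma trace_le (β : ℝ) (g : Pairs n → ℝ) {L : ℝ} (hL : 0 ≤ L)
    (h : ∀ v : Fin n → ℝ, v ⬝ᵥ (Mt β g *ᵥ v) ≤ L * (v ⬝ᵥ v)) (m : ℕ) :
    (Mt β g ^ (2 * m + 2)).trace ≤ L ^ (2 * m + 1) * n := by
  set e : Fin n → Fin n → ℝ := fun i => Pi.single i 1 with he
  have hcol : ∀ (B : Matrix (Fin n) (Fin n) ℝ) (i : Fin n), e i ⬝ᵥ (B *ᵥ e i) = B i i := by
    intro B i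
    rw [he]
    simp
  have htr : ∀ B : Matrix (Fin n) (Fin n) ℝ, B.trace = ∑ i, e i ⬝ᵥ (B *ᵥ e i) := by
    intro B
    simp only [hcol]
    rfl
  -- even powers
  have heven : ∀ k, (Mt β g ^ (2 * k)).trace =
      ∑ i, ((Mt β g ^ k) *ᵥ e i) ⬝ᵥ ((Mt β g ^ k) *ᵥ e i) := by
    intro k
    rw [htr]
    refine Finset.sum_congr rfl fun i _ => ?_
    rw [← dot_symm_pow, Matrix.mulVec_mulVec, ← pow_add, two_mul]
  have hodd : ∀ k, (Mt β g ^ (2 * k + 1)).trace =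
      ∑ i, ((Mt β g ^ k) *ᵥ e i) ⬝ᵥ (Mt β g *ᵥ ((Mt β g ^ k) *ᵥ e i)) := by
    intro k
    rw [htr]
    refine Finset.sum_congr rfl fun i _ => ?_
    rw [← dot_symm_pow, Matrix.mulVec_mulVec, Matrix.mulVec_mulVec]
    congr 2
    rw [← pow_succ, ← pow_add]
    congr 1
    omega
  -- |M w|² ≤ L w M w
  have hw : ∀ w : Fin n → ℝ, (Mt β g *ᵥ w) ⬝ᵥ (Mt β g *ᵥ w) ≤ L * (w ⬝ᵥ (Mt β g *ᵥ w)) := by
    intro w
    set q : ℝ := w ⬝ᵥ (Mt β g *ᵥ w) with hq
    set p : ℝ := (Mt β g *ᵥ w) ⬝ᵥ (Mt β g *ᵥ w) with hp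
    have hp0 : 0 ≤ p := dot_self_nonneg _
    have hsym : (Mt β g *ᵥ w) ⬝ᵥ (Mt β g *ᵥ w) = w ⬝ᵥ (Mt β g *ᵥ (Mt β g *ᵥ w)) := by
      have := dot_symm_pow β g 1 w (Mt β g *ᵥ w)
      rw [pow_one] at this
      exact this.symm
    -- quadratic in s : 0 ≤ (w - s M w) M (w - s M w)
    have h1 : ∀ s : ℝ, 0 ≤ q - 2 * s * p + s ^ 2 * (L * p) := by
      intro s
      have h2 := quad_Mt_nonneg β g (w - s • (Mt β g *ᵥ w))
      have h3 : (w - s • (Mt β g *ᵥ w)) ⬝ᵥ (Mt β g *ᵥ (w - s • (Mt β g *ᵥ w))) =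
          q - 2 * s * p + s ^ 2 * ((Mt β g *ᵥ w) ⬝ᵥ (Mt β g *ᵥ (Mt β g *ᵥ w))) := by
        rw [Matrix.mulVec_sub, Matrix.mulVec_smul, sub_dotProduct, dotProduct_sub,
          dotProduct_sub, smul_dotProduct, smul_dotProduct, dotProduct_smul, dotProduct_smul,
          ← hsym, ← hp, ← hq]
        simp only [smul_eq_mul]
        ring
      rw [h3] at h2
      have h4 := h (Mt β g *ᵥ w)
      rw [← hp] at h4
      have h5 := mul_le_mul_of_nonneg_left h4 (sq_nonneg s)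
      linarith only [h2, h5]
    rcases hL.eq_or_lt with h0 | h0
    · have h2 := h w
      have h3 := quad_Mt_nonneg β g w
      rw [← h0, zero_mul] at h2
      have hq0 : q = 0 := le_antisymm h2 h3
      have h4 := h1 1
      rw [hq0, ← h0] at h4
      rw [← h0]
      linarith only [h4, hp0]
    · have h2 := h1 L⁻¹
      have h3 : q - 2 * L⁻¹ * p + L⁻¹ ^ 2 * (L * p) = q - L⁻¹ * p := by
        field_simp
        ring
      rw [h3] at h2
      have h4 : L⁻¹ * p ≤ q := by linarith only [h2]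
      rw [inv_mul_le_iff₀ h0] at h4
      exact h4
  have h1 : ∀ k, (Mt β g ^ (2 * k + 1)).trace ≤ L * (Mt β g ^ (2 * k)).trace := by
    intro k
    rw [hodd, heven, Finset.mul_sum]
    exact Finset.sum_le_sum fun i _ => h _
  have h2 : ∀ k, (Mt β g ^ (2 * k + 2)).trace ≤ L * (Mt β g ^ (2 * k + 1)).trace := by
    intro k
    rw [show 2 * k + 2 = 2 * (k + 1) by ring, heven, hodd, Finset.mul_sum]
    refine Finset.sum_le_sum fun i _ => ?_
    have e5 : (Mt β g ^ (k + 1)) *ᵥ e i = Mt β g *ᵥ ((Mt β g ^ k) *ᵥ e i) := by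
      rw [Matrix.mulVec_mulVec, ← pow_succ']
    rw [e5]
    exact hw ((Mt β g ^ k) *ᵥ e i)
  have h0 : (Mt β g ^ 1).trace = n := by
    rw [pow_one]
    simp only [Matrix.trace, Matrix.diag, Mt_apply, Mm_self]
    simp
  induction m with
  | zero =>
    have := h2 0
    simp only [mul_zero, zero_add] at this ⊢
    rw [h0] at this
    rw [pow_one]
    exact this
  | succ m ih =>
    have k1 := h1 (m + 1)
    have k2 := h2 (m + 1)
    have e1 : 2 * (m + 1) = 2 * m + 2 := by ring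
    rw [e1] at k1 k2
    rw [e1]
    calc (Mt β g ^ (2 * m + 2 + 2)).trace ≤ L * (Mt β g ^ (2 * m + 2 + 1)).trace := k2
      _ ≤ L * (L * (Mt β g ^ (2 * m + 2)).trace) := mul_le_mul_of_nonneg_left k1 hL
      _ ≤ L * (L * (L ^ (2 * m + 1) * n)) :=
          mul_le_mul_of_nonneg_left (mul_le_mul_of_nonneg_left ih hL) hL
      _ = _ := by ring

/-- quadratic form of `M^k` at a spin configuration -/
noncomputable def Qk (β : ℝ) (k : ℕ) (g : Pairs n → ℝ) (x : Cfg n) : ℝ :=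
  sv x ⬝ᵥ ((Mt β g ^ k) *ᵥ sv x)

/-- trace of `M^k` -/
noncomputable def Tk (β : ℝ) (k : ℕ) (g : Pairs n → ℝ) : ℝ := (Mt β g ^ k).trace

lemma Qk_eq (β : ℝ) (k : ℕ) (g : Pairs n → ℝ) (x : Cfg n) :
    Qk β k g x = ∑ i, ∑ j, (Mt β g ^ k) i j * (sp (x i) * sp (x j)) := by
  unfold Qk
  simp only [dotProduct, Matrix.mulVec, sv]
  refine Finset.sum_congr rfl fun i _ => ?_
  rw [Finset.mul_sum]
  exact Finset.sum_congr rfl fun j _ => by ring

lemma Qk_nonneg (β : ℝ) (m : ℕ) (g : Pairs n → ℝ) (x : Cfg n) : 0 ≤ Qk β (2 * m + 1) g x := by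
  unfold Qk
  have h := quad_Mt_nonneg β g ((Mt β g ^ m) *ᵥ sv x)
  rw [Matrix.mulVec_mulVec, ← pow_succ', ← dot_symm_pow, Matrix.mulVec_mulVec, ← pow_add] at h
  have e : m + (m + 1) = 2 * m + 1 := by omega
  rwa [e] at h

lemma avg_Qk (β : ℝ) (k : ℕ) (g : Pairs n → ℝ) :
    ∑ x : Cfg n, pw β g x * Qk β k g x = Tk β (k + 1) g := by
  simp only [Qk_eq, Finset.mul_sum]
  rw [Finset.sum_comm]
  unfold Tk
  rw [pow_succ]
  simp only [Matrix.trace, Matrix.diag, Matrix.mul_apply]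
  refine Finset.sum_congr rfl fun i _ => ?_
  rw [Finset.sum_comm]
  refine Finset.sum_congr rfl fun j _ => ?_
  rw [Mt_apply, Mm_eq, Finset.mul_sum]
  exact Finset.sum_congr rfl fun x _ => by ring

lemma Tk_nonneg (β : ℝ) (m : ℕ) (g : Pairs n → ℝ) : 0 ≤ Tk β (2 * m + 2) g := by
  have h := avg_Qk β (2 * m + 1) g
  rw [← h]
  exact Finset.sum_nonneg fun x _ => mul_nonneg (pw_pos β g x).le (Qk_nonneg β m g x)

lemma continuous_Mt_pow (β : ℝ) (k : ℕ) (i j : Fin n) :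
    Continuous (fun g : Pairs n → ℝ => (Mt β g ^ k) i j) := by
  induction k generalizing i j with
  | zero => simp only [pow_zero]; exact continuous_const
  | succ k ih =>
    simp only [pow_succ, Matrix.mul_apply]
    exact continuous_finsetSum _ fun l _ => (ih i l).mul (continuous_Mm β l j)

lemma continuous_Qk (β : ℝ) (k : ℕ) (x : Cfg n) :
    Continuous (fun g : Pairs n → ℝ => Qk β k g x) := by
  simp only [Qk_eq]
  exact continuous_finsetSum _ fun i _ => continuous_finsetSum _ fun j _ =>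
    (continuous_Mt_pow β k i j).mul continuous_const

lemma continuous_Tk (β : ℝ) (k : ℕ) : Continuous (fun g : Pairs n → ℝ => Tk β k g) := by
  unfold Tk
  simp only [Matrix.trace, Matrix.diag]
  exact continuous_finsetSum _ fun i _ => continuous_Mt_pow β k i i

lemma abs_Mt_pow_le (β : ℝ) (g : Pairs n → ℝ) (k : ℕ) (i j : Fin n) :
    |(Mt β g ^ k) i j| ≤ (n : ℝ) ^ k := by
  induction k generalizing i j with
  | zero =>
    simp only [pow_zero, Matrix.one_apply]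
    split_ifs <;> simp
  | succ k ih =>
    rw [pow_succ, Matrix.mul_apply]
    refine (Finset.abs_sum_le_sum_abs _ _).trans ?_
    refine (Finset.sum_le_card_nsmul _ _ ((n : ℝ) ^ k) fun l _ => ?_).trans ?_
    · rw [abs_mul]
      calc |(Mt β g ^ k) i l| * |Mt β g l j| ≤ (n : ℝ) ^ k * 1 :=
            mul_le_mul (ih i l) (abs_Mm_le β g l j) (abs_nonneg _) (by positivity)
        _ = _ := mul_one _
    · simp only [Finset.card_univ, Fintype.card_fin, nsmul_eq_mul]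
      exact le_of_eq (by ring)

lemma Qk_le (β : ℝ) (k : ℕ) (g : Pairs n → ℝ) (x : Cfg n) : |Qk β k g x| ≤ (n : ℝ) ^ (k + 2) := by
  rw [Qk_eq]
  refine (Finset.abs_sum_le_sum_abs _ _).trans ?_
  refine (Finset.sum_le_card_nsmul _ _ ((n : ℝ) * (n : ℝ) ^ k) fun i _ => ?_).trans ?_
  · refine (Finset.abs_sum_le_sum_abs _ _).trans ?_
    refine (Finset.sum_le_card_nsmul _ _ ((n : ℝ) ^ k) fun j _ => ?_).trans ?_
    · rw [abs_mul, abs_mul, Cav.abs_sp, Cav.abs_sp, mul_one, mul_one]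
      exact abs_Mt_pow_le β g k i j
    · simp
  · simp only [Finset.card_univ, Fintype.card_fin, nsmul_eq_mul]
    exact le_of_eq (by ring)

/-- derivative of `M` along the pair `i, j` -/
noncomputable def D1 (β : ℝ) (i j : Fin n) (g : Pairs n → ℝ) : Matrix (Fin n) (Fin n) ℝ :=
  Matrix.of fun k l => β / Real.sqrt n * ∑ x : Cfg n, pw β g x *
    (sp (x i) * sp (x j) - Mm β g i j) * (sp (x k) * sp (x l))

/-- derivative of `M^k` along the pair `i, j` -/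
noncomputable def DP (β : ℝ) (i j : Fin n) (g : Pairs n → ℝ) : ℕ → Matrix (Fin n) (Fin n) ℝ
  | 0 => 0
  | k + 1 => DP β i j g k * Mt β g + (Mt β g ^ k) * D1 β i j g

lemma hasDerivAt_Mt_pow (β : ℝ) (g : Pairs n → ℝ) (i j : Fin n) (h : i ≠ j) (k : ℕ)
    (a b : Fin n) :
    HasDerivAt (fun s => (Mt β (Function.update g (pr i j h) s) ^ k) a b) (DP β i j g k a b)
      (g (pr i j h)) := by
  induction k generalizing a b with
  | zero =>
    simp only [pow_zero]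
    exact hasDerivAt_const _ _
  | succ k ih =>
    simp only [pow_succ, Matrix.mul_apply]
    have h1 := HasDerivAt.fun_sum (u := Finset.univ) fun l (_ : l ∈ Finset.univ) =>
      (ih a l).fun_mul (hasDerivAt_Mm β g i j h l b)
    refine h1.congr_deriv ?_
    simp only [Function.update_eq_self]
    rw [Finset.sum_add_distrib]
    rfl

lemma trace_DP (β : ℝ) (i j : Fin n) (g : Pairs n → ℝ) (k l : ℕ) :
    (DP β i j g (k + 1) * Mt β g ^ l).trace =
      ((k : ℝ) + 1) * ((Mt β g ^ (k + l)) * D1 β i j g).trace := by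
  induction k generalizing l with
  | zero =>
    have e : DP β i j g (0 + 1) = 0 * Mt β g + (Mt β g ^ 0) * D1 β i j g := rfl
    rw [e, zero_mul, zero_add, pow_zero, one_mul, Matrix.trace_mul_comm, Nat.cast_zero, zero_add,
      one_mul, zero_add]
  | succ k ih =>
    have e : DP β i j g (k + 1 + 1) = DP β i j g (k + 1) * Mt β g +
        (Mt β g ^ (k + 1)) * D1 β i j g := rfl
    have e4 : ((Mt β g ^ (k + 1)) * D1 β i j g * Mt β g ^ l).trace =
        ((Mt β g ^ (k + 1 + l)) * D1 β i j g).trace := by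
      rw [Matrix.trace_mul_comm, ← mul_assoc, ← pow_add, add_comm l (k + 1)]
    have e5 : k + (l + 1) = k + 1 + l := by omega
    rw [e, add_mul, Matrix.trace_add, e4, mul_assoc, ← pow_succ', ih (l + 1), e5]
    push_cast
    ring

/-- derivative of the trace of `M^(k+1)` -/
noncomputable def DTk (β : ℝ) (k : ℕ) (i j : Fin n) (g : Pairs n → ℝ) : ℝ :=
  ((k : ℝ) + 1) * (β / Real.sqrt n) *
    ∑ x : Cfg n, pw β g x * Qk β k g x * (sp (x i) * sp (x j) - Mm β g i j)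

lemma hasDerivAt_Tk (β : ℝ) (k : ℕ) (g : Pairs n → ℝ) (i j : Fin n) (h : i ≠ j) :
    HasDerivAt (fun s => Tk β (k + 1) (Function.update g (pr i j h) s)) (DTk β k i j g)
      (g (pr i j h)) := by
  unfold Tk
  simp only [Matrix.trace, Matrix.diag]
  have h1 := HasDerivAt.fun_sum (u := Finset.univ) fun l (_ : l ∈ Finset.univ) =>
    hasDerivAt_Mt_pow β g i j h (k + 1) l l
  refine h1.congr_deriv ?_
  have h2 := trace_DP β i j g k 0
  rw [pow_zero, mul_one, add_zero] at h2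
  have h3 : ∑ l, DP β i j g (k + 1) l l = (DP β i j g (k + 1)).trace := rfl
  rw [h3, h2]
  unfold DTk
  rw [mul_assoc]
  congr 1
  simp only [Matrix.trace, Matrix.diag, Matrix.mul_apply]
  have e1 : ∀ a b : Fin n, (Mt β g ^ k) a b * D1 β i j g b a = β / Real.sqrt n *
      ∑ x : Cfg n, pw β g x * (sp (x i) * sp (x j) - Mm β g i j) *
        ((Mt β g ^ k) a b * (sp (x a) * sp (x b))) := by
    intro a b
    have e2 : D1 β i j g b a = β / Real.sqrt n * ∑ x : Cfg n, pw β g x *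
      (sp (x i) * sp (x j) - Mm β g i j) * (sp (x b) * sp (x a)) := rfl
    rw [e2, mul_left_comm, Finset.mul_sum]
    congr 1
    exact Finset.sum_congr rfl fun x _ => by ring
  simp only [e1, ← Finset.mul_sum]
  congr 1
  have e3 : ∀ a : Fin n, ∑ b : Fin n, ∑ x : Cfg n, pw β g x *
      (sp (x i) * sp (x j) - Mm β g i j) * ((Mt β g ^ k) a b * (sp (x a) * sp (x b))) =
      ∑ x : Cfg n, ∑ b : Fin n, pw β g x *
      (sp (x i) * sp (x j) - Mm β g i j) * ((Mt β g ^ k) a b * (sp (x a) * sp (x b))) :=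
    fun a => Finset.sum_comm
  simp only [e3]
  rw [Finset.sum_comm]
  refine Finset.sum_congr rfl fun x _ => ?_
  rw [Qk_eq]
  simp only [← Finset.mul_sum]
  ring

lemma continuous_DTk (β : ℝ) (k : ℕ) (i j : Fin n) :
    Continuous (fun g : Pairs n → ℝ => DTk β k i j g) :=
  continuous_const.mul (continuous_finsetSum _ fun x _ =>
    ((continuous_pw β x).mul (continuous_Qk β k x)).mul
      (continuous_const.sub (continuous_Mm β i j)))

lemma abs_DTk_le (β : ℝ) (k : ℕ) (i j : Fin n) (g : Pairs n → ℝ) :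
    |DTk β k i j g| ≤ ((k : ℝ) + 1) * (|β| / Real.sqrt n) * ((n : ℝ) ^ (k + 2) * 2) := by
  unfold DTk
  rw [abs_mul, abs_mul, abs_div, abs_of_nonneg (Real.sqrt_nonneg _),
    abs_of_nonneg (by positivity : (0 : ℝ) ≤ (k : ℝ) + 1)]
  refine mul_le_mul_of_nonneg_left ?_ (by positivity)
  refine (Finset.abs_sum_le_sum_abs _ _).trans ?_
  calc ∑ x : Cfg n, |pw β g x * Qk β k g x * (sp (x i) * sp (x j) - Mm β g i j)|
      ≤ ∑ x : Cfg n, pw β g x * ((n : ℝ) ^ (k + 2) * 2) := by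
        refine Finset.sum_le_sum fun x _ => ?_
        rw [mul_assoc, abs_mul, abs_of_pos (pw_pos β g x)]
        refine mul_le_mul_of_nonneg_left ?_ (pw_pos β g x).le
        rw [abs_mul]
        refine mul_le_mul (Qk_le β k g x) ?_ (abs_nonneg _) (by positivity)
        refine (abs_sub _ _).trans ?_
        rw [abs_mul, Cav.abs_sp, Cav.abs_sp]
        have := abs_Mm_le β g i j
        linarith only [this]
    _ = (n : ℝ) ^ (k + 2) * 2 := by rw [← Finset.sum_mul, pw_sum, one_mul]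

end Vale.Agent.P150.H185.Crit
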