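import Mathlib
import Vale.Agent.P150.H185.CritIneq
import Vale.Agent.P150.H185.CritPow

/-! Integration by parts bounds in terms of a bound for the covariance matrix on the spin
configurations; the cutoff in terms of the trace of a power of the covariance matrix. -/

open MeasureTheory ProbabilityTheory Filter Topology
open scoped Matrix

namespace Vale.Agent.P150.H185.Crit

open Vale.Agent.P150.Cav

variable {n : ℕ}

/-- `|M x| ≤ √n s` for all spin configurations -/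
def MB (β : ℝ) (g : Pairs n → ℝ) (s : ℝ) : Prop :=
  0 ≤ s ∧ ∀ x : Cfg n, (Mt β g *ᵥ sv x) ⬝ᵥ (Mt β g *ᵥ sv x) ≤ n * s ^ 2

lemma norm_rr_gen (z : ℂ) (β : ℝ) (hn : 0 < n) (g : Pairs n → ℝ) {s : ℝ} (hs : MB β g s)
    (x : Cfg n) : ‖rr z β g x‖ ≤ √(nsq (Gx z g x)) * (√n * s) := by
  have hn' : (0 : ℝ) < n := by exact_mod_cast hn
  set v : Fin n → ℂ := fun k => ∑ i, (Mm β g k i : ℂ) * (sp (x i) : ℂ) with hv
  have h1 : rr z β g x = ∑ k, Gx z g x k * v k := by
    have e1 : ∀ k, Gx z g x k * v k = ∑ j, ∑ i, (Gm z g j k * (sp (x j) : ℂ)) *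
        ((Mm β g k i : ℂ) * (sp (x i) : ℂ)) := by
      intro k
      rw [← sum_Gm_sp, hv, Finset.sum_mul_sum]
    rw [Finset.sum_congr rfl fun k _ => e1 k]
    unfold rr
    have e2 : ∀ i j : Fin n, (sp (x i) : ℂ) * (sp (x j) : ℂ) * hh z β g i j =
        ∑ k, (Gm z g j k * (sp (x j) : ℂ)) * ((Mm β g k i : ℂ) * (sp (x i) : ℂ)) := by
      intro i j
      rw [hh_eq, Finset.mul_sum]
      exact Finset.sum_congr rfl fun k _ => by ring
    refine (Finset.sum_congr rfl fun i _ => Finset.sum_congr rfl fun j _ => e2 i j).trans ?_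
    refine Finset.sum_comm.trans ?_
    refine (Finset.sum_congr rfl fun j _ => Finset.sum_comm).trans ?_
    exact Finset.sum_comm
  rw [h1]
  refine (norm_sum_le _ _).trans ?_
  have h2 := sum_norm_mul_le (Gx z g x) v
  have e4 : ∑ i, ‖Gx z g x i * v i‖ = ∑ i, ‖Gx z g x i‖ * ‖v i‖ :=
    Finset.sum_congr rfl fun i _ => norm_mul _ _
  rw [e4]
  refine h2.trans (mul_le_mul_of_nonneg_left ?_ (Real.sqrt_nonneg _))
  have h3 : nsq v ≤ n * s ^ 2 := by
    refine le_trans (le_of_eq ?_) (hs.2 x)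
    unfold nsq
    simp only [dotProduct]
    refine Finset.sum_congr rfl fun k _ => ?_
    have e6 : v k = (((Mt β g *ᵥ sv x) k : ℝ) : ℂ) := by
      rw [hv]
      simp only [Matrix.mulVec, dotProduct, sv, Mt_apply]
      push_cast
      rfl
    rw [e6, Complex.norm_real, Real.norm_eq_abs, sq_abs, sq]
  refine (Real.sqrt_le_sqrt h3).trans (le_of_eq ?_)
  rw [Real.sqrt_mul hn'.le, Real.sqrt_sq hs.1]

lemma norm_rr_gen' (z : ℂ) (hz : 0 < z.im) (β : ℝ) (hn : 0 < n) (g : Pairs n → ℝ) {s : ℝ}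
    (hs : MB β g s) (x : Cfg n) : ‖rr z β g x‖ ≤ (z.im)⁻¹ * n * s := by
  have hn' : (0 : ℝ) < n := by exact_mod_cast hn
  have h1 := norm_rr_gen z β hn g hs x
  have h2 : √(nsq (Gx z g x)) ≤ (z.im)⁻¹ * √n := by
    have := (coer_im z g).sqrt_nsq_inv_le hz (xv x)
    rwa [nsq_xv] at this
  have hs0 := hs.1
  refine h1.trans ((mul_le_mul_of_nonneg_right h2 (by positivity)).trans (le_of_eq ?_))
  have hss : √(n : ℝ) * √n = n := Real.mul_self_sqrt hn'.le
  calc (z.im)⁻¹ * √n * (√n * s) = (z.im)⁻¹ * (√n * √n) * s := by ring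
    _ = _ := by rw [hss]

lemma norm_rho_gen (z : ℂ) (hz : 0 < z.im) (β : ℝ) (hn : 0 < n) (g : Pairs n → ℝ) {s : ℝ}
    (hs : MB β g s) :
    ‖∑ i, ∑ j, (Mm β g i j : ℂ) * hh z β g i j‖ ≤ (z.im)⁻¹ * n * s := by
  rw [sum_Mm_hh]
  exact norm_avg_le β g _ _ fun x => norm_rr_gen' z hz β hn g hs x

lemma YY_le_gen (β : ℝ) (hn : 0 < n) (g : Pairs n → ℝ) {s : ℝ} (hs : MB β g s) :
    YY β g ≤ s * (n : ℝ)⁻¹ := by
  have hn' : (0 : ℝ) < n := by exact_mod_cast hn
  have h2 : (n : ℝ) ^ 2 * YY β g = ∑ x : Cfg n, pw β g x * qf β g x := by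
    rw [avg_qf]
    unfold YY
    field_simp
  have h3 : ∀ x : Cfg n, qf β g x ≤ n * s := by
    intro x
    have e1 : qf β g x = sv x ⬝ᵥ (Mt β g *ᵥ sv x) := by
      unfold qf
      simp only [dotProduct, Matrix.mulVec, sv, Mt_apply]
      refine Finset.sum_congr rfl fun i _ => ?_
      rw [Finset.mul_sum]
      exact Finset.sum_congr rfl fun j _ => by ring
    have h4 := dot_sq_le (sv x) (Mt β g *ᵥ sv x)
    rw [sv_dot, ← e1] at h4
    have h5 : qf β g x ^ 2 ≤ (n * s) ^ 2 := by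
      refine h4.trans ?_
      calc (n : ℝ) * ((Mt β g *ᵥ sv x) ⬝ᵥ (Mt β g *ᵥ sv x)) ≤ n * (n * s ^ 2) :=
            mul_le_mul_of_nonneg_left (hs.2 x) hn'.le
        _ = _ := by ring
    exact (abs_le_of_sq_le_sq' h5 (mul_nonneg hn'.le hs.1)).2
  have h4 : (n : ℝ) ^ 2 * YY β g ≤ n * s := by
    rw [h2]
    calc ∑ x : Cfg n, pw β g x * qf β g x ≤ ∑ x : Cfg n, pw β g x * (n * s) :=
          Finset.sum_le_sum fun x _ => mul_le_mul_of_nonneg_left (h3 x) (pw_pos β g x).le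
      _ = n * s := by rw [← Finset.sum_mul, pw_sum, one_mul]
  rw [← div_eq_mul_inv, le_div_iff₀ hn']
  have h5 : (YY β g * n) * n ≤ s * n := by
    calc (YY β g * n) * n = (n : ℝ) ^ 2 * YY β g := by ring
      _ ≤ n * s := h4
      _ = s * n := by ring
  exact le_of_mul_le_mul_right h5 hn'

lemma norm_sum_DTk_hh_le (z : ℂ) (hz : 0 < z.im) (β : ℝ) (hn : 0 < n) (g : Pairs n → ℝ) {s : ℝ}
    (hs : MB β g s) (m : ℕ) :
    ‖∑ i, ∑ j, (DTk β (2 * m + 1) i j g : ℂ) * hh z β g i j‖ ≤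
      (((2 * m + 1 : ℕ) : ℝ) + 1) * (|β| / Real.sqrt n) * (Tk β (2 * m + 2) g *
        (2 * ((z.im)⁻¹ * n * s))) := by
  have hn' : (0 : ℝ) < n := by exact_mod_cast hn
  set k : ℕ := 2 * m + 1 with hk
  set ρ : ℂ := ∑ i, ∑ j, (Mm β g i j : ℂ) * hh z β g i j with hρ
  have hρb := norm_rho_gen z hz β hn g hs
  rw [← hρ] at hρb
  have h1 : ∑ i, ∑ j, (DTk β k i j g : ℂ) * hh z β g i j =
      ((((k : ℝ) + 1) * (β / Real.sqrt n) : ℝ) : ℂ) *
        ∑ x : Cfg n, (pw β g x : ℂ) * ((Qk β k g x : ℂ) * (rr z β g x - ρ)) := by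
    have e0 : ∀ x : Cfg n, rr z β g x - ρ = ∑ i, ∑ j,
        ((sp (x i) * sp (x j) - Mm β g i j : ℝ) : ℂ) * hh z β g i j := by
      intro x
      rw [hρ]
      unfold rr
      rw [← Finset.sum_sub_distrib]
      refine Finset.sum_congr rfl fun i _ => ?_
      rw [← Finset.sum_sub_distrib]
      refine Finset.sum_congr rfl fun j _ => ?_
      push_cast
      ring
    simp only [e0]
    unfold DTk
    simp only [Finset.mul_sum, Finset.sum_mul, Complex.ofReal_sum, Complex.ofReal_mul]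
    have e1 : ∀ (F : Fin n → Fin n → Cfg n → ℂ), ∑ i, ∑ j, ∑ x : Cfg n, F i j x =
        ∑ x : Cfg n, ∑ i, ∑ j, F i j x := by
      intro F
      have : ∀ i : Fin n, ∑ j, ∑ x : Cfg n, F i j x = ∑ x : Cfg n, ∑ j, F i j x :=
        fun i => Finset.sum_comm
      simp only [this]
      exact Finset.sum_comm
    rw [e1]
    refine Finset.sum_congr rfl fun x _ => Finset.sum_congr rfl fun i _ =>
      Finset.sum_congr rfl fun j _ => ?_
    push_cast
    ring
  rw [h1, norm_mul, Complex.norm_real, Real.norm_eq_abs]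
  have h0 : |((k : ℝ) + 1) * (β / Real.sqrt n)| = ((k : ℝ) + 1) * (|β| / Real.sqrt n) := by
    rw [abs_mul, abs_div, abs_of_nonneg (Real.sqrt_nonneg _),
      abs_of_nonneg (by positivity : (0 : ℝ) ≤ (k : ℝ) + 1)]
  rw [h0]
  refine mul_le_mul_of_nonneg_left ?_ (by positivity)
  refine (norm_sum_le _ _).trans ?_
  have h2 := avg_Qk β k g
  rw [show 2 * m + 2 = k + 1 by omega, ← h2, Finset.sum_mul]
  refine Finset.sum_le_sum fun x _ => ?_
  have hQ : 0 ≤ Qk β k g x := Qk_nonneg β m g x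
  rw [norm_mul, norm_mul, norm_pw, Complex.norm_real, Real.norm_eq_abs,
    abs_of_nonneg hQ, mul_assoc]
  refine mul_le_mul_of_nonneg_left ?_ (pw_pos β g x).le
  refine mul_le_mul_of_nonneg_left ?_ hQ
  refine (norm_sub_le _ _).trans ?_
  have := norm_rr_gen' z hz β hn g hs x
  linarith only [this, hρb]

/-- the cutoff function -/
noncomputable def Pc (ε β : ℝ) (m : ℕ) (g : Pairs n → ℝ) : ℝ := (ε + Tk β (2 * m + 2) g)⁻¹

/-- derivative of the cutoff function -/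
noncomputable def DPc (ε β : ℝ) (m : ℕ) (i j : Fin n) (g : Pairs n → ℝ) : ℝ :=
  -DTk β (2 * m + 1) i j g / (ε + Tk β (2 * m + 2) g) ^ 2

lemma hasDerivAt_Pc {ε : ℝ} (hε : 0 < ε) (β : ℝ) (m : ℕ) (g : Pairs n → ℝ) (i j : Fin n)
    (h : i ≠ j) :
    HasDerivAt (fun s => Pc ε β m (Function.update g (pr i j h) s)) (DPc ε β m i j g)
      (g (pr i j h)) := by
  unfold Pc
  have h0 : ε + Tk β (2 * m + 2) (Function.update g (pr i j h) (g (pr i j h))) ≠ 0 := by
    have := Tk_nonneg β m (Function.update g (pr i j h) (g (pr i j h)))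
    exact ne_of_gt (by linarith)
  refine (((hasDerivAt_Tk β (2 * m + 1) g i j h).const_add ε).fun_inv h0).congr_deriv ?_
  simp only [Function.update_eq_self]
  rfl

lemma Pc_pos {ε : ℝ} (hε : 0 < ε) (β : ℝ) (m : ℕ) (g : Pairs n → ℝ) : 0 < Pc ε β m g :=
  inv_pos.2 (by have := Tk_nonneg β m g; linarith)

lemma Pc_le {ε : ℝ} (hε : 0 < ε) (β : ℝ) (m : ℕ) (g : Pairs n → ℝ) : Pc ε β m g ≤ ε⁻¹ :=
  inv_anti₀ hε (by have := Tk_nonneg β m g; linarith)

lemma continuous_Pc {ε : ℝ} (hε : 0 < ε) (β : ℝ) (m : ℕ) :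
    Continuous (fun g : Pairs n → ℝ => Pc ε β m g) := by
  unfold Pc
  refine Continuous.inv₀ (continuous_const.add (continuous_Tk β (2 * m + 2))) fun g => ?_
  have := Tk_nonneg β m g
  exact ne_of_gt (by linarith)

lemma continuous_DPc {ε : ℝ} (hε : 0 < ε) (β : ℝ) (m : ℕ) (i j : Fin n) :
    Continuous (fun g : Pairs n → ℝ => DPc ε β m i j g) := by
  unfold DPc
  refine Continuous.div (continuous_DTk β (2 * m + 1) i j).neg
    ((continuous_const.add (continuous_Tk β (2 * m + 2))).pow 2) fun g => ?_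
  have := Tk_nonneg β m g
  exact pow_ne_zero 2 (ne_of_gt (by linarith))

lemma abs_DPc_le {ε : ℝ} (hε : 0 < ε) (β : ℝ) (m : ℕ) (i j : Fin n) (g : Pairs n → ℝ) :
    |DPc ε β m i j g| ≤ (((2 * m + 1 : ℕ) : ℝ) + 1) * (|β| / Real.sqrt n) *
      ((n : ℝ) ^ (2 * m + 1 + 2) * 2) / ε ^ 2 := by
  unfold DPc
  have hT := Tk_nonneg β m g
  rw [abs_div, abs_neg, abs_of_nonneg (sq_nonneg (ε + Tk β (2 * m + 2) g))]
  have h1 := abs_DTk_le β (2 * m + 1) i j g
  have h2 : ε ^ 2 ≤ (ε + Tk β (2 * m + 2) g) ^ 2 :=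
    pow_le_pow_left₀ hε.le (by linarith) 2
  exact div_le_div₀ (by positivity) h1 (by positivity) h2

/-- the cutoff term is small -/
lemma norm_Xc_le {ε : ℝ} (hε : 0 < ε) (z : ℂ) (hz : 0 < z.im) (β : ℝ)
    (hn : 0 < n) (g : Pairs n → ℝ) {s : ℝ} (hs : MB β g s) (m : ℕ) :
    ‖((((n : ℝ) * Real.sqrt n)⁻¹ : ℝ) : ℂ) *
      ∑ i, ∑ j, (if i = j then 0 else (DPc ε β m i j g : ℂ) * hh z β g i j)‖ ≤
      (2 * (2 * m + 2) * |β| * (z.im)⁻¹) * (Pc ε β m g * (s * (n : ℝ)⁻¹)) := by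
  have hn' : (0 : ℝ) < n := by exact_mod_cast hn
  have hT := Tk_nonneg β m g
  have hs0 := hs.1
  set T : ℝ := Tk β (2 * m + 2) g with hTdef
  have hpos : 0 < ε + T := by linarith only [hT, hε]
  have e1 : ∑ i, ∑ j, (if i = j then 0 else (DPc ε β m i j g : ℂ) * hh z β g i j) =
      ((-((ε + T) ^ 2)⁻¹ : ℝ) : ℂ) *
        ∑ i, ∑ j, (DTk β (2 * m + 1) i j g : ℂ) * hh z β g i j := by
    rw [Finset.mul_sum]
    refine Finset.sum_congr rfl fun i _ => ?_
    rw [Finset.mul_sum]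
    refine Finset.sum_congr rfl fun j _ => ?_
    by_cases hij : i = j
    · subst hij
      have : DTk β (2 * m + 1) i i g = 0 := by
        unfold DTk
        rw [Mm_self]
        simp [Cav.sp_mul_self]
      simp [this]
    · simp only [hij, if_false]
      unfold DPc
      rw [← hTdef]
      push_cast
      rw [div_eq_mul_inv]
      ring
  rw [e1, norm_mul, norm_mul, Complex.norm_real, Complex.norm_real, Real.norm_eq_abs,
    Real.norm_eq_abs, abs_of_nonneg (by positivity : (0 : ℝ) ≤ ((n : ℝ) * Real.sqrt n)⁻¹),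
    abs_neg, abs_of_nonneg (by positivity : (0 : ℝ) ≤ ((ε + T) ^ 2)⁻¹)]
  have h2 := norm_sum_DTk_hh_le z hz β hn g hs m
  rw [← hTdef] at h2
  have hs' : Real.sqrt n * Real.sqrt n = n := Real.mul_self_sqrt hn'.le
  have hsq0 : Real.sqrt n ≠ 0 := (Real.sqrt_pos.2 hn').ne'
  have h4 : ((ε + T) ^ 2)⁻¹ * T ≤ (ε + T)⁻¹ := by
    rw [sq, mul_inv, mul_assoc]
    have h5 : (ε + T)⁻¹ * T ≤ 1 := by
      rw [inv_mul_eq_div, div_le_one hpos]; linarith only [hε]
    calc (ε + T)⁻¹ * ((ε + T)⁻¹ * T) ≤ (ε + T)⁻¹ * 1 :=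
          mul_le_mul_of_nonneg_left h5 (by positivity)
      _ = _ := mul_one _
  have hPc : Pc ε β m g = (ε + T)⁻¹ := rfl
  rw [hPc]
  have hcn : ((n : ℝ) * Real.sqrt n)⁻¹ * (|β| / Real.sqrt n) = |β| * ((n : ℝ)⁻¹) ^ 2 := by
    rw [div_eq_mul_inv, mul_inv]
    have : (Real.sqrt n)⁻¹ * (Real.sqrt n)⁻¹ = (n : ℝ)⁻¹ := by
      rw [← mul_inv, hs']
    calc (n : ℝ)⁻¹ * (Real.sqrt n)⁻¹ * (|β| * (Real.sqrt n)⁻¹)
        = (n : ℝ)⁻¹ * |β| * ((Real.sqrt n)⁻¹ * (Real.sqrt n)⁻¹) := by ring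
      _ = _ := by rw [this]; ring
  calc ((n : ℝ) * Real.sqrt n)⁻¹ * (((ε + T) ^ 2)⁻¹ *
        ‖∑ i, ∑ j, (DTk β (2 * m + 1) i j g : ℂ) * hh z β g i j‖)
      ≤ ((n : ℝ) * Real.sqrt n)⁻¹ * (((ε + T) ^ 2)⁻¹ *
        ((((2 * m + 1 : ℕ) : ℝ) + 1) * (|β| / Real.sqrt n) * (T *
        (2 * ((z.im)⁻¹ * n * s))))) := by
        refine mul_le_mul_of_nonneg_left ?_ (by positivity)
        exact mul_le_mul_of_nonneg_left h2 (by positivity)
    _ = (((n : ℝ) * Real.sqrt n)⁻¹ * (|β| / Real.sqrt n)) *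
        ((2 * (2 * m + 2) * (z.im)⁻¹ * s * n) * (((ε + T) ^ 2)⁻¹ * T)) := by
        push_cast
        ring
    _ = (2 * (2 * m + 2) * |β| * (z.im)⁻¹ * (s * (n : ℝ)⁻¹)) * (((ε + T) ^ 2)⁻¹ * T) := by
        rw [hcn]
        field_simp
    _ ≤ (2 * (2 * m + 2) * |β| * (z.im)⁻¹ * (s * (n : ℝ)⁻¹)) * (ε + T)⁻¹ :=
        mul_le_mul_of_nonneg_left h4 (by positivity)
    _ = _ := by ring

/-- the derivative term of `aa` -/
lemma norm_sum_Daa_hh_gen (z : ℂ) (hz : 0 < z.im) (β : ℝ) (hn : 0 < n) (g : Pairs n → ℝ) {s : ℝ}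
    (hs : MB β g s) :
    ‖((((n : ℝ) * Real.sqrt n)⁻¹ : ℝ) : ℂ) *
      ∑ i, ∑ j, (if i = j then 0 else (starRingEnd ℂ) (Daa z β i j g) * hh z β g i j)‖ ≤
      ‖aa z β g‖ * (2 * |β| * (z.im)⁻¹ * (s * (n : ℝ)⁻¹) + 2 * ((z.im)⁻¹) ^ 2 * (n : ℝ)⁻¹) := by
  have hn' : (0 : ℝ) < n := by exact_mod_cast hn
  have hs00 := hs.1
  set A : ℝ := (z.im)⁻¹ with hA
  have hA0 : 0 < A := by positivity
  set c : ℝ := ((n : ℝ) * Real.sqrt n)⁻¹ with hc
  have hc0 : 0 ≤ c := by positivity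
  set N : Cfg n → ℝ := fun x => √(nsq (Gx z g x)) with hN
  have hN0 : ∀ x, 0 ≤ N x := fun x => Real.sqrt_nonneg _
  have hN2 : ∀ x, N x ^ 2 = nsq (Gx z g x) := fun x => Real.sq_sqrt (nsq_nonneg _)
  set S : ℝ := ∑ x : Cfg n, pw β g x * nsq (Gx z g x) with hS
  have hS0 : 0 ≤ S := Finset.sum_nonneg fun x _ => mul_nonneg (pw_pos β g x).le (nsq_nonneg _)
  have hSle : S ≤ n * (A * ‖aa z β g‖) := avg_nsq_Gx_le z hz β hn g
  set T : ℝ := √n * s with hT
  have hT0 : 0 ≤ T := by positivity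
  set ρ : ℂ := ∑ i, ∑ j, (Mm β g i j : ℂ) * hh z β g i j with hρ
  set m : ℝ := ∑ x : Cfg n, pw β g x * N x with hm
  have hm0 : 0 ≤ m := Finset.sum_nonneg fun x _ => mul_nonneg (pw_pos β g x).le (hN0 x)
  have hmS : m * m ≤ S := by
    have h1 : 0 ≤ ∑ x : Cfg n, pw β g x * (N x - m) ^ 2 :=
      Finset.sum_nonneg fun x _ => mul_nonneg (pw_pos β g x).le (sq_nonneg _)
    have h2 : ∑ x : Cfg n, pw β g x * (N x - m) ^ 2 = S - m * m := by
      have e : ∀ x : Cfg n, pw β g x * (N x - m) ^ 2 =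
          pw β g x * nsq (Gx z g x) - 2 * m * (pw β g x * N x) + m ^ 2 * pw β g x := by
        intro x
        rw [← hN2 x]
        ring
      simp only [e]
      rw [Finset.sum_add_distrib, Finset.sum_sub_distrib, ← Finset.mul_sum, ← Finset.mul_sum,
        pw_sum, ← hS, ← hm]
      ring
    linarith only [h1, h2]
  have hrr : ∀ x, ‖rr z β g x‖ ≤ N x * T := fun x => norm_rr_gen z β hn g hs x
  have hρb : ‖ρ‖ ≤ m * T := by
    rw [hρ, sum_Mm_hh, hm, Finset.sum_mul]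
    refine (norm_sum_le _ _).trans (Finset.sum_le_sum fun x _ => ?_)
    rw [norm_mul, norm_pw, mul_assoc]
    exact mul_le_mul_of_nonneg_left (hrr x) (pw_pos β g x).le
  have hsplit : ∑ i, ∑ j, (if i = j then 0 else (starRingEnd ℂ) (Daa z β i j g) * hh z β g i j)
      = (c : ℂ) * (β * ∑ x : Cfg n, (pw β g x : ℂ) * ((starRingEnd ℂ) (FF z g x) *
          ∑ i, ∑ j, (if i = j then 0 else
            ((sp (x i) * sp (x j) - Mm β g i j : ℝ) : ℂ) * hh z β g i j))
        + 2 * ∑ x : Cfg n, (pw β g x : ℂ) * ∑ i, ∑ j, (if i = j then 0 else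
            (starRingEnd ℂ) (Gx z g x i * Gx z g x j) * hh z β g i j)) := by
    have e1 : ∀ (F : Fin n → Fin n → Cfg n → ℂ), ∑ i, ∑ j, ∑ x : Cfg n, F i j x =
        ∑ x : Cfg n, ∑ i, ∑ j, F i j x := by
      intro F
      have : ∀ i : Fin n, ∑ j, ∑ x : Cfg n, F i j x = ∑ x : Cfg n, ∑ j, F i j x :=
        fun i => Finset.sum_comm
      simp only [this]
      exact Finset.sum_comm
    have e2 : ∀ i j : Fin n, (if i = j then 0 else
        (starRingEnd ℂ) (Daa z β i j g) * hh z β g i j)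
        = ∑ x : Cfg n, ((c : ℂ) * (β * ((pw β g x : ℂ) * ((starRingEnd ℂ) (FF z g x) *
          (if i = j then 0 else
            ((sp (x i) * sp (x j) - Mm β g i j : ℝ) : ℂ) * hh z β g i j))))
        + (c : ℂ) * (2 * ((pw β g x : ℂ) * (if i = j then 0 else
            (starRingEnd ℂ) (Gx z g x i * Gx z g x j) * hh z β g i j)))) := by
      intro i j
      by_cases hij : i = j
      · simp [hij]
      · simp only [hij, if_false]
        unfold Daa
        rw [← hc, Finset.sum_add_distrib, ← Finset.mul_sum, ← Finset.mul_sum, ← Finset.mul_sum,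
          ← Finset.mul_sum]
        simp only [map_mul, map_add, map_sum, Complex.conj_ofReal, map_ofNat]
        rw [mul_assoc, add_mul, mul_add, mul_assoc, mul_assoc, Finset.sum_mul, Finset.sum_mul]
        congr 1
        · congr 2
          exact Finset.sum_congr rfl fun x _ => by ring
        · congr 2
          exact Finset.sum_congr rfl fun x _ => by ring
    simp only [e2]
    rw [e1]
    simp only [Finset.sum_add_distrib, ← Finset.mul_sum]
    rw [mul_add]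
  have hrho : ∀ x : Cfg n, ∑ i, ∑ j, (if i = j then 0 else
      ((sp (x i) * sp (x j) - Mm β g i j : ℝ) : ℂ) * hh z β g i j) = rr z β g x - ρ := by
    intro x
    rw [hρ]
    unfold rr
    rw [← Finset.sum_sub_distrib]
    refine Finset.sum_congr rfl fun i _ => ?_
    rw [← Finset.sum_sub_distrib]
    refine Finset.sum_congr rfl fun j _ => ?_
    by_cases hij : i = j
    · subst hij
      rw [if_pos rfl, Mm_self, ← Complex.ofReal_mul, Cav.sp_mul_self]
      simp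
    · rw [if_neg hij]
      push_cast
      ring
  rw [hsplit, norm_mul, norm_mul, Complex.norm_real, Real.norm_eq_abs, abs_of_nonneg hc0]
  -- first part
  have hp1 : ‖(β : ℂ) * ∑ x : Cfg n, (pw β g x : ℂ) * ((starRingEnd ℂ) (FF z g x) *
          ∑ i, ∑ j, (if i = j then 0 else
            ((sp (x i) * sp (x j) - Mm β g i j : ℝ) : ℂ) * hh z β g i j))‖
      ≤ |β| * (√n * T * (2 * S)) := by
    rw [norm_mul, Complex.norm_real, Real.norm_eq_abs]
    refine mul_le_mul_of_nonneg_left ?_ (abs_nonneg _)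
    refine (norm_sum_le _ _).trans ?_
    have h1 : ∀ x : Cfg n, ‖(pw β g x : ℂ) * ((starRingEnd ℂ) (FF z g x) *
          ∑ i, ∑ j, (if i = j then 0 else
            ((sp (x i) * sp (x j) - Mm β g i j : ℝ) : ℂ) * hh z β g i j))‖ ≤
        √n * T * (pw β g x * nsq (Gx z g x) + m * (pw β g x * N x)) := by
      intro x
      rw [hrho x, norm_mul, norm_pw, norm_mul, RCLike.norm_conj]
      have h2 : ‖FF z g x‖ ≤ √n * N x := norm_FF_le' z g x
      have h3 : ‖rr z β g x - ρ‖ ≤ N x * T + m * T :=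
        (norm_sub_le _ _).trans (add_le_add (hrr x) hρb)
      calc pw β g x * (‖FF z g x‖ * ‖rr z β g x - ρ‖) ≤
            pw β g x * ((√n * N x) * (N x * T + m * T)) := by
            refine mul_le_mul_of_nonneg_left ?_ (pw_pos β g x).le
            exact mul_le_mul h2 h3 (norm_nonneg _) (mul_nonneg (Real.sqrt_nonneg _) (hN0 x))
        _ = √n * T * (pw β g x * N x ^ 2 + m * (pw β g x * N x)) := by ring
        _ = _ := by rw [hN2]
    refine (Finset.sum_le_sum fun x _ => h1 x).trans ?_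
    rw [← Finset.mul_sum, Finset.sum_add_distrib, ← Finset.mul_sum, ← hS, ← hm]
    refine mul_le_mul_of_nonneg_left ?_ (by positivity)
    linarith only [hmS]
  have hp2 : ‖(2 : ℂ) * ∑ x : Cfg n, (pw β g x : ℂ) * ∑ i, ∑ j, (if i = j then 0 else
            (starRingEnd ℂ) (Gx z g x i * Gx z g x j) * hh z β g i j)‖
      ≤ 2 * (S * (A * n)) := by
    rw [norm_mul]
    simp only [Complex.norm_ofNat]
    refine mul_le_mul_of_nonneg_left ?_ (by norm_num)
    refine (norm_sum_le _ _).trans ?_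
    rw [hS, Finset.sum_mul]
    refine Finset.sum_le_sum fun x _ => ?_
    rw [norm_mul, norm_pw, mul_assoc]
    refine mul_le_mul_of_nonneg_left ?_ (pw_pos β g x).le
    have h1 : ∑ p : Fin n × Fin n, ‖(starRingEnd ℂ) (Gx z g x p.1 * Gx z g x p.2)‖ ^ 2
        = nsq (Gx z g x) * nsq (Gx z g x) := by
      rw [Fintype.sum_prod_type]
      unfold nsq
      rw [Finset.sum_mul_sum]
      refine Finset.sum_congr rfl fun i _ => Finset.sum_congr rfl fun j _ => ?_
      rw [RCLike.norm_conj, norm_mul, mul_pow]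
    have h2 := norm_sum_hh_le z hz β hn g
      (fun i j => (starRingEnd ℂ) (Gx z g x i * Gx z g x j))
      (S := nsq (Gx z g x)) (nsq_nonneg _) (by rw [h1, sq])
    refine h2.trans ?_
    refine mul_le_mul_of_nonneg_left ?_ (nsq_nonneg _)
    refine mul_le_mul_of_nonneg_left ?_ hA0.le
    have h3 : √(YY β g) ≤ 1 := Real.sqrt_le_one.2 (YY_le_one β hn g)
    calc (n : ℝ) * √(YY β g) ≤ n * 1 := mul_le_mul_of_nonneg_left h3 hn'.le
      _ = n := mul_one _
  have hs : Real.sqrt n * Real.sqrt n = n := Real.mul_self_sqrt hn'.le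
  have hcc : c * c * (n : ℝ) ^ 3 = 1 := by
    rw [hc]
    have hs0 : Real.sqrt n ≠ 0 := (Real.sqrt_pos.2 hn').ne'
    field_simp
    nlinarith [hs]
  have hsum := (norm_add_le ((β : ℂ) * ∑ x : Cfg n, (pw β g x : ℂ) * ((starRingEnd ℂ) (FF z g x) *
          ∑ i, ∑ j, (if i = j then 0 else
            ((sp (x i) * sp (x j) - Mm β g i j : ℝ) : ℂ) * hh z β g i j)))
    ((2 : ℂ) * ∑ x : Cfg n, (pw β g x : ℂ) * ∑ i, ∑ j, (if i = j then 0 else
            (starRingEnd ℂ) (Gx z g x i * Gx z g x j) * hh z β g i j))).trans (add_le_add hp1 hp2)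
  calc c * (c * _) ≤ c * (c * (|β| * (√n * T * (2 * S)) + 2 * (S * (A * n)))) :=
        mul_le_mul_of_nonneg_left (mul_le_mul_of_nonneg_left hsum hc0) hc0
    _ = (c * c) * (2 * |β| * (√n * √n) * s + 2 * A * n) * S := by
        rw [hT]; ring
    _ = (c * c) * (2 * |β| * n * s + 2 * A * n) * S := by
        rw [hs]
    _ ≤ (c * c) * (2 * |β| * n * s + 2 * A * n) * (n * (A * ‖aa z β g‖)) :=
        mul_le_mul_of_nonneg_left hSle (by positivity)
    _ = (c * c * (n : ℝ) ^ 3) * (‖aa z β g‖ *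
          (2 * |β| * A * (s * (n : ℝ)⁻¹) + 2 * A ^ 2 * (n : ℝ)⁻¹)) := by
        field_simp
    _ = _ := by rw [hcc, one_mul]

end Vale.Agent.P150.H185.Crit
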