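import Mathlib
import Vale.Agent.P150.H185.CritIneqPow
import Vale.Agent.P150.H185.CritMain

/-! At the critical point `β = 1` the spectral gap is at most `n ^ (-κ)` for every `κ < 1/2`. -/

open MeasureTheory ProbabilityTheory Filter Topology
open scoped Matrix

namespace Vale.Agent.P150.H185.Crit

open Vale.Agent.P150.Cav

variable {n : ℕ}

lemma interp {ε T θ : ℝ} (hε : 0 < ε) (hT : 0 ≤ T) (h0 : 0 ≤ θ) (h1 : θ ≤ 1) :
    ε * T ^ θ ≤ ε ^ θ * (ε + T) := by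
  have h2 := Real.geom_mean_le_arith_mean2_weighted (show 0 ≤ 1 - θ by linarith only [h1]) h0
    hε.le hT (by ring)
  have h3 : (1 - θ) * ε + θ * T ≤ ε + T := by
    have k1 : θ * T ≤ 1 * T := mul_le_mul_of_nonneg_right h1 hT
    have k2 : 0 ≤ θ * ε := mul_nonneg h0 hε.le
    linarith only [k1, k2]
  have h4 : ε ^ θ * ε ^ (1 - θ) = ε := by
    rw [← Real.rpow_add hε]
    have : θ + (1 - θ) = 1 := by ring
    rw [this, Real.rpow_one]
  have h5 : 0 ≤ ε ^ θ := Real.rpow_nonneg hε.le _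
  calc ε * T ^ θ = (ε ^ θ * ε ^ (1 - θ)) * T ^ θ := by rw [h4]
    _ = ε ^ θ * (ε ^ (1 - θ) * T ^ θ) := by ring
    _ ≤ ε ^ θ * (ε + T) := mul_le_mul_of_nonneg_left (h2.trans h3) h5

/-- the size of the covariance matrix on spin configurations -/
noncomputable def sT (β : ℝ) (m : ℕ) (g : Pairs n → ℝ) : ℝ :=
  (Tk β (2 * m + 2) g) ^ (((2 * m + 2 : ℕ) : ℝ)⁻¹)

lemma MB_sT (β : ℝ) (hn : 0 < n) {m j : ℕ} (hm : m + 1 = 2 ^ j) (g : Pairs n → ℝ) :
    MB β g (sT β m g) := by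
  have hn' : (0 : ℝ) < n := by exact_mod_cast hn
  have hT := Tk_nonneg β m g
  have hs0 : 0 ≤ sT β m g := Real.rpow_nonneg hT _
  refine ⟨hs0, fun x => ?_⟩
  have h1 := mulVec_pow_le β hn g x j
  have h2 : sT β m g ^ (2 * m + 2) = Tk β (2 * m + 2) g :=
    Real.rpow_inv_natCast_pow hT (by omega)
  have e1 : 2 * 2 ^ j = 2 * m + 2 := by rw [← hm]; ring
  rw [e1, ← hm] at h1
  have h3 : ((Mt β g *ᵥ sv x) ⬝ᵥ (Mt β g *ᵥ sv x)) ^ (m + 1) ≤
      (n * sT β m g ^ 2) ^ (m + 1) := by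
    refine h1.trans (le_of_eq ?_)
    have h4 : (Mt β g ^ (2 * m + 2)).trace = sT β m g ^ (2 * m + 2) := h2.symm
    rw [h4, mul_pow, ← pow_mul]
    congr 2
  exact (pow_le_pow_iff_left₀ (dot_self_nonneg _) (by positivity) (by omega)).1 h3

/-- inequality at fixed `n` -/
theorem prob_gap_ge_le_pow {β γ : ℝ} {u z : ℂ} (hu : 0 < u.im) (hzu : z = u + u⁻¹)
    (hz : 0 < z.im) (hγ : 0 < γ) {r L : ℝ}
    (hr : r ≤ u.im / ‖u - β‖ ^ 2 - γ⁻¹ * (u.im / ‖u‖ ^ 2)) (hr0 : 0 < r) (hn : 0 < n)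
    (hL : ∫ g : Pairs n → ℝ, ‖mm z g - u⁻¹‖ ^ 2 ∂(disorder n) ≤ L) {m j : ℕ}
    (hm : m + 1 = 2 ^ j) {lam : ℝ}
    (hlam : lam = (γ⁻¹ ^ (2 * m + 1) * n) ^ (((2 * m + 2 : ℕ) : ℝ)⁻¹) * (n : ℝ)⁻¹) :
    (disorder n).real {g | γ ≤ gap (skJ β g) (fun _ => 0)} ≤
      ((γ * r / 2) ^ 2)⁻¹ * L + ((‖u - β‖ * r / 2) ^ 2)⁻¹ * (2 * (
      3 * (((4 * m + 7) * |β| * (z.im)⁻¹) ^ 2 * lam ^ 2 +
        25 * (z.im)⁻¹ ^ 4 * (n : ℝ)⁻¹ ^ 2 + (z.im)⁻¹ ^ 2 * L) +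
      2 * (2 * |β| * (z.im)⁻¹ * lam + 2 * (z.im)⁻¹ ^ 2 * (n : ℝ)⁻¹))) := by
  have hn' : (0 : ℝ) < n := by exact_mod_cast hn
  have him : (u - (β : ℂ)).im = u.im := by simp
  have hne : u - (β : ℂ) ≠ 0 := by
    intro h
    have := congrArg Complex.im h
    rw [him] at this
    simp only [Complex.zero_im] at this
    exact hu.ne' this
  have hD : 0 < ‖u - (β : ℂ)‖ := norm_pos_iff.2 hne
  set D : ℝ := ‖u - (β : ℂ)‖ with hDdef
  set A : ℝ := (z.im)⁻¹ with hA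
  have hA0 : 0 < A := by positivity
  set κ : ℝ := γ * r / 2 with hκ
  have hκ0 : 0 < κ := by positivity
  set c0 : ℝ := D * r / 2 with hc0
  have hc00 : 0 < c0 := by positivity
  set ε : ℝ := γ⁻¹ ^ (2 * m + 1) * n with hεdef
  have hε : 0 < ε := by positivity
  set θ : ℝ := ((2 * m + 2 : ℕ) : ℝ)⁻¹ with hθ
  have hθ0 : 0 ≤ θ := by positivity
  have hθ1 : θ * 2 ≤ 1 := by
    rw [hθ, inv_mul_le_iff₀ (by positivity)]
    push_cast
    have : (0 : ℝ) ≤ m := Nat.cast_nonneg m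
    linarith only [this]
  have hs1 : ∀ g : Pairs n → ℝ, ε * (Pc ε β m g * (sT β m g * (n : ℝ)⁻¹)) ≤ lam := by
    intro g
    have hT := Tk_nonneg β m g
    have h1 := interp hε hT hθ0 (by linarith only [hθ1, hθ0])
    have hpos : 0 < ε + Tk β (2 * m + 2) g := by linarith only [hε, hT]
    rw [hlam]
    calc ε * (Pc ε β m g * (sT β m g * (n : ℝ)⁻¹)) =
          (ε * (Tk β (2 * m + 2) g) ^ θ) / (ε + Tk β (2 * m + 2) g) * (n : ℝ)⁻¹ := by
          unfold Pc sT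
          rw [← hθ]
          ring
      _ ≤ ε ^ θ * (n : ℝ)⁻¹ := by
          refine mul_le_mul_of_nonneg_right ?_ (by positivity)
          rw [div_le_iff₀ hpos]
          exact h1
  have hs2 : ∀ g : Pairs n → ℝ, ε * (Pc ε β m g * (sT β m g * (n : ℝ)⁻¹) ^ 2) ≤ lam ^ 2 := by
    intro g
    have hT := Tk_nonneg β m g
    have h1 := interp hε hT (show 0 ≤ θ * 2 by linarith only [hθ0]) hθ1
    have hpos : 0 < ε + Tk β (2 * m + 2) g := by linarith only [hε, hT]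
    have e1 : sT β m g ^ 2 = (Tk β (2 * m + 2) g) ^ (θ * 2) := by
      unfold sT
      rw [← hθ, ← Real.rpow_natCast, ← Real.rpow_mul hT]
      norm_num
    have e2 : (ε ^ θ) ^ 2 = ε ^ (θ * 2) := by
      rw [← Real.rpow_natCast, ← Real.rpow_mul hε.le]
      norm_num
    rw [hlam]
    calc ε * (Pc ε β m g * (sT β m g * (n : ℝ)⁻¹) ^ 2) =
          (ε * sT β m g ^ 2) / (ε + Tk β (2 * m + 2) g) * ((n : ℝ)⁻¹) ^ 2 := by
          unfold Pc
          ring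
      _ ≤ (ε ^ θ) ^ 2 * ((n : ℝ)⁻¹) ^ 2 := by
          refine mul_le_mul_of_nonneg_right ?_ (by positivity)
          rw [div_le_iff₀ hpos, e1, e2]
          exact h1
      _ = _ := by ring
  set I : ℝ := ∫ g : Pairs n → ℝ, ‖mm z g - u⁻¹‖ ^ 2 ∂(disorder n) with hI
  have hS := second_moment_pow (n := n) hε m u z hzu hz β hn (fun g => sT β m g)
    (fun g => MB_sT β hn hm g) hs1 hs2
  set E2 : ℝ := ∫ g : Pairs n → ℝ, Pc ε β m g * ‖th u z β g‖ ^ 2 ∂(disorder n) with hE2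
  have hmc := continuous_mm (n := n) z hz
  have hImm : Integrable (fun g : Pairs n → ℝ => ‖mm z g - u⁻¹‖ ^ 2) (disorder n) := by
    refine Integrable.of_bound ((hmc.sub continuous_const).norm.pow
      2).measurable.aestronglyMeasurable
      ((A + ‖u⁻¹‖) ^ 2) (Eventually.of_forall fun g => ?_)
    rw [Real.norm_eq_abs, abs_of_nonneg (by positivity)]
    exact pow_le_pow_left₀ (norm_nonneg _)
      ((norm_sub_le _ _).trans (add_le_add (norm_mm_le z hz hn g) le_rfl)) 2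
  have hIth : Integrable (fun g : Pairs n → ℝ => Pc ε β m g * ‖th u z β g‖ ^ 2)
      (disorder n) := by
    refine Integrable.of_bound ((continuous_Pc hε β m).mul
      ((continuous_th u z hz β).norm.pow 2)).measurable.aestronglyMeasurable
      (ε⁻¹ * (D * A + 1) ^ 2) (Eventually.of_forall fun g => ?_)
    rw [Real.norm_eq_abs, abs_of_nonneg (mul_nonneg (Pc_pos hε β m g).le (sq_nonneg _))]
    exact mul_le_mul (Pc_le hε β m g)
      (pow_le_pow_left₀ (norm_nonneg _) (norm_th_le u z hz β hn g) 2) (sq_nonneg _)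
      (by positivity)
  -- Markov
  have hM1 := mul_meas_ge_le_integral_of_nonneg (μ := disorder n)
    (Eventually.of_forall fun g : Pairs n → ℝ => sq_nonneg ‖mm z g - u⁻¹‖) hImm (κ ^ 2)
  have hM2 := mul_meas_ge_le_integral_of_nonneg (μ := disorder n)
    (Eventually.of_forall fun g : Pairs n → ℝ =>
      mul_nonneg (Pc_pos hε β m g).le (sq_nonneg ‖th u z β g‖)) hIth ((2 * ε)⁻¹ * c0 ^ 2)
  have hsub : {g : Pairs n → ℝ | γ ≤ gap (skJ β g) (fun _ => 0)} ⊆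
      {g | κ ^ 2 ≤ ‖mm z g - u⁻¹‖ ^ 2} ∪
      {g | (2 * ε)⁻¹ * c0 ^ 2 ≤ Pc ε β m g * ‖th u z β g‖ ^ 2} := by
    intro g hg
    have hg' : γ ≤ gap (skJ β g) (fun _ => 0) := hg
    by_cases hmm : κ ≤ ‖mm z g - u⁻¹‖
    · exact Or.inl (pow_le_pow_left₀ hκ0.le hmm 2)
    · refine Or.inr ?_
      have hm' : ‖mm z g - u⁻¹‖ ≤ κ := (not_le.1 hmm).le
      have h1 := defect_lower u z hu hz hγ hg'
      rw [← hDdef] at h1
      have h2 : γ⁻¹ * ‖mm z g - u⁻¹‖ ≤ r / 2 := by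
        calc γ⁻¹ * ‖mm z g - u⁻¹‖ ≤ γ⁻¹ * κ := mul_le_mul_of_nonneg_left hm' (by positivity)
          _ = r / 2 := by rw [hκ]; field_simp
      have h3 : c0 ≤ ‖th u z β g‖ := by
        refine le_trans ?_ h1
        calc c0 = D * (r - r / 2) := by rw [hc0]; ring
          _ ≤ _ := mul_le_mul_of_nonneg_left (by linarith only [h2, hr]) hD.le
      have h4 : c0 ^ 2 ≤ ‖th u z β g‖ ^ 2 := pow_le_pow_left₀ hc00.le h3 2
      have hT := Tk_nonneg β m g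
      have h5 : Tk β (2 * m + 2) g ≤ ε := by
        refine trace_le β g (inv_nonneg.2 hγ.le) (fun v => ?_) m
        rw [quad_Mt]
        refine (cov_gap hγ hg' v).trans (le_of_eq ?_)
        simp only [dotProduct, sq]
      have h6 : (2 * ε)⁻¹ ≤ Pc ε β m g := by
        unfold Pc
        exact inv_anti₀ (by linarith only [hε, hT]) (by linarith only [h5])
      exact mul_le_mul h6 h4 (sq_nonneg _) (Pc_pos hε β m g).le
  have h1 : (disorder n).real {g | γ ≤ gap (skJ β g) (fun _ => 0)} ≤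
      (disorder n).real {g : Pairs n → ℝ | κ ^ 2 ≤ ‖mm z g - u⁻¹‖ ^ 2} +
      (disorder n).real {g : Pairs n → ℝ | (2 * ε)⁻¹ * c0 ^ 2 ≤
        Pc ε β m g * ‖th u z β g‖ ^ 2} :=
    (measureReal_mono hsub).trans (measureReal_union_le _ _)
  have h2 : (disorder n).real {g : Pairs n → ℝ | κ ^ 2 ≤ ‖mm z g - u⁻¹‖ ^ 2} ≤
      (κ ^ 2)⁻¹ * L := by
    rw [inv_mul_eq_div, le_div_iff₀ (by positivity), mul_comm]
    exact hM1.trans hL
  have h3 : (disorder n).real {g : Pairs n → ℝ | (2 * ε)⁻¹ * c0 ^ 2 ≤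
        Pc ε β m g * ‖th u z β g‖ ^ 2} ≤ (c0 ^ 2)⁻¹ * (2 * (ε * E2)) := by
    set p : ℝ := (disorder n).real {g : Pairs n → ℝ | (2 * ε)⁻¹ * c0 ^ 2 ≤
        Pc ε β m g * ‖th u z β g‖ ^ 2} with hp
    have e1 : p = (c0 ^ 2)⁻¹ * (2 * (ε * ((2 * ε)⁻¹ * c0 ^ 2 * p))) := by
      field_simp
    rw [e1]
    refine mul_le_mul_of_nonneg_left ?_ (by positivity)
    refine mul_le_mul_of_nonneg_left ?_ (by norm_num)
    exact mul_le_mul_of_nonneg_left hM2 hε.le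
  have h4 : A ^ 2 * I ≤ A ^ 2 * L := mul_le_mul_of_nonneg_left hL (by positivity)
  have h5 : (c0 ^ 2)⁻¹ * (2 * (ε * E2)) ≤ (c0 ^ 2)⁻¹ * (2 * (
      3 * (((4 * m + 7) * |β| * A) ^ 2 * lam ^ 2 +
        25 * A ^ 4 * (n : ℝ)⁻¹ ^ 2 + A ^ 2 * L) +
      2 * (2 * |β| * A * lam + 2 * A ^ 2 * (n : ℝ)⁻¹))) :=
    mul_le_mul_of_nonneg_left (by linarith only [h4, hS]) (by positivity)
  linarith only [h1, h2, h3, h5]

/-- explicit bound at the critical point -/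
theorem crit_prob_pow {m j : ℕ} (hm : m + 1 = 2 ^ j) {τ : ℝ} (hτ : 0 < τ) (hτ1 : τ ≤ 1 / 4)
    (hn : 0 < n) (hbig : 24 ≤ n * τ ^ 3) :
    (disorder n).real {g | 4 * τ ^ 2 ≤ gap (skJ 1 g) (fun _ => 0)} ≤
      (768 + 192 * ((4 * m + 7) ^ 2 + 89)) *
        (τ⁻¹ ^ 4 * (n : ℝ) ^ (((2 * m + 2 : ℕ) : ℝ)⁻¹) * (n : ℝ)⁻¹) := by
  have hn' : (0 : ℝ) < n := by exact_mod_cast hn
  have hn1 : (1 : ℝ) ≤ n := by exact_mod_cast hn
  set θ : ℝ := ((2 * m + 2 : ℕ) : ℝ)⁻¹ with hθ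
  have hθ0 : 0 ≤ θ := by positivity
  set N : ℝ := (n : ℝ) ^ θ with hN
  have hN1 : 1 ≤ N := Real.one_le_rpow hn1 hθ0
  have hN0 : 0 < N := by linarith only [hN1]
  set y : ℝ := τ⁻¹ with hy
  have hy0 : 0 < y := by positivity
  have hyτ : y * τ = 1 := inv_mul_cancel₀ hτ.ne'
  have hy1 : 1 ≤ y := by
    rw [hy, one_le_inv₀ hτ]; linarith only [hτ1]
  set i : ℝ := (n : ℝ)⁻¹ with hi
  have hi0 : 0 < i := by positivity
  set w : ℝ := y ^ 4 * N * i with hw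
  have hw0 : 0 < w := by positivity
  have hC0 : (0 : ℝ) ≤ (4 * m + 7) ^ 2 := sq_nonneg _
  have hprob : (disorder n).real {g | 4 * τ ^ 2 ≤ gap (skJ 1 g) (fun _ => 0)} ≤ 1 :=
    measureReal_le_one
  rcases le_or_gt w 1 with hw1 | hw1
  swap
  · have h1 : 1 * w ≤ (768 + 192 * ((4 * m + 7) ^ 2 + 89)) * w :=
      mul_le_mul_of_nonneg_right (by linarith only [hC0]) hw0.le
    linarith only [hprob, hw1, h1]
  obtain ⟨u, huim, hnu, hnd, hu1, hus, hzim⟩ := param hτ hτ1 1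
  set z : ℂ := u + u⁻¹ with hz
  have hτ2 : 0 < τ ^ 2 := by positivity
  have hzim0 : 0 < z.im := lt_of_lt_of_le hτ2 hzim
  have hu0 : 0 < u.im := by rw [huim]; exact hτ
  set A : ℝ := (z.im)⁻¹ with hA
  have hA0 : 0 < A := by positivity
  have hAy : A ≤ y ^ 2 := by
    rw [hA, hy, inv_pow]
    exact inv_anti₀ hτ2 hzim
  have hbig' : y ^ 3 * i ≤ 1 / 24 := by
    rw [hi, hy, inv_pow, ← mul_inv, mul_comm (τ ^ 3) (n : ℝ), one_div]
    exact inv_anti₀ (by norm_num) hbig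
  have hγ : 0 < 4 * τ ^ 2 := by positivity
  have h24 : 24 * (A * i) ≤ u.im := by
    rw [huim]
    have h1 : A * i ≤ y ^ 2 * i := mul_le_mul_of_nonneg_right hAy hi0.le
    have h2 : y ^ 2 * i = (y ^ 3 * i) * τ := by
      calc y ^ 2 * i = y ^ 2 * i * (y * τ) := by rw [hyτ, mul_one]
        _ = _ := by ring
    have h3 : (y ^ 3 * i) * τ ≤ 1 / 24 * τ := mul_le_mul_of_nonneg_right hbig' hτ.le
    linarith only [h1, h2, h3]
  have hL := local_law (n := n) u hu0 hu1 hus z hz hzim0 hn h24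
  rw [← hA, ← hi] at hL
  have hnd' : ‖u - ((1 : ℝ) : ℂ)‖ ^ 2 = 2 * τ ^ 2 := by
    rw [hnd]; ring
  set r : ℝ := y / 4 with hr
  have hr0 : 0 < r := by positivity
  have hrle : r ≤ u.im / ‖u - ((1 : ℝ) : ℂ)‖ ^ 2 - (4 * τ ^ 2)⁻¹ * (u.im / ‖u‖ ^ 2) := by
    have h1 : u.im / ‖u‖ ^ 2 ≤ τ := by
      rw [huim]
      exact div_le_self hτ.le (one_le_pow₀ hu1)
    have h2 : (4 * τ ^ 2)⁻¹ * (u.im / ‖u‖ ^ 2) ≤ (4 * τ ^ 2)⁻¹ * τ :=
      mul_le_mul_of_nonneg_left h1 (by positivity)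
    have h3 : (4 * τ ^ 2)⁻¹ * τ = y / 4 := by
      rw [hy]; field_simp
    have h4 : u.im / ‖u - ((1 : ℝ) : ℂ)‖ ^ 2 = y / 2 := by
      rw [hnd', huim, hy]; field_simp
    rw [h4, hr]
    linarith only [h2, h3]
  set lam : ℝ := ((4 * τ ^ 2)⁻¹ ^ (2 * m + 1) * n) ^ θ * i with hlam
  have hlam0 : 0 ≤ lam := by positivity
  have h1 := prob_gap_ge_le_pow (β := 1) hu0 hz hzim0 hγ hrle hr0 hn hL hm (lam := lam)
    (by rw [hlam])
  rw [← hA, ← hi] at h1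
  have e1 : ((4 * τ ^ 2 * r / 2) ^ 2)⁻¹ = 4 * y ^ 2 := by
    rw [hr, hy]; field_simp; norm_num
  have e2 : ((‖u - ((1 : ℝ) : ℂ)‖ * r / 2) ^ 2)⁻¹ = 32 := by
    have : (‖u - ((1 : ℝ) : ℂ)‖ * r / 2) ^ 2 = ‖u - ((1 : ℝ) : ℂ)‖ ^ 2 * r ^ 2 / 4 := by ring
    rw [this, hnd', hr, hy]
    field_simp
    norm_num
  rw [e1, e2, abs_one] at h1
  refine h1.trans ?_
  -- the size of `lam`
  have hlamle : lam ≤ y ^ 2 * N * i := by
    rw [hlam]
    refine mul_le_mul_of_nonneg_right ?_ hi0.le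
    have k1 : (4 * τ ^ 2)⁻¹ ≤ y ^ 2 := by
      rw [hy, inv_pow]
      exact inv_anti₀ hτ2 (by linarith only [hτ2])
    have k2 : (4 * τ ^ 2)⁻¹ ^ (2 * m + 1) ≤ (y ^ 2) ^ (2 * m + 2) := by
      calc (4 * τ ^ 2)⁻¹ ^ (2 * m + 1) ≤ (y ^ 2) ^ (2 * m + 1) :=
            pow_le_pow_left₀ (by positivity) k1 _
        _ ≤ (y ^ 2) ^ (2 * m + 2) := pow_le_pow_right₀ (one_le_pow₀ hy1) (by omega)
    have k3 : ((4 * τ ^ 2)⁻¹ ^ (2 * m + 1) * n) ^ θ ≤ ((y ^ 2) ^ (2 * m + 2) * n) ^ θ :=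
      Real.rpow_le_rpow (by positivity) (mul_le_mul_of_nonneg_right k2 hn'.le) hθ0
    refine k3.trans (le_of_eq ?_)
    rw [Real.mul_rpow (by positivity) hn'.le, ← hN]
    congr 1
    rw [hθ]
    exact Real.pow_rpow_inv_natCast (by positivity) (by omega)
  have hAl : A * lam ≤ w := by
    calc A * lam ≤ y ^ 2 * (y ^ 2 * N * i) := mul_le_mul hAy hlamle hlam0 (by positivity)
      _ = w := by rw [hw]; ring
  have hA2 : A ^ 2 ≤ y ^ 4 := by
    calc A ^ 2 ≤ (y ^ 2) ^ 2 := pow_le_pow_left₀ hA0.le hAy 2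
      _ = y ^ 4 := by ring
  have hAi : A ^ 2 * i ≤ w := by
    calc A ^ 2 * i ≤ y ^ 4 * i := mul_le_mul_of_nonneg_right hA2 hi0.le
      _ = y ^ 4 * 1 * i := by ring
      _ ≤ y ^ 4 * N * i := by
          refine mul_le_mul_of_nonneg_right ?_ hi0.le
          exact mul_le_mul_of_nonneg_left hN1 (by positivity)
  have hw2w : w ^ 2 ≤ w := by
    rw [sq]; exact mul_le_of_le_one_left hw0.le hw1
  have hw20 : 0 ≤ w ^ 2 := sq_nonneg _
  have hAi2 : (A ^ 2 * i) ^ 2 ≤ w ^ 2 := pow_le_pow_left₀ (by positivity) hAi 2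
  have t1 : 4 * y ^ 2 * (64 * (A * i) ^ 2) ≤ 256 * w ^ 2 := by
    have h2 : y * (A * i) ≤ w := by
      calc y * (A * i) ≤ y * (y ^ 2 * i) :=
            mul_le_mul_of_nonneg_left (mul_le_mul_of_nonneg_right hAy hi0.le) hy0.le
        _ = y ^ 3 * i := by ring
        _ ≤ y ^ 4 * i :=
            mul_le_mul_of_nonneg_right (pow_le_pow_right₀ hy1 (by norm_num)) hi0.le
        _ = y ^ 4 * 1 * i := by ring
        _ ≤ y ^ 4 * N * i := by
            refine mul_le_mul_of_nonneg_right ?_ hi0.le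
            exact mul_le_mul_of_nonneg_left hN1 (by positivity)
    have h3 : (y * (A * i)) ^ 2 ≤ w ^ 2 := pow_le_pow_left₀ (by positivity) h2 2
    calc 4 * y ^ 2 * (64 * (A * i) ^ 2) = 256 * (y * (A * i)) ^ 2 := by ring
      _ ≤ _ := by linarith only [h3]
  have t2 : ((4 * m + 7) * 1 * A) ^ 2 * lam ^ 2 ≤ (4 * m + 7) ^ 2 * w ^ 2 := by
    have h2 : (A * lam) ^ 2 ≤ w ^ 2 := pow_le_pow_left₀ (by positivity) hAl 2
    calc ((4 * m + 7) * 1 * A) ^ 2 * lam ^ 2 = (4 * m + 7) ^ 2 * (A * lam) ^ 2 := by ring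
      _ ≤ _ := mul_le_mul_of_nonneg_left h2 (sq_nonneg _)
  have t3 : 25 * A ^ 4 * i ^ 2 ≤ 25 * w ^ 2 := by
    calc 25 * A ^ 4 * i ^ 2 = 25 * (A ^ 2 * i) ^ 2 := by ring
      _ ≤ _ := by linarith only [hAi2]
  have t4 : A ^ 2 * (64 * (A * i) ^ 2) ≤ 64 * w ^ 2 := by
    calc A ^ 2 * (64 * (A * i) ^ 2) = 64 * (A ^ 2 * i) ^ 2 := by ring
      _ ≤ _ := by linarith only [hAi2]
  have t5 : 2 * (2 * 1 * A * lam + 2 * A ^ 2 * i) ≤ 8 * w := by
    linarith only [hAl, hAi]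
  have t6 : (256 + 192 * ((4 * m + 7) ^ 2 + 89)) * w ^ 2 ≤
      (256 + 192 * ((4 * m + 7) ^ 2 + 89)) * w :=
    mul_le_mul_of_nonneg_left hw2w (by linarith only [hC0])
  linarith only [t1, t2, t3, t4, t5, t6]

/-- The gap at the critical point is at most `n ^ (-κ)` with high probability, for `κ < 1/2`. -/
theorem gap_crit_pow (κ : ℝ) (hκ : κ < 1 / 2) :
    WHP (fun n => {g | gap (skJ 1 g) (fun _ => 0) ≤ (n : ℝ) ^ (-κ)}) := by
  set k : ℝ := max κ (1 / 4) with hk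
  have hk1 : k < 1 / 2 := max_lt hκ (by norm_num)
  have hk2 : 1 / 4 ≤ k := le_max_right _ _
  have hk3 : κ ≤ k := le_max_left _ _
  obtain ⟨j, hj⟩ := exists_pow_lt_of_lt_one (show (0 : ℝ) < 1 - 2 * k by linarith only [hk1])
    (show (1 / 2 : ℝ) < 1 by norm_num)
  obtain ⟨m, hm⟩ : ∃ m : ℕ, m + 1 = 2 ^ j := ⟨2 ^ j - 1, Nat.sub_add_cancel Nat.one_le_two_pow⟩
  set θ : ℝ := ((2 * m + 2 : ℕ) : ℝ)⁻¹ with hθ
  have hθ1 : θ < 1 - 2 * k := by
    have e1 : ((2 * m + 2 : ℕ) : ℝ) = 2 * 2 ^ j := by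
      have : (2 * m + 2 : ℕ) = 2 * 2 ^ j := by rw [← hm]; ring
      rw [this]; push_cast; ring
    rw [hθ, e1, mul_inv]
    have h1 : ((2 : ℝ) ^ j)⁻¹ = (1 / 2) ^ j := by rw [one_div, inv_pow]
    rw [h1]
    have h2 : (0 : ℝ) < (1 / 2) ^ j := by positivity
    linarith only [hj, h2]
  set C : ℝ := (768 + 192 * ((4 * m + 7) ^ 2 + 89)) * 16 with hC
  have hreal : Tendsto (fun n : ℕ => (disorder n).real
      {g | gap (skJ 1 g) (fun _ => 0) ≤ (n : ℝ) ^ (-κ)}ᶜ) atTop (𝓝 0) := by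
    have hlim : Tendsto (fun n : ℕ => C * (n : ℝ) ^ (-(1 - 2 * k - θ))) atTop (𝓝 0) := by
      have h1 := ((tendsto_rpow_neg_atTop (show 0 < 1 - 2 * k - θ by linarith only [hθ1])).comp
        tendsto_natCast_atTop_atTop).const_mul C
      rw [mul_zero] at h1
      exact h1
    have hq1 : Tendsto (fun n : ℕ => (n : ℝ) ^ (-(k / 2))) atTop (𝓝 0) :=
      (tendsto_rpow_neg_atTop (show 0 < k / 2 by linarith only [hk2])).comp
        tendsto_natCast_atTop_atTop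
    have hq2 : Tendsto (fun n : ℕ => (n : ℝ) ^ (1 - 3 * k / 2)) atTop atTop :=
      (tendsto_rpow_atTop (by linarith only [hk1])).comp tendsto_natCast_atTop_atTop
    refine tendsto_of_tendsto_of_tendsto_of_le_of_le' tendsto_const_nhds hlim
      (Eventually.of_forall fun n => measureReal_nonneg) ?_
    filter_upwards [eventually_gt_atTop 0, hq1.eventually_le_const
      (show (0 : ℝ) < 1 / 2 by norm_num), hq2.eventually_ge_atTop 192] with n hn0 h1 h2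
    have hn' : (0 : ℝ) < n := by exact_mod_cast hn0
    have hn1 : (1 : ℝ) ≤ n := by exact_mod_cast hn0
    set τ : ℝ := (n : ℝ) ^ (-(k / 2)) / 2 with hτ
    have hq0 : 0 < (n : ℝ) ^ (-(k / 2)) := Real.rpow_pos_of_pos hn' _
    have hτ0 : 0 < τ := by positivity
    have hτ1 : τ ≤ 1 / 4 := by rw [hτ]; linarith only [h1]
    have hτ2 : 4 * τ ^ 2 = (n : ℝ) ^ (-k) := by
      have : ((n : ℝ) ^ (-(k / 2))) ^ 2 = (n : ℝ) ^ (-k) := by
        rw [← Real.rpow_natCast, ← Real.rpow_mul hn'.le]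
        congr 1
        push_cast
        ring
      rw [hτ, div_pow, this]; ring
    have hbig : 24 ≤ n * τ ^ 3 := by
      have : n * ((n : ℝ) ^ (-(k / 2))) ^ 3 = (n : ℝ) ^ (1 - 3 * k / 2) := by
        rw [← Real.rpow_natCast, ← Real.rpow_mul hn'.le]
        conv_lhs => arg 1; rw [← Real.rpow_one (n : ℝ)]
        rw [← Real.rpow_add hn']
        congr 1
        push_cast
        ring
      rw [hτ, div_pow, ← mul_div_assoc, this]
      linarith only [h2]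
    have h3 := crit_prob_pow hm hτ0 hτ1 hn0 hbig
    rw [hτ2] at h3
    refine (measureReal_mono ?_).trans (h3.trans (le_of_eq ?_))
    · intro g hg
      have hg' : ¬ (gap (skJ 1 g) (fun _ => 0) ≤ (n : ℝ) ^ (-κ)) := hg
      have h4 : (n : ℝ) ^ (-k) ≤ (n : ℝ) ^ (-κ) :=
        Real.rpow_le_rpow_of_exponent_le hn1 (by linarith only [hk3])
      exact h4.trans (not_le.1 hg').le
    · have e1 : τ⁻¹ ^ 4 = 16 * (n : ℝ) ^ (2 * k) := by
        have : (((n : ℝ) ^ (-(k / 2)))⁻¹) ^ 4 = (n : ℝ) ^ (2 * k) := by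
          rw [← Real.rpow_neg hn'.le, ← Real.rpow_natCast, ← Real.rpow_mul hn'.le]
          congr 1
          push_cast
          ring
        rw [hτ, inv_div, div_eq_mul_inv, mul_pow, this]
        ring
      have e2 : (n : ℝ)⁻¹ = (n : ℝ) ^ (-1 : ℝ) := by rw [Real.rpow_neg_one]
      rw [e1, e2, hC, ← hθ]
      have e3 : (n : ℝ) ^ (2 * k) * (n : ℝ) ^ θ * (n : ℝ) ^ (-1 : ℝ) =
          (n : ℝ) ^ (-(1 - 2 * k - θ)) := by
        rw [← Real.rpow_add hn', ← Real.rpow_add hn']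
        congr 1
        ring
      rw [← e3]
      ring
  have h := ENNReal.tendsto_ofReal hreal
  rw [ENNReal.ofReal_zero] at h
  unfold WHP
  refine h.congr fun n => ?_
  have : IsProbabilityMeasure (disorder n) := by unfold disorder; infer_instance
  exact ENNReal.ofReal_toReal (measure_ne_top _ _)

/-- Slow mixing at the critical point. -/
theorem crit_pow (κ : ℝ) (hκ : κ < 1 / 2) : WHP (fun n => {g |
      gap (skJ 1 g) (fun _ => 0) ≤ (n : ℝ) ^ (-κ) ∧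
      Real.log 2 * (n : ℝ) ^ κ ≤ tmix (skJ 1 g) (fun _ => 0) ∧
      ∀ t, 0 ≤ t → ∃ x, Real.exp (-((n : ℝ) ^ (-κ) * t)) / 2 ≤
        tvDist (skJ 1 g) (fun _ => 0) t x}) := by
  refine MainThm.whp_mono (gap_crit_pow κ hκ) ?_
  filter_upwards [eventually_gt_atTop 0] with n hn
  intro g hg
  have hn' : (0 : ℝ) < n := by exact_mod_cast hn
  have hg' : gap (skJ 1 g) (fun _ => 0) ≤ (n : ℝ) ^ (-κ) := hg
  have hp : 0 < (n : ℝ) ^ (-κ) := Real.rpow_pos_of_pos hn' _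
  refine ⟨hg', ?_, fun t ht => exists_tv_ge hn (Asm.skJ_symm 1 g) (fun _ => 0) hg' t ht⟩
  have h5 := tmix_ge hn (skJ_symm 1 g) (fun _ => 0) (a := (n : ℝ) ^ (-κ)) hp hg'
  refine le_trans (le_of_eq ?_) h5
  rw [Real.rpow_neg hn'.le, div_inv_eq_mul]

end Vale.Agent.P150.H185.Crit
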